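import Vale.Agent.P167.Fjord.Defs2
import Vale.Agent.P167.H161.Crs

/-!
# P167, block FJORD: elementary facts on the positions of the darts
-/

open Set Metric

namespace Vale.Agent.P167.Fjord

open Vale.Agent.P167.E6 Vale.Agent.P167.E2

/-- The position of a dart. -/
noncomputable def Pp (δ : ℝ) (c : Medial) : ℂ := (δ : ℂ) * cpt (1 / 4) c

variable {n : ℕ} {p : ZMod n → ℤ × ℤ} {S : Finset (ℤ × ℤ)} {k : ℕ} {A : Finset (Sym2 (ℤ × ℤ))}
variable {δ : ℝ}

theorem pl_nat {j : ℕ} (h : j ≤ len p k A) : pl p k δ A ((j : ℝ) + 1) = Pp δ (run p k A j) := by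
  unfold pl Pp
  have := lin_nat (xv p k A) (j + 1)
  push_cast at this
  rw [this, xv_mid h]

theorem pl_nat' {t : ℕ} (h0 : 1 ≤ t) (h : t ≤ len p k A + 1) :
    pl p k δ A (t : ℝ) = Pp δ (run p k A (t - 1)) := by
  obtain ⟨j, rfl⟩ : ∃ j, t = j + 1 := ⟨t - 1, by omega⟩
  rw [Nat.add_sub_cancel, ← pl_nat (by omega)]
  push_cast
  rfl

theorem pl_lip (hp : IsPolygon p) (hS : Encloses p S) (hk : k < n) (hA : A ⊆ edges S)
    (hδ : 0 ≤ δ) {s t : ℝ} (h0 : 0 ≤ s) (hst : s ≤ t) (ht : t ≤ nu p k A) :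
    dist (pl p k δ A t) (pl p k δ A s) ≤ δ * (1 / 2 * (t - s)) := by
  unfold pl
  rw [dist_eq_norm, ← mul_sub, norm_mul, Complex.norm_real, Real.norm_of_nonneg hδ]
  exact mul_le_mul_of_nonneg_left (lin_lip (xv_step hp hS hk hA) h0 hst ht) hδ

theorem dist_mid_Pp (hδ : 0 ≤ δ) (c : Medial) : dist (mid δ c) (Pp δ c) ≤ δ / 2 := by
  have e : mid δ c - Pp δ c = (δ : ℂ) * ((pt c.1 + pt (c.1 + dir (c.2 + 1))) / 2 -
      cpt (1 / 4) c) := by
    unfold mid Pp
    ring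
  rw [dist_eq_norm, e, norm_mul, Complex.norm_real, Real.norm_of_nonneg hδ]
  have := mul_le_mul_of_nonneg_left (mid_cpt c) hδ
  linarith

theorem dist_bit (hδ : 0 ≤ δ) (c : Medial) : dist ((δ : ℂ) * cpt (3 / 8) c) (Pp δ c) ≤ δ / 2 := by
  unfold Pp
  rw [dist_comm, dist_eq_norm, ← mul_sub, norm_mul, Complex.norm_real, Real.norm_of_nonneg hδ]
  have := mul_le_mul_of_nonneg_left (cpt_end c) hδ
  linarith

theorem run_step (hδ : 0 ≤ δ) (j : ℕ) :
    dist (Pp δ (run p k A (j + 1))) (Pp δ (run p k A j)) ≤ δ / 2 := by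
  unfold Pp
  rw [dist_eq_norm, ← mul_sub, norm_mul, Complex.norm_real, Real.norm_of_nonneg hδ, run_succ]
  have := mul_le_mul_of_nonneg_left (cpt_step (wiredOpen p k A) (run p k A j)) hδ
  linarith

/-- Distances in the lattice of the squares. -/
theorem nm_bounds (hδ : 0 < δ) (c c' : Medial) :
    (nm (H192.sq (ahead c) - H192.sq (ahead c')) : ℝ) ≤ 2 * dist (mid δ c) (mid δ c') / δ ∧
    dist (mid δ c) (mid δ c') / (2 * δ) ≤ nm (H192.sq (ahead c) - H192.sq (ahead c')) := by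
  obtain ⟨h1, h2⟩ := H161.sq_ahead c
  obtain ⟨h3, h4⟩ := H161.sq_ahead c'
  obtain ⟨r1, r2, r3⟩ := H161.rot_le (mid 1 c - mid 1 c')
  have e1 : ((1 + Complex.I) * (mid 1 c - mid 1 c')).re =
      ((H192.sq (ahead c)).1 : ℝ) - (H192.sq (ahead c')).1 := by
    rw [mul_sub, Complex.sub_re, ← h1, ← h3]
    ring
  have e2 : ((1 + Complex.I) * (mid 1 c - mid 1 c')).im =
      ((H192.sq (ahead c)).2 : ℝ) - (H192.sq (ahead c')).2 := by
    rw [mul_sub, Complex.sub_im, ← h2, ← h4]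
    ring
  rw [e1] at r1 r3
  rw [e2] at r2 r3
  have e3 : dist (mid δ c) (mid δ c') = δ * ‖mid 1 c - mid 1 c'‖ := by
    rw [dist_eq_norm, H161.mid_eq δ c, H161.mid_eq δ c', ← mul_sub, norm_mul, Complex.norm_real,
      Real.norm_of_nonneg hδ.le]
  have e4 : (nm (H192.sq (ahead c) - H192.sq (ahead c')) : ℝ) =
      max |((H192.sq (ahead c)).1 : ℝ) - (H192.sq (ahead c')).1|
        |((H192.sq (ahead c)).2 : ℝ) - (H192.sq (ahead c')).2| := by
    unfold nm
    simp only [Prod.fst_sub, Prod.snd_sub]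
    push_cast
    rfl
  rw [e3, e4]
  constructor
  · rw [show 2 * (δ * ‖mid 1 c - mid 1 c'‖) / δ = 2 * ‖mid 1 c - mid 1 c'‖ by field_simp]
    exact max_le r1 r2
  · rw [show δ * ‖mid 1 c - mid 1 c'‖ / (2 * δ) = ‖mid 1 c - mid 1 c'‖ / 2 by field_simp]
    have m1 := le_max_left |((H192.sq (ahead c)).1 : ℝ) - (H192.sq (ahead c')).1|
        |((H192.sq (ahead c)).2 : ℝ) - (H192.sq (ahead c')).2|
    have m2 := le_max_right |((H192.sq (ahead c)).1 : ℝ) - (H192.sq (ahead c')).1|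
        |((H192.sq (ahead c)).2 : ℝ) - (H192.sq (ahead c')).2|
    linarith

/-! ### Adaptedness of the gates -/

variable {A' : Finset (Sym2 (ℤ × ℤ))} {τ m : ℕ} {C : ℕ → Medial}

theorem Pre.congr (h : ∀ j ≤ τ, run p k A j = run p k A' j) (hP : Pre p k S A τ m C) :
    Pre p k S A' τ m C where
  zero := by rw [hP.zero, h τ le_rfl]
  fresh i h0 h1 j hj := by rw [← h j hj]; exact hP.fresh i h0 h1 j hj
  ok := hP.ok
  exit := hP.exit

theorem GLe.congr (h : ∀ j ≤ τ, run p k A j = run p k A' j) (hP : GLe p k S A τ m C) :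
    GLe p k S A' τ m C where
  toPre := hP.toPre.congr h
  pos := hP.pos
  past := by
    obtain ⟨u, hu, h1⟩ := hP.past
    exact ⟨u, hu, by rw [h1, h u hu.le]⟩
  last := hP.last

theorem GRi.congr (h : ∀ j ≤ τ, run p k A j = run p k A' j) (hP : GRi p k S A τ m C) :
    GRi p k S A' τ m C where
  toPre := hP.toPre.congr h
  pos := hP.pos
  past := by
    obtain ⟨u, hu, h1⟩ := hP.past
    exact ⟨u, hu, by rw [h1, h u hu.le]⟩
  last := hP.last

theorem GWi.congr (h : ∀ j ≤ τ, run p k A j = run p k A' j) (hP : GWi p k S A τ m C) :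
    GWi p k S A' τ m C where
  toPre := hP.toPre.congr h
  pos := hP.pos
  last := hP.last
  out := hP.out

theorem GFr.congr (h : ∀ j ≤ τ, run p k A j = run p k A' j) (hP : GFr p k S A τ m C) :
    GFr p k S A' τ m C where
  toPre := hP.toPre.congr h
  last h0 := ⟨(hP.last h0).1, fun j hj => by rw [← h j hj]; exact (hP.last h0).2 j hj⟩
  out := hP.out

/-! ### The darts of a gate are inside -/

theorem VStep.verts {e : Sym2 (ℤ × ℤ)} {c c' : Medial} (h : VStep e c c') : c'.1 = c.1 := by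
  rcases h with ⟨-, rfl⟩ | ⟨-, rfl⟩ <;> rfl

theorem mem_verts_of_edge {v : ℤ × ℤ} {r : Fin 4} (h : s(v, v + dir r) ∈ edges S) :
    v ∈ verts S ∧ v + dir r ∈ verts S := by
  rcases (mem_edges r).1 h with h1 | h1
  · exact ⟨mem_verts.2 ⟨_, h1⟩, mem_verts.2 ⟨r + 1, by rw [face_left]; exact h1⟩⟩
  · exact ⟨mem_verts.2 ⟨_, h1⟩, mem_verts.2 ⟨r + 2, by rw [face_right]; exact h1⟩⟩

theorem FStep.verts {e : Sym2 (ℤ × ℤ)} {c c' : Medial} (h : FStep e c c') (he : e ∈ edges S) :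
    c.1 ∈ verts S ∧ c'.1 ∈ verts S := by
  rcases h with ⟨h1, rfl⟩ | ⟨h1, rfl⟩
  · rw [← h1] at he
    exact mem_verts_of_edge he
  · rw [← h1] at he
    exact (mem_verts_of_edge he).symm

theorem Ok.verts {c c' : Medial} (h : Ok p k S c c') (hc : c.1 ∈ verts S) : c'.1 ∈ verts S := by
  rcases h with ⟨e, -, h⟩ | ⟨e, he, h⟩
  · rw [h.verts]; exact hc
  · exact (h.verts he).2

theorem Pre.verts (hp : IsPolygon p) (hS : Encloses p S) (hA : A ⊆ edges S)
    (hP : Pre p k S A τ m C) : ∀ i, i < m ∨ i = 0 → (C i).1 ∈ E2.verts S := by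
  intro i
  induction i with
  | zero =>
    intro _
    rw [hP.zero]
    exact run_mem hp hS hA τ
  | succ i ih =>
    intro h
    have h1 : i + 1 < m := by omega
    exact (hP.ok i h1).verts (ih (Or.inl (by omega)))

theorem verts_last (hp : IsPolygon p) (hS : Encloses p S) (hA : A ⊆ edges S)
    (hP : Pre p k S A τ m C) (hlast : 0 < m → (∃ e, VStep e (C (m - 1)) (C m)) ∨
      Ok p k S (C (m - 1)) (C m)) : (C m).1 ∈ E2.verts S := by
  rcases Nat.eq_zero_or_pos m with h0 | h0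
  · exact hP.verts hp hS hA m (Or.inr h0)
  · have h1 := hP.verts hp hS hA (m - 1) (Or.inl (by omega))
    rcases hlast h0 with ⟨e, h2⟩ | h2
    · rw [h2.verts]; exact h1
    · exact h2.verts h1

end Vale.Agent.P167.Fjord
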