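import Vale.Agent.P167.Fjord.Join

/-!
# P167, block FJORD, lattice half: left gates
-/

set_option linter.unusedVariables false

open Set Metric

namespace Vale.Agent.P167.Fjord

open Vale.Agent.P167.E6 Vale.Agent.P167.E2

variable {n : ℕ} {p : ZMod n → ℤ × ℤ} {S : Finset (ℤ × ℤ)} {k : ℕ} {A : Finset (Sym2 (ℤ × ℤ))}

variable {Z : Set ℂ} {E : Medial → Medial → Prop} {B P : Medial → Prop}

/-! ### The corridor along the free arc -/

theorem ro_aux : ∀ a r : Fin 4, ∀ t : Fin 4, (a - 1 - r).val = t.val + 1 →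
    (a - 1 - (r + 1)).val = t.val := by decide

theorem ro_aux' : ∀ a r : Fin 4, (a - 1 - r).val = 0 → r = a - 1 := by decide

theorem adv_ro (hp : IsPolygon p) (i : ZMod n) :
    adv (p i, ro p i - 1) = (p (i + 1), ri p (i + 1)) := by
  unfold adv
  simp only [fin4_1]
  rw [← ro_spec hp]
  have : ro p i - 1 - 1 = ri p (i + 1) := by
    rw [ri, add_sub_cancel_right]
    generalize ro p i = r
    revert r
    decide
  rw [this]

theorem ahead_ro (hp : IsPolygon p) (i : ZMod n) :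
    ahead (p i, ro p i - 1) = s(p i, p (i + 1)) := by
  rw [ahead_eq, adv_ro hp]

/-- From the outside of a free vertex to the exit. -/
theorem corr_free (h : Obs Z E B P) (hp : IsPolygon p) (hS : Encloses p S)
    (hE : ∀ x y, E x y → ∀ e, FStep e x y → e ∈ edges S)
    (hB : ∀ d, B d → d ≠ ce p k ∧ ∀ j : ℕ, j < k → d.1 ≠ p (j : ZMod n)) :
    ∀ m j : ℕ, j + m + 1 = k → ∀ (t : ℕ) (r : Fin 4), (ro p (j : ZMod n) - 1 - r).val = t →
      face (p (j : ZMod n)) r ∉ S →
      JoinedIn (O1 (S : Set (ℤ × ℤ)) \ Z) (cpt (5 / 16) (p (j : ZMod n), r))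
        (cpt (5 / 16) (ce p k)) := by
  intro m
  induction m with
  | zero =>
    intro j hj t
    have hjk : ((j : ℕ) : ZMod n) + 1 = (k : ZMod n) := by
      rw [← hj]
      push_cast
      ring
    induction t with
    | zero =>
      intro r hr hf
      rw [ro_aux' _ _ hr]
      have hadv := adv_ro hp (j : ZMod n)
      rw [hjk] at hadv
      have h1 := h.jD (S := S) (c := (p (j : ZMod n), ro p (j : ZMod n) - 1))
        (by rw [ahead_ro hp]; exact p_edge hp hS _) (fun hb => (hB _ hb).2 j (by omega) rfl)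
        (fun hb => (hB _ hb).1 hadv)
      rwa [hadv] at h1
    | succ t ih =>
      intro r hr hf
      have ht : t < 4 := by
        have := (ro p (j : ZMod n) - 1 - r).isLt
        omega
      have hne : r + 1 ≠ ro p (j : ZMod n) := by
        rintro he
        rw [← he, fin4_2, sub_self] at hr
        simp at hr
      have hf' : face (p (j : ZMod n)) (r + 1) ∉ S := fun hf' =>
        hne (cross_out hp hS hf hf').1
      refine JoinedIn.trans (h.jE (c := (p (j : ZMod n), r)) (p_mem_verts hp hS _) ?_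
        (fun hb => (hB _ hb).2 j (by omega) rfl) (fun hb => (hB _ hb).2 j (by omega) rfl))
        (ih (r + 1) (ro_aux _ _ ⟨t, ht⟩ hr) hf')
      intro x y hxy hF
      have h1 := (mem_edges (r + 1)).1 (hE x y hxy _ hF)
      rw [fin4_2] at h1
      rcases h1 with h1 | h1
      exacts [hf' h1, hf h1]
  | succ m ihm =>
    intro j hj t
    induction t with
    | zero =>
      intro r hr hf
      rw [ro_aux' _ _ hr]
      have hadv := adv_ro hp (j : ZMod n)
      have hc : ((j : ℕ) : ZMod n) + 1 = ((j + 1 : ℕ) : ZMod n) := by push_cast; rfl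
      rw [hc] at hadv
      have h1 := h.jD (S := S) (c := (p (j : ZMod n), ro p (j : ZMod n) - 1))
        (by rw [ahead_ro hp]; exact p_edge hp hS _) (fun hb => (hB _ hb).2 j (by omega) rfl)
        (fun hb => (hB _ hb).2 (j + 1) (by omega) (by rw [hadv]))
      rw [hadv] at h1
      exact h1.trans (ihm (j + 1) (by omega) _ _ rfl (enc_in hp hS).1)
    | succ t ih =>
      intro r hr hf
      have ht : t < 4 := by
        have := (ro p (j : ZMod n) - 1 - r).isLt
        omega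
      have hne : r + 1 ≠ ro p (j : ZMod n) := by
        rintro he
        rw [← he, fin4_2, sub_self] at hr
        simp at hr
      have hf' : face (p (j : ZMod n)) (r + 1) ∉ S := fun hf' =>
        hne (cross_out hp hS hf hf').1
      refine JoinedIn.trans (h.jE (c := (p (j : ZMod n), r)) (p_mem_verts hp hS _) ?_
        (fun hb => (hB _ hb).2 j (by omega) rfl) (fun hb => (hB _ hb).2 j (by omega) rfl))
        (ih (r + 1) (ro_aux _ _ ⟨t, ht⟩ hr) hf')
      intro x y hxy hF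
      have h1 := (mem_edges (r + 1)).1 (hE x y hxy _ hF)
      rw [fin4_2] at h1
      rcases h1 with h1 | h1
      exacts [hf' h1, hf h1]

theorem corr_free' (h : Obs Z E B P) (hp : IsPolygon p) (hS : Encloses p S)
    (hE : ∀ x y, E x y → ∀ e, FStep e x y → e ∈ edges S)
    (hB : ∀ d, B d → d ≠ ce p k ∧ ∀ j : ℕ, j < k → d.1 ≠ p (j : ZMod n)) {c : Medial} {j : ℕ}
    (hj : j < k) (hc : c.1 = p (j : ZMod n)) (hf : fc c ∉ S) :
    JoinedIn (O1 (S : Set (ℤ × ℤ)) \ Z) (cpt (5 / 16) c) (cpt (5 / 16) (ce p k)) := by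
  obtain ⟨v, r⟩ := c
  simp only at hc
  subst hc
  exact corr_free h hp hS hE hB (k - 1 - j) j (by omega) _ r rfl hf

/-! ### Coming back along the right side -/

section

variable (h : Obs Z E B P) (hp : IsPolygon p) (hS : Encloses p S) (h0k : 0 < k) (hk : k + 1 < n)
  (hA : A ⊆ edges S)
  (hE : ∀ x y, E x y → ∀ e, FStep e x y → e ∈ edges S)
  (hB : ∀ d, B d → d ≠ ce p k ∧ ∀ j : ℕ, j < k → d.1 ≠ p (j : ZMod n)) {τ : ℕ}
  (hF : ∀ x y e, E x y → FStep e x y → (∃ j < τ, x = run p k A j ∨ y = run p k A j) →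
    e ∈ wiredOpen p k A)
include h hp hS h0k hk hA hE hB hF

omit hA in
/-- The midpoint of a closed boundary edge is joined to the exit through the corridor. -/
theorem em_out {j : ℕ} (hj : j < τ) (hc : ahead (run p k A j) ∉ wiredOpen p k A)
    (he : ahead (run p k A j) ∈ edges S) (hf : fc (run p k A j) ∉ S) :
    JoinedIn (O1 (S : Set (ℤ × ℤ)) \ Z) (em (run p k A j)) (cpt (5 / 16) (ce p k)) := by
  have hn : n ≠ 0 := by omega
  set c := run p k A j with hcdef
  have hFa : FStep (ahead c) c (adv c) := Or.inl ⟨rfl, rfl⟩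
  have h1 := h.jG (S := S) (c := c) he
    (fun hh => hc (hF _ _ _ hh hFa ⟨j, hj, Or.inl rfl⟩))
    (fun hh => hc (hF _ _ _ hh hFa.symmI ⟨j, hj, Or.inr rfl⟩))
  refine h1.trans ?_
  obtain ⟨i, hi1, hi2⟩ := edge_ext hS he hf
  obtain ⟨l, hl, rfl⟩ := H174.nat_of_zmod hn i
  have hadv : (adv c).1 = p (((l : ℕ) : ZMod n) + 1) := hi2.symm
  have hc1 : c = (p (l : ZMod n), ro p (l : ZMod n) - 1) := by
    have : c.2 + 1 = ro p (l : ZMod n) := by
      apply ro_unique hp
      rw [hi2, hi1]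
    apply Prod.ext
    · exact hi1.symm
    · show c.2 = ro p (l : ZMod n) - 1
      rw [← this, fin4_2]
  have hadv' : adv c = (p (((l : ℕ) : ZMod n) + 1), ri p (((l : ℕ) : ZMod n) + 1)) := by
    rw [hc1, adv_ro hp]
  have hl' : l < k ∨ l + 1 = n := by
    by_contra hcon
    push Not at hcon
    apply hc
    refine Or.inr ⟨l, hcon.1, by omega, ?_⟩
    rw [hc1, ahead_ro hp]
  have key : ∀ j' : ℕ, ((l : ℕ) : ZMod n) + 1 = (j' : ZMod n) → j' < k →
      JoinedIn (O1 (S : Set (ℤ × ℤ)) \ Z) (qo c) (cpt (5 / 16) (ce p k)) := by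
    intro j' h2 h3
    have h4 := h.jD' (S := S) (c := c) he (fun hb => (hB _ hb).2 j' h3 (by rw [hadv, h2]))
    refine h4.trans (corr_free' h hp hS hE hB h3 (by rw [hadv, h2]) ?_)
    rw [fc_advI]
    exact hf
  rcases hl' with hl' | hl'
  · by_cases hlk : l + 1 < k
    · exact key (l + 1) (by push_cast; rfl) hlk
    · have e1 : ((l : ℕ) : ZMod n) + 1 = (k : ZMod n) := by
        have : k = l + 1 := by omega
        rw [this]
        push_cast
        rfl
      have e2 : adv c = ce p k := by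
        rw [hadv', e1]
        rfl
      have h4 := h.jD' (S := S) (c := c) he (fun hb => (hB _ hb).1 e2)
      rwa [e2] at h4
  · refine key 0 ?_ h0k
    have : ((l : ℕ) : ZMod n) + 1 = ((l + 1 : ℕ) : ZMod n) := by push_cast; rfl
    rw [this, hl', ZMod.natCast_self, Nat.cast_zero]

omit hA in
/-- The centres of the faces on the right of the past are joined to the exit. -/
theorem ctr_out : ∀ j < τ, fc (run p k A j) ∈ S →
    JoinedIn (O1 (S : Set (ℤ × ℤ)) \ Z) (ctr (fc (run p k A j))) (cpt (5 / 16) (ce p k)) := by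
  intro j
  induction j with
  | zero =>
    intro _ hf
    rw [run_zero] at hf
    exact absurd hf (fc_cs hp hS)
  | succ j ih =>
    intro hj hf
    rcases next_step (wiredOpen p k A) (run p k A j) with ⟨h1, h2, h3⟩ | ⟨h1, h2, h3⟩
    · rw [← run_succ] at h3
      rw [h3.fc] at hf ⊢
      exact ih (by omega) hf
    · rw [← run_succ] at h2
      set c := run p k A j with hc
      have hfr : fc (rot c) ∈ S := h2 ▸ hf
      have he : ahead c ∈ edges S := (mem_edges (c.2 + 1)).2 (Or.inl hfr)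
      have hpar : fc (par c) = fc (rot c) := by rw [← adv_par, fc_advI]
      have hFp : FStep (ahead c) (par c) (rot c) := Or.inl ⟨ahead_par c, (adv_par c).symm⟩
      have h4 := h.jA (S := S) (c := par c) (by rw [hpar]; exact hfr)
        (fun hh => h1 (hF _ _ _ (by rwa [adv_par] at hh) hFp ⟨j + 1, hj, Or.inr h2.symm⟩))
        (fun hh => h1 (hF _ _ _ (by rwa [adv_par] at hh) hFp.symmI ⟨j + 1, hj, Or.inl h2.symm⟩))
      rw [hpar, em_congr (ahead_par c)] at h4
      rw [h2]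
      refine h4.symm.trans ?_
      by_cases hfc : fc c ∈ S
      · have hFa : FStep (ahead c) c (adv c) := Or.inl ⟨rfl, rfl⟩
        have h5 := h.jA (S := S) (c := c) hfc
          (fun hh => h1 (hF _ _ _ hh hFa ⟨j, by omega, Or.inl rfl⟩))
          (fun hh => h1 (hF _ _ _ hh hFa.symmI ⟨j, by omega, Or.inr rfl⟩))
        exact h5.trans (ih (by omega) hfc)
      · exact em_out h hp hS h0k hk hE hB hF (j := j) (by omega) h1 he hfc

omit hA in
/-- The midpoint of a closed visited edge is joined to the exit. -/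
theorem em_joined {j : ℕ} (hj : j < τ) (hc : ahead (run p k A j) ∉ wiredOpen p k A)
    (he : ahead (run p k A j) ∈ edges S) :
    JoinedIn (O1 (S : Set (ℤ × ℤ)) \ Z) (em (run p k A j)) (cpt (5 / 16) (ce p k)) := by
  by_cases hfc : fc (run p k A j) ∈ S
  · have hFa : FStep (ahead (run p k A j)) (run p k A j) (adv (run p k A j)) := Or.inl ⟨rfl, rfl⟩
    have h5 := h.jA (S := S) (c := run p k A j) hfc
      (fun hh => hc (hF _ _ _ hh hFa ⟨j, by omega, Or.inl rfl⟩))
      (fun hh => hc (hF _ _ _ hh hFa.symmI ⟨j, by omega, Or.inr rfl⟩))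
    exact h5.trans (ctr_out h hp hS h0k hk hE hB hF j hj hfc)
  · exact em_out h hp hS h0k hk hE hB hF hj hc he hfc

end

/-! ### The obstacles -/

/-- The steps of the past and of the gate. -/
def EC (p : ZMod n → ℤ × ℤ) (k : ℕ) (A : Finset (Sym2 (ℤ × ℤ))) (τ m : ℕ) (C : ℕ → Medial)
    (x y : Medial) : Prop :=
  (∃ l < τ, x = run p k A l ∧ y = run p k A (l + 1)) ∨ ∃ i < m, x = C i ∧ y = C (i + 1)

theorem seg_scale {δ : ℝ} (hδ : 0 < δ) {a b z : ℂ}
    (h : (δ : ℂ) * z ∈ segment ℝ ((δ : ℂ) * a) ((δ : ℂ) * b)) : z ∈ segment ℝ a b := by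
  rw [segment_eq_image'] at h ⊢
  obtain ⟨θ, hθ, he⟩ := h
  refine ⟨θ, hθ, ?_⟩
  have h0 : (δ : ℂ) ≠ 0 := by exact_mod_cast hδ.ne'
  apply mul_left_cancel₀ h0
  rw [← he]
  simp only [Complex.real_smul]
  ring

theorem lin_seg (x : ℕ → ℂ) (j : ℕ) {t : ℝ} (h0 : (j : ℝ) ≤ t) (h1 : t ≤ j + 1) :
    lin x t ∈ segment ℝ (x j) (x (j + 1)) := by
  rw [lin_eq x j (Or.inl h0) h1, segment_eq_image']
  exact ⟨t - j, ⟨by linarith, by linarith⟩, by simp only [Complex.real_smul]⟩

theorem cov_pl {δ : ℝ} (hδ : 0 < δ) {τ : ℕ} (hτ : τ ≤ len p k A) {z : ℂ}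
    (h : (δ : ℂ) * z ∈ pl p k δ A '' Icc 0 ((τ : ℝ) + 1)) :
    (∃ l < τ, z ∈ Lseg (run p k A l) (run p k A (l + 1))) ∨ z ∈ Bt (cs p) ∨
      z = cpt (1 / 4) (run p k A τ) := by
  have h0 : (δ : ℂ) ≠ 0 := by exact_mod_cast hδ.ne'
  obtain ⟨t, ht, he⟩ := h
  have hz : lin (xv p k A) t = z := mul_left_cancel₀ h0 he
  subst hz
  have hfl := Nat.floor_le ht.1
  have hfl' := Nat.lt_floor_add_one t
  set j := ⌊t⌋₊ with hj
  have hj1 : j ≤ τ + 1 := by
    have : (j : ℝ) ≤ (τ + 1 : ℕ) := by push_cast; linarith [ht.2]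
    exact_mod_cast this
  rcases hj1.eq_or_lt with h1 | h1
  · have h2 : t = ((τ + 1 : ℕ) : ℝ) := by
      apply le_antisymm
      · push_cast; exact ht.2
      · rw [← h1]; exact hfl
    right; right
    rw [h2, lin_nat, xv_mid hτ]
  · have h2 := lin_seg (xv p k A) j hfl hfl'.le
    rcases Nat.eq_zero_or_pos j with h3 | h3
    · right; left
      rw [h3] at h2
      rw [xv_zero, xv_mid (Nat.zero_le _), segment_symm] at h2
      exact h2
    · left
      obtain ⟨l, hl⟩ : ∃ l, j = l + 1 := ⟨j - 1, by omega⟩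
      rw [hl, xv_mid (by omega), xv_mid (by omega)] at h2
      exact ⟨l, by omega, h2⟩

theorem cov_seg {δ : ℝ} (hδ : 0 < δ) {m : ℕ} {C : ℕ → Medial} {z : ℂ}
    (h : (δ : ℂ) * z ∈ Seg δ m C) :
    (∃ i < m, z ∈ Lseg (C i) (C (i + 1))) ∨ z = cpt (1 / 4) (C 0) := by
  have h0 : (δ : ℂ) ≠ 0 := by exact_mod_cast hδ.ne'
  rcases h with h | ⟨i, hi, h⟩
  · exact Or.inr (mul_left_cancel₀ h0 h)
  · exact Or.inl ⟨i, hi, seg_scale hδ h⟩

/-- The covering of the obstacles, mesh `1`. -/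
theorem cov_all {δ : ℝ} (hδ : 0 < δ) {τ : ℕ} (hτ : τ ≤ len p k A) {m : ℕ} {C : ℕ → Medial}
    (hC0 : C 0 = run p k A τ) {W : Prop} {z : ℂ}
    (h : (δ : ℂ) * z ∈ pl p k δ A '' Icc 0 ((τ : ℝ) + 1) ∪ Seg δ m C ∨
      (W ∧ (δ : ℂ) * z ∈ Bit δ (C m))) :
    (∃ x y, EC p k A τ m C x y ∧ z ∈ Lseg x y) ∨ (∃ d, (d = cs p ∨ (W ∧ d = C m)) ∧ z ∈ Bt d) ∨
      ∃ d, d = run p k A τ ∧ z = cpt (1 / 4) d := by
  rcases h with (h | h) | ⟨hW, h⟩
  · rcases cov_pl hδ hτ h with ⟨l, h1, h2⟩ | h1 | h1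
    · exact Or.inl ⟨_, _, Or.inl ⟨l, h1, rfl, rfl⟩, h2⟩
    · exact Or.inr (Or.inl ⟨_, Or.inl rfl, h1⟩)
    · exact Or.inr (Or.inr ⟨_, rfl, h1⟩)
  · rcases cov_seg hδ h with ⟨i, h1, h2⟩ | h1
    · exact Or.inl ⟨_, _, Or.inr ⟨i, h1, rfl, rfl⟩, h2⟩
    · exact Or.inr (Or.inr ⟨_, hC0, h1⟩)
  · exact Or.inr (Or.inl ⟨_, Or.inr ⟨hW, rfl⟩, seg_scale hδ h⟩)

/-- From mesh `1` to mesh `δ`. -/
theorem joined_scale {δ : ℝ} (hδ : 0 < δ) {Z' : Set ℂ} {a b : ℂ}
    (h : JoinedIn (O1 (S : Set (ℤ × ℤ)) \ {z | (δ : ℂ) * z ∈ Z'}) a b) :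
    JoinedIn (Om δ S \ Z') ((δ : ℂ) * a) ((δ : ℂ) * b) := by
  refine (h.map (f := fun z : ℂ => (δ : ℂ) * z) (by fun_prop)).mono ?_
  rintro _ ⟨z, hz, rfl⟩
  exact ⟨(mem_Om hδ).2 hz.1, hz.2⟩

/-! ### The main argument -/

section

variable (hp : IsPolygon p) (hS : Encloses p S) (h0k : 0 < k) (hk : k + 1 < n)
  (hA : A ⊆ edges S) {τ m w t : ℕ} {C : ℕ → Medial} (hτw : τ < w) (hwt : w ≤ t)
  (ht : t < len p k A) (hC : ∀ i ≤ m, ∀ j, w ≤ j → j ≤ t → C i ≠ run p k A j)
  (pre : Pre p k S A τ m C)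

include hp hS hk hA hτw hwt ht hC in
/-- The future does not meet the obstacles. -/
theorem ec_ne {x y : Medial} (hxy : EC p k A τ m C x y) {j : ℕ} (h1 : w ≤ j) (h2 : j ≤ t) :
    x ≠ run p k A j ∧ y ≠ run p k A j := by
  rcases hxy with ⟨l, hl, rfl, rfl⟩ | ⟨i, hi, rfl, rfl⟩
  · constructor
    · intro he
      have := run_inj hp hS (by omega) hA (by omega) (by omega) he
      omega
    · intro he
      have := run_inj hp hS (by omega) hA (by omega) (by omega) he
      omega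
  · exact ⟨hC i (by omega) j h1 h2, hC (i + 1) (by omega) j h1 h2⟩

include hp hS hk hA hτw hwt ht hC in
/-- Going along the interface. -/
theorem run_joined {W : Prop}
    (h : Obs Z (EC p k A τ m C) (fun d => d = cs p ∨ (W ∧ d = C m)) fun d => d = run p k A τ)
    {b : ℂ} (hb : JoinedIn (O1 (S : Set (ℤ × ℤ)) \ Z) (cpt (1 / 4) (run p k A w)) b) :
    JoinedIn (O1 (S : Set (ℤ × ℤ)) \ Z) (cpt (1 / 4) (run p k A t)) b := by
  have hω := wired_sub (k := k) hp hS hA
  have hBr : ∀ j, w ≤ j → j ≤ t → ¬ (run p k A j = cs p ∨ (W ∧ run p k A j = C m)) := by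
    rintro j h1 h2 (h3 | ⟨-, h3⟩)
    · rw [← run_zero (p := p) (k := k) (A := A)] at h3
      have := run_inj hp hS (by omega) hA (by omega) (by omega) h3
      omega
    · exact hC m le_rfl j h1 h2 h3.symm
  have hPr : ∀ j, w ≤ j → j ≤ t → ¬ run p k A j = run p k A τ := by
    intro j h1 h2 h3
    have := run_inj hp hS (by omega) hA (by omega) (by omega) h3
    omega
  have key : ∀ t', w ≤ t' → t' ≤ t →
      JoinedIn (O1 (S : Set (ℤ × ℤ)) \ Z) (cpt (1 / 4) (run p k A t')) b := by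
    intro t' h1
    induction t', h1 using Nat.le_induction with
    | base => exact fun _ => hb
    | succ j h1 ih =>
      intro h2
      refine JoinedIn.trans ?_ (ih (by omega))
      apply JoinedIn.symm
      refine h.jL (x := run p k A j) (y := run p k A (j + 1)) (e := ahead (run p k A j))
        (run_mem hp hS hA j) ?_ ?_ ?_ ?_
      · rw [run_succ]
        rcases next_step (wiredOpen p k A) (run p k A j) with ⟨h3, -, h4⟩ | ⟨h3, -, h4⟩
        · exact Or.inr ⟨hω h3, h4⟩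
        · exact Or.inl h4
      · intro a b hab
        have e1 := ec_ne hp hS hk hA hτw hwt ht hC hab h1 (by omega)
        have e2 := ec_ne hp hS hk hA hτw hwt ht hC hab (j := j + 1) (by omega) h2
        exact ⟨e1.1, e1.2, e2.1, e2.2⟩
      · exact ⟨hBr j h1 (by omega), hBr (j + 1) (by omega) h2⟩
      · exact ⟨hPr j h1 (by omega), hPr (j + 1) (by omega) h2⟩
  exact key t hwt le_rfl

theorem not_VF {e e' : Sym2 (ℤ × ℤ)} {x y : Medial} (h : VStep e x y) (h' : FStep e' x y) :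
    False := h'.ne h.fstI

theorem FF_eq {e e' : Sym2 (ℤ × ℤ)} {x y : Medial} (h : FStep e x y) (h' : FStep e' x y) :
    e = e' := by rw [h.edge, h'.edge]

theorem VV_eq {e e' : Sym2 (ℤ × ℤ)} {x y : Medial} (h : VStep e x y) (h' : VStep e' x y) :
    e = e' := by
  have key : ∀ r s : Fin 4, s = r + 1 → r ≠ s + 1 := by decide
  rcases h with ⟨h1, h2⟩ | ⟨h1, h2⟩ <;> rcases h' with ⟨h3, h4⟩ | ⟨h3, h4⟩
  · rw [← h1, ← h3]
  · exact absurd (congrArg Prod.snd h4) (key _ _ (congrArg Prod.snd h2))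
  · exact absurd (congrArg Prod.snd h2) (key _ _ (congrArg Prod.snd h4))
  · rw [← h1, ← h3]

include hp hS h0k hk hA hτw hwt ht hC pre in
theorem left_core (hm : 0 < m) (last : ∃ e, VStep e (C (m - 1)) (C m)) {W : Prop}
    (hW : W → ∀ j : ℕ, j < k → (C m).1 ≠ p (j : ZMod n))
    (hcov : ∀ z ∈ Z, (∃ x y, EC p k A τ m C x y ∧ z ∈ Lseg x y) ∨
      (∃ d, (d = cs p ∨ (W ∧ d = C m)) ∧ z ∈ Bt d) ∨ ∃ d, d = run p k A τ ∧ z = cpt (1 / 4) d)
    (hneg : ¬ (fc (run p k A w) ∈ S ∧ (ahead (run p k A w) ∉ wiredOpen p k A →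
      ∀ j < τ, ahead (run p k A j) ≠ ahead (run p k A w)))) :
    JoinedIn (O1 (S : Set (ℤ × ℤ)) \ Z) (cpt (1 / 4) (run p k A t)) (cpt (5 / 16) (ce p k)) := by
  have hn : n ≠ 0 := by omega
  have hω := wired_sub (k := k) hp hS hA
  -- the last step
  have hlast : ∀ i < m, i + 1 < m ∨ (∃ e, VStep e (C i) (C (i + 1))) := by
    intro i hi
    by_cases h1 : i + 1 < m
    · exact Or.inl h1
    · have h2 : i + 1 = m := by omega
      obtain ⟨e, he⟩ := last
      have h3 : m - 1 = i := by omega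
      rw [h3, ← h2] at he
      exact Or.inr ⟨e, he⟩
  have hstep : ∀ x y, EC p k A τ m C x y → ∃ e, VStep e x y ∨ FStep e x y := by
    rintro x y (⟨l, hl, rfl, rfl⟩ | ⟨i, hi, rfl, rfl⟩)
    · rw [run_succ]
      rcases next_step (wiredOpen p k A) (run p k A l) with ⟨-, -, h4⟩ | ⟨-, -, h4⟩
      exacts [⟨_, Or.inr h4⟩, ⟨_, Or.inl h4⟩]
    · rcases hlast i hi with h1 | ⟨e, he⟩
      · rcases pre.ok i h1 with ⟨e, -, he⟩ | ⟨e, -, he⟩
        exacts [⟨e, Or.inl he⟩, ⟨e, Or.inr he⟩]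
      · exact ⟨e, Or.inl he⟩
  have h : Obs Z (EC p k A τ m C) (fun d => d = cs p ∨ (W ∧ d = C m))
      fun d => d = run p k A τ := ⟨hstep, hcov⟩
  have hE : ∀ x y, EC p k A τ m C x y → ∀ e, FStep e x y → e ∈ edges S := by
    rintro x y (⟨l, hl, rfl, rfl⟩ | ⟨i, hi, rfl, rfl⟩) e hF
    · rw [run_succ] at hF
      rcases next_step (wiredOpen p k A) (run p k A l) with ⟨h3, -, h4⟩ | ⟨-, -, h4⟩
      · rw [FF_eq hF h4]
        exact hω h3
      · exact (not_VF h4 hF).elim
    · rcases hlast i hi with h1 | ⟨e', he⟩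
      · rcases pre.ok i h1 with ⟨e', -, he⟩ | ⟨e', h5, he⟩
        · exact (not_VF he hF).elim
        · rw [FF_eq hF he]
          exact h5
      · exact (not_VF he hF).elim
  have hne : ∀ j : ℕ, j < k → p (-1) ≠ p (j : ZMod n) := by
    intro j hj he
    have h1 := hp.2.1 he
    have h2 : ((n - 1 : ℕ) : ZMod n) = -1 := by
      rw [Nat.cast_sub (by omega)]
      simp
    rw [← h2] at h1
    have := cast_inj hn (by omega) (by omega) h1
    omega
  have hB : ∀ d, (d = cs p ∨ (W ∧ d = C m)) →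
      d ≠ ce p k ∧ ∀ j : ℕ, j < k → d.1 ≠ p (j : ZMod n) := by
    rintro d (rfl | ⟨hW', rfl⟩)
    · exact ⟨cs_ne_ce hp hk, hne⟩
    · exact ⟨pre.exit m le_rfl, hW hW'⟩
  have hF : ∀ x y e, EC p k A τ m C x y → FStep e x y →
      (∃ j < τ, x = run p k A j ∨ y = run p k A j) → e ∈ wiredOpen p k A := by
    rintro x y e (⟨l, hl, rfl, rfl⟩ | ⟨i, hi, rfl, rfl⟩) hF ⟨j, hj, hj'⟩
    · rw [run_succ] at hF
      rcases next_step (wiredOpen p k A) (run p k A l) with ⟨h3, -, h4⟩ | ⟨-, -, h4⟩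
      · rw [FF_eq hF h4]
        exact h3
      · exact (not_VF h4 hF).elim
    · exfalso
      rcases hlast i hi with h1 | ⟨e', he⟩
      · rcases hj' with hj' | hj'
        · rcases Nat.eq_zero_or_pos i with h2 | h2
          · rw [h2, pre.zero] at hj'
            have := run_inj hp hS (by omega) hA (by omega) (by omega) hj'
            omega
          · exact pre.fresh i h2 hi j hj.le hj'
        · exact pre.fresh (i + 1) (by omega) h1 j hj.le hj'
      · exact not_VF he hF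
  have hBw : ¬ (run p k A w = cs p ∨ (W ∧ run p k A w = C m)) := by
    rintro (h3 | ⟨-, h3⟩)
    · rw [← run_zero (p := p) (k := k) (A := A)] at h3
      have := run_inj hp hS (by omega) hA (by omega) (by omega) h3
      omega
    · exact hC m le_rfl w le_rfl hwt h3.symm
  have hPw : ¬ run p k A w = run p k A τ := by
    intro h3
    have := run_inj hp hS (by omega) hA (by omega) (by omega) h3
    omega
  have hEw : ∀ x y, EC p k A τ m C x y → x ≠ run p k A w ∧ y ≠ run p k A w := fun x y hxy =>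
    ec_ne hp hS hk hA hτw hwt ht hC hxy le_rfl hwt
  apply run_joined hp hS hk hA hτw hwt ht hC h
  by_cases hf : fc (run p k A w) ∈ S
  · rw [not_and] at hneg
    have h1 := hneg hf
    push Not at h1
    obtain ⟨hcl, j, hj, hje⟩ := h1
    have he : ahead (run p k A w) ∈ edges S := by
      apply (mem_edges ((run p k A w).2 + 1)).2
      right
      rw [fin4_2]
      exact hf
    have h2 := h.jC (S := S) he hEw hBw hPw
    rw [em_congr hje.symm] at h2
    exact h2.trans (em_joined h hp hS h0k hk hE hB hF hj (hje ▸ hcl) (hje ▸ he))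
  · obtain ⟨l, hl, hl'⟩ := H174.ext_free hp hS h0k (by omega) hA (t := w) (by omega) (by omega) hf
    exact (h.jF (run_mem hp hS hA w) hEw hBw hPw).2.trans (corr_free' h hp hS hE hB hl hl' hf)

end

theorem wd_mem {e : Sym2 (ℤ × ℤ)} (he : e ∈ Wd p k) {x y : Medial} (h : VStep e x y) :
    ∃ i : ℕ, k ≤ i ∧ i < n ∧ y.1 = p (i : ZMod n) := by
  obtain ⟨i, h1, h2, rfl⟩ := he
  have h3 : y.1 ∈ s(p (i : ZMod n), p ((i : ZMod n) + 1)) := by
    rcases h with ⟨h3, rfl⟩ | ⟨h3, rfl⟩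
    · rw [← h3]
      exact Sym2.mem_mk_left _ _
    · rw [← h3]
      exact Sym2.mem_mk_left _ _
  rw [Sym2.mem_iff] at h3
  rcases h3 with h3 | h3
  · exact ⟨i, h1, by omega, h3⟩
  · exact ⟨i + 1, by omega, h2, by rw [h3]; push_cast; rfl⟩

/-- **The lattice half for left gates.** -/
theorem s_left : S_left := by
  intro n p S k A δ hδ hp hS h0k hk hA τ m w t C hτw hwt ht hC hG
  by_contra hneg
  rcases hG with ⟨hG, hJ⟩ | ⟨hG, hJ⟩
  · apply hJ
    obtain ⟨e, -, he⟩ := hG.last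
    refine joined_scale hδ (left_core (Z := {z | (δ : ℂ) * z ∈ _}) hp hS h0k hk hA hτw hwt ht hC
      hG.toPre hG.pos ⟨e, he⟩ (W := False) (fun h => h.elim) ?_ hneg)
    intro z hz
    exact cov_all hδ (by omega) hG.zero (Or.inl hz)
  · apply hJ
    obtain ⟨e, he, he'⟩ := hG.last
    refine joined_scale hδ (left_core (Z := {z | (δ : ℂ) * z ∈ _}) hp hS h0k hk hA hτw hwt ht hC
      hG.toPre hG.pos ⟨e, he'⟩ (W := True) ?_ ?_ hneg)
    · intro _ j hj hcon
      obtain ⟨i, h1, h2, h3⟩ := wd_mem he he'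
      have := cast_inj (by omega) h2 (by omega) (hp.2.1 (h3.symm.trans hcon))
      omega
    · intro z hz
      exact cov_all hδ (by omega) hG.zero (hz.imp id fun h => ⟨trivial, h⟩)

end Vale.Agent.P167.Fjord
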