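import Vale.Agent.P167.Fjord.Left

/-!
# P167, block FJORD, lattice half: right gates
-/

set_option linter.unusedVariables false

open Set Metric

namespace Vale.Agent.P167.Fjord

open Vale.Agent.P167.E6 Vale.Agent.P167.E2

variable {n : ℕ} {p : ZMod n → ℤ × ℤ} {S : Finset (ℤ × ℤ)} {k : ℕ} {A : Finset (Sym2 (ℤ × ℤ))}

variable {Z : Set ℂ} {E : Medial → Medial → Prop} {B P : Medial → Prop}

theorem rot_par (c : Medial) : rot (par c) = adv c := by
  obtain ⟨v, r⟩ := c
  simp only [rot, par, adv]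
  congr 1
  revert r
  decide

/-! ### Coming back along the left side -/

section

variable (h : Obs Z E B P) (hp : IsPolygon p) (hS : Encloses p S) (h0k : 0 < k) (hk : k + 1 < n)
  (hA : A ⊆ edges S)
  (hEc : ∀ x y, E x y → x ≠ ce p k ∧ y ≠ ce p k) (hBc : ¬ B (ce p k)) (hPc : ¬ P (ce p k))
  (hW : ∀ x y e, E x y → VStep e x y → e ∉ Wd p k) {τ : ℕ}
  (hV : ∀ x y e, E x y → VStep e x y → (∃ j < τ, x = run p k A j ∨ y = run p k A j) →
    e ∉ wiredOpen p k A)

include h hp hS hEc hBc hPc hW in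
/-- The wired vertices are joined to the exit. -/
theorem wired_joined : ∀ l : ℕ, k ≤ l → l < n →
    JoinedIn (O1 (S : Set (ℤ × ℤ)) \ Z) (pt (p (l : ZMod n))) (cpt (5 / 16) (ce p k)) := by
  intro l hl
  induction l, hl using Nat.le_induction with
  | base => exact fun _ => (h.jF (c := ce p k) (p_mem_verts hp hS _) hEc hBc hPc).1
  | succ l hl ih =>
    intro hl'
    set c : Medial := (p (l : ZMod n), ro p (l : ZMod n) - 1) with hc
    have hac : ahead c = s(p (l : ZMod n), p ((l : ZMod n) + 1)) := ahead_ro hp _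
    have hWc : ahead c ∈ Wd p k := ⟨l, hl, hl', hac⟩
    have he : ahead c ∈ edges S := by rw [hac]; exact p_edge hp hS _
    have h1 := h.jB (S := S) (c := c) he (fun hh => hW _ _ _ hh (Or.inl ⟨rfl, rfl⟩) hWc)
      (fun hh => hW _ _ _ hh (Or.inr ⟨rfl, rfl⟩) hWc)
    have h2 := h.jB (S := S) (c := par c) (by rw [ahead_par]; exact he)
      (fun hh => hW _ _ _ hh (Or.inl ⟨ahead_par c, rfl⟩) hWc)
      (fun hh => hW _ _ _ hh (Or.inr ⟨ahead_par c, rfl⟩) hWc)
    rw [em_congr (ahead_par c)] at h2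
    have h3 : (par c).1 = p ((l + 1 : ℕ) : ZMod n) := by
      show (adv c).1 = _
      rw [hc, adv_ro hp]
      push_cast
      rfl
    rw [h3] at h2
    exact h2.trans (h1.symm.trans (ih (by omega)))

include h hp hS hk hA hEc hBc hPc hW hV in
/-- The vertices on the left of the past are joined to the exit. -/
theorem pt_joined : ∀ j < τ,
    JoinedIn (O1 (S : Set (ℤ × ℤ)) \ Z) (pt (run p k A j).1) (cpt (5 / 16) (ce p k)) := by
  intro j
  induction j with
  | zero =>
    intro _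
    have h1 := wired_joined h hp hS hEc hBc hPc hW (n - 1) (by omega) (by omega)
    have h2 : ((n - 1 : ℕ) : ZMod n) = -1 := by
      rw [Nat.cast_sub (by omega)]
      simp
    rw [h2] at h1
    exact h1
  | succ j ih =>
    intro hj
    rcases next_step (wiredOpen p k A) (run p k A j) with ⟨h1, h2, h3⟩ | ⟨h1, h2, h3⟩
    · rw [← run_succ] at h2
      set c := run p k A j with hc
      have he : ahead c ∈ edges S := wired_sub hp hS hA h1
      have h4 := h.jB (S := S) (c := c) he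
        (fun hh => hV _ _ _ hh (Or.inl ⟨rfl, rfl⟩) ⟨j, by omega, Or.inl rfl⟩ h1)
        (fun hh => hV _ _ _ hh (Or.inr ⟨rfl, rfl⟩) ⟨j, by omega, Or.inr rfl⟩ h1)
      have h5 := h.jB (S := S) (c := par c) (by rw [ahead_par]; exact he)
        (fun hh => hV _ _ _ hh (Or.inl ⟨ahead_par c, rfl⟩)
          ⟨j + 1, hj, Or.inr (by rw [h2, rot_par])⟩ h1)
        (fun hh => hV _ _ _ hh (Or.inr ⟨ahead_par c, rfl⟩)
          ⟨j + 1, hj, Or.inl (by rw [h2, rot_par])⟩ h1)
      rw [em_congr (ahead_par c)] at h5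
      have h6 : (par c).1 = (run p k A (j + 1)).1 := by
        rw [h2]
        rfl
      rw [h6] at h5
      exact h5.trans (h4.symm.trans (ih (by omega)))
    · have h6 : (run p k A (j + 1)).1 = (run p k A j).1 := by
        rw [run_succ, h3.fstI]
      rw [h6]
      exact ih (by omega)

include h hp hS hk hA hEc hBc hPc hW hV in
/-- The midpoint of an open visited edge is joined to the exit. -/
theorem em_joined' {j : ℕ} (hj : j < τ) (ho : ahead (run p k A j) ∈ wiredOpen p k A) :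
    JoinedIn (O1 (S : Set (ℤ × ℤ)) \ Z) (em (run p k A j)) (cpt (5 / 16) (ce p k)) := by
  have h4 := h.jB (S := S) (c := run p k A j) (wired_sub hp hS hA ho)
    (fun hh => hV _ _ _ hh (Or.inl ⟨rfl, rfl⟩) ⟨j, by omega, Or.inl rfl⟩ ho)
    (fun hh => hV _ _ _ hh (Or.inr ⟨rfl, rfl⟩) ⟨j, by omega, Or.inr rfl⟩ ho)
  exact h4.symm.trans (pt_joined h hp hS hk hA hEc hBc hPc hW hV j hj)

include h hp hS hEc hBc hPc hW in
/-- The midpoint of a wired edge is joined to the exit. -/
theorem em_wired {c : Medial} (hc : ahead c ∈ Wd p k) :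
    JoinedIn (O1 (S : Set (ℤ × ℤ)) \ Z) (em c) (cpt (5 / 16) (ce p k)) := by
  obtain ⟨l, h1, h2, h3⟩ := hc
  set d : Medial := (p (l : ZMod n), ro p (l : ZMod n) - 1) with hd
  have hac : ahead d = s(p (l : ZMod n), p ((l : ZMod n) + 1)) := ahead_ro hp _
  have hWd : ahead d ∈ Wd p k := ⟨l, h1, h2, hac⟩
  have h4 := h.jB (S := S) (c := d) (by rw [hac]; exact p_edge hp hS _)
    (fun hh => hW _ _ _ hh (Or.inl ⟨rfl, rfl⟩) hWd)
    (fun hh => hW _ _ _ hh (Or.inr ⟨rfl, rfl⟩) hWd)
  rw [em_congr (h3.trans hac.symm)]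
  exact h4.symm.trans (wired_joined h hp hS hEc hBc hPc hW l h1 (by omega))

end

/-! ### The main argument -/

section

variable (hp : IsPolygon p) (hS : Encloses p S) (h0k : 0 < k) (hk : k + 1 < n)
  (hA : A ⊆ edges S) {τ m w t : ℕ} {C : ℕ → Medial} (hτw : τ < w) (hwt : w ≤ t)
  (ht : t < len p k A) (hC : ∀ i ≤ m, ∀ j, w ≤ j → j ≤ t → C i ≠ run p k A j)
  (pre : Pre p k S A τ m C)

include hp hS h0k hk hA hτw hwt ht hC pre in
theorem right_core (hlast : ∀ i < m, i + 1 < m ∨ (∃ e, FStep e (C i) (C (i + 1))) ∨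
      (Ok p k S (C i) (C (i + 1)) ∧ ∀ j ≤ τ, C (i + 1) ≠ run p k A j)) {W : Prop}
    (hcov : ∀ z ∈ Z, (∃ x y, EC p k A τ m C x y ∧ z ∈ Lseg x y) ∨
      (∃ d, (d = cs p ∨ (W ∧ d = C m)) ∧ z ∈ Bt d) ∨ ∃ d, d = run p k A τ ∧ z = cpt (1 / 4) d)
    (ho : ahead (run p k A w) ∈ wiredOpen p k A)
    (hneg : ¬ (ahead (run p k A w) ∉ Wd p k ∧
      ∀ j < τ, ahead (run p k A j) ≠ ahead (run p k A w))) :
    JoinedIn (O1 (S : Set (ℤ × ℤ)) \ Z) (cpt (1 / 4) (run p k A t)) (cpt (5 / 16) (ce p k)) := by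
  have hn : n ≠ 0 := by omega
  have hω := wired_sub (k := k) hp hS hA
  have hWω : ∀ e ∈ Wd p k, e ∈ wiredOpen p k A := fun e he => Or.inr he
  have hstep : ∀ x y, EC p k A τ m C x y → ∃ e, VStep e x y ∨ FStep e x y := by
    rintro x y (⟨l, hl, rfl, rfl⟩ | ⟨i, hi, rfl, rfl⟩)
    · rw [run_succ]
      rcases next_step (wiredOpen p k A) (run p k A l) with ⟨-, -, h4⟩ | ⟨-, -, h4⟩
      exacts [⟨_, Or.inr h4⟩, ⟨_, Or.inl h4⟩]
    · have : (∃ e, FStep e (C i) (C (i + 1))) ∨ Ok p k S (C i) (C (i + 1)) := by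
        rcases hlast i hi with h1 | h1 | h1
        exacts [Or.inr (pre.ok i h1), Or.inl h1, Or.inr h1.1]
      rcases this with ⟨e, he⟩ | ⟨e, -, he⟩ | ⟨e, -, he⟩
      exacts [⟨e, Or.inr he⟩, ⟨e, Or.inl he⟩, ⟨e, Or.inr he⟩]
  have h : Obs Z (EC p k A τ m C) (fun d => d = cs p ∨ (W ∧ d = C m))
      fun d => d = run p k A τ := ⟨hstep, hcov⟩
  have hrce : ∀ j ≤ t, run p k A j ≠ ce p k := by
    intro j hj
    rcases Nat.eq_zero_or_pos j with h0 | h0
    · rw [h0, run_zero]
      exact cs_ne_ce hp hk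
    · exact run_ne hp hS (by omega) hA h0 (by omega)
  have hEc : ∀ x y, EC p k A τ m C x y → x ≠ ce p k ∧ y ≠ ce p k := by
    rintro x y (⟨l, hl, rfl, rfl⟩ | ⟨i, hi, rfl, rfl⟩)
    · exact ⟨hrce l (by omega), hrce (l + 1) (by omega)⟩
    · exact ⟨pre.exit i (by omega), pre.exit (i + 1) (by omega)⟩
  have hBc : ¬ (ce p k = cs p ∨ (W ∧ ce p k = C m)) := by
    rintro (h1 | ⟨-, h1⟩)
    · exact cs_ne_ce hp hk h1.symm
    · exact pre.exit m le_rfl h1.symm
  have hPc : ¬ ce p k = run p k A τ := fun h1 => hrce τ (by omega) h1.symm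
  have hWV : ∀ x y e, EC p k A τ m C x y → VStep e x y → e ∉ Wd p k := by
    rintro x y e (⟨l, hl, rfl, rfl⟩ | ⟨i, hi, rfl, rfl⟩) hVs
    · rw [run_succ] at hVs
      rcases next_step (wiredOpen p k A) (run p k A l) with ⟨-, -, h4⟩ | ⟨h3, -, h4⟩
      · exact (not_VF hVs h4).elim
      · rw [VV_eq hVs h4]
        exact fun h5 => h3 (hWω _ h5)
    · have : (∃ e, FStep e (C i) (C (i + 1))) ∨ Ok p k S (C i) (C (i + 1)) := by
        rcases hlast i hi with h1 | h1 | h1
        exacts [Or.inr (pre.ok i h1), Or.inl h1, Or.inr h1.1]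
      rcases this with ⟨e', he⟩ | ⟨e', h5, he⟩ | ⟨e', -, he⟩
      · exact (not_VF hVs he).elim
      · rw [VV_eq hVs he]
        exact h5
      · exact (not_VF hVs he).elim
  have hV : ∀ x y e, EC p k A τ m C x y → VStep e x y →
      (∃ j < τ, x = run p k A j ∨ y = run p k A j) → e ∉ wiredOpen p k A := by
    rintro x y e (⟨l, hl, rfl, rfl⟩ | ⟨i, hi, rfl, rfl⟩) hVs ⟨j, hj, hj'⟩
    · rw [run_succ] at hVs
      rcases next_step (wiredOpen p k A) (run p k A l) with ⟨-, -, h4⟩ | ⟨h3, -, h4⟩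
      · exact (not_VF hVs h4).elim
      · rw [VV_eq hVs h4]
        exact h3
    · exfalso
      have hx : C i ≠ run p k A j := by
        intro hx
        rcases Nat.eq_zero_or_pos i with h2 | h2
        · rw [h2, pre.zero] at hx
          have := run_inj hp hS (by omega) hA (by omega) (by omega) hx
          omega
        · exact pre.fresh i h2 hi j hj.le hx
      rcases hj' with hj' | hj'
      · exact hx hj'
      · rcases hlast i hi with h1 | ⟨e', he⟩ | h1
        · exact pre.fresh (i + 1) (by omega) h1 j hj.le hj'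
        · exact not_VF hVs he
        · exact h1.2 j hj.le hj'
  have hBw : ¬ (run p k A w = cs p ∨ (W ∧ run p k A w = C m)) := by
    rintro (h3 | ⟨-, h3⟩)
    · rw [← run_zero (p := p) (k := k) (A := A)] at h3
      have := run_inj hp hS (by omega) hA (by omega) (by omega) h3
      omega
    · exact hC m le_rfl w le_rfl hwt h3.symm
  have hPw : ¬ run p k A w = run p k A τ := by
    intro h3
    have := run_inj hp hS (by omega) hA (by omega) (by omega) h3
    omega
  have hEw : ∀ x y, EC p k A τ m C x y → x ≠ run p k A w ∧ y ≠ run p k A w := fun x y hxy =>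
    ec_ne hp hS hk hA hτw hwt ht hC hxy le_rfl hwt
  apply run_joined hp hS hk hA hτw hwt ht hC h
  refine (h.jC (S := S) (hω ho) hEw hBw hPw).trans ?_
  by_cases hWe : ahead (run p k A w) ∈ Wd p k
  · exact em_wired h hp hS hEc hBc hPc hWV hWe
  · rw [not_and] at hneg
    have h1 := hneg hWe
    push Not at h1
    obtain ⟨j, hj, hje⟩ := h1
    rw [em_congr hje.symm]
    exact em_joined' h hp hS hk hA hEc hBc hPc hWV hV hj (hje ▸ ho)

end

/-- **The lattice half for right gates.** -/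
theorem s_right : S_right := by
  intro n p S k A δ hδ hp hS h0k hk hA τ m w t C hτw hwt ht hC hG ho
  by_contra hneg
  rcases hG with ⟨hG, hJ⟩ | ⟨hG, hJ⟩
  · apply hJ
    obtain ⟨e, -, he⟩ := hG.last
    refine joined_scale hδ (right_core (Z := {z | (δ : ℂ) * z ∈ _}) hp hS h0k hk hA hτw hwt ht hC
      hG.toPre ?_ (W := False) ?_ ho hneg)
    · intro i hi
      by_cases h1 : i + 1 < m
      · exact Or.inl h1
      · have h2 : i + 1 = m := by omega
        have h3 : m - 1 = i := by omega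
        rw [h3, ← h2] at he
        exact Or.inr (Or.inl ⟨e, he⟩)
    · intro z hz
      exact cov_all hδ (by omega) hG.zero (Or.inl hz)
  · apply hJ
    refine joined_scale hδ (right_core (Z := {z | (δ : ℂ) * z ∈ _}) hp hS h0k hk hA hτw hwt ht hC
      hG.toPre ?_ (W := True) ?_ ho hneg)
    · intro i hi
      by_cases h1 : i + 1 < m
      · exact Or.inl h1
      · have h2 : i + 1 = m := by omega
        have h3 : m - 1 = i := by omega
        have h4 := hG.last (by omega)
        rw [h3, ← h2] at h4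
        exact Or.inr (Or.inr h4)
    · intro z hz
      exact cov_all hδ (by omega) hG.zero (hz.imp id fun h => ⟨trivial, h⟩)

end Vale.Agent.P167.Fjord
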