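import Vale.Agent.P167.Fjord.Main
import Vale.Agent.P167.Fjord.Left
import Vale.Agent.P167.Fjord.Right

/-!
# P167, block FJORD: the input `I_nf6` (no fjords)
-/

namespace Vale.Agent.P167.Fjord

/-- **No fjords**: the last topological input of the convergence of the interfaces. -/
theorem i_nf6 : H411.I_nf6 := nf6_of s_left s_right

end Vale.Agent.P167.Fjord
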