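import Vale.Agent.P167.Fjord.Top

/-!
# P167, block FJORD: from the kappa data to a fresh arm
-/

open Set Metric

namespace Vale.Agent.P167.Fjord

open Vale.Agent.P167.E6 Vale.Agent.P167.E2

variable {n : ℕ} {p : ZMod n → ℤ × ℤ} {S : Finset (ℤ × ℤ)} {k : ℕ} {A : Finset (Sym2 (ℤ × ℤ))}
variable {δ r ε : ℝ}

/-- The number of the piece of the interface at time `i`. -/
noncomputable def pcA (p : ZMod n → ℤ × ℤ) (k : ℕ) (δ r : ℝ) (A : Finset (Sym2 (ℤ × ℤ)))
    (i : ℕ) : ℕ := pc (fun b => mid δ (run p k A b)) r i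

/-- At time `i`, in the piece `l`, there is a gate of size `ε` to the piece `j`. -/
def QL (p : ZMod n → ℤ × ℤ) (k : ℕ) (S : Finset (ℤ × ℤ)) (δ r ε : ℝ) (j l : ℕ)
    (A : Finset (Sym2 (ℤ × ℤ))) (i : ℕ) : Prop :=
  pcA p k δ r A i = l ∧ ∃ (m : ℕ) (C : ℕ → Medial), (GLe p k S A i m C ∨ GRi p k S A i m C) ∧
    (∀ b ≤ m, dist (Pp δ (C b)) (Pp δ (run p k A i)) ≤ 2 * ε) ∧
    ∃ u < i, C m = run p k A u ∧ pcA p k δ r A u = j

/-- At time `i`, in the piece `l`, there is a gate of size `ε` to the boundary. -/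
def QW (p : ZMod n → ℤ × ℤ) (k : ℕ) (S : Finset (ℤ × ℤ)) (δ r ε : ℝ) (l : ℕ)
    (A : Finset (Sym2 (ℤ × ℤ))) (i : ℕ) : Prop :=
  pcA p k δ r A i = l ∧ ∃ (m : ℕ) (C : ℕ → Medial), (GWi p k S A i m C ∨ GFr p k S A i m C) ∧
    ∀ b ≤ m, dist (Pp δ (C b)) (Pp δ (run p k A i)) ≤ 2 * ε

theorem pcA_congr {A' : Finset (Sym2 (ℤ × ℤ))} {i : ℕ}
    (h : ∀ j ≤ i, run p k A j = run p k A' j) : pcA p k δ r A i = pcA p k δ r A' i :=
  pc_congr fun j hj => by simp only [h j hj]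

theorem QL.congr {A' : Finset (Sym2 (ℤ × ℤ))} {i j l : ℕ}
    (h : ∀ j ≤ i, run p k A j = run p k A' j) (hQ : QL p k S δ r ε j l A i) :
    QL p k S δ r ε j l A' i := by
  obtain ⟨h1, m, C, h2, h3, u, hu, h4, h5⟩ := hQ
  refine ⟨by rw [← pcA_congr h, h1], m, C, ?_, ?_, u, hu, by rw [h4, h u hu.le], ?_⟩
  · rcases h2 with h2 | h2
    · exact Or.inl (h2.congr h)
    · exact Or.inr (h2.congr h)
  · intro b hb
    rw [← h i le_rfl]
    exact h3 b hb
  · rw [← pcA_congr fun j hj => h j (hj.trans hu.le), h5]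

theorem QW.congr {A' : Finset (Sym2 (ℤ × ℤ))} {i l : ℕ}
    (h : ∀ j ≤ i, run p k A j = run p k A' j) (hQ : QW p k S δ r ε l A i) :
    QW p k S δ r ε l A' i := by
  obtain ⟨h1, m, C, h2, h3⟩ := hQ
  refine ⟨by rw [← pcA_congr h, h1], m, C, ?_, ?_⟩
  · rcases h2 with h2 | h2
    · exact Or.inl (h2.congr h)
    · exact Or.inr (h2.congr h)
  · intro b hb
    rw [← h i le_rfl]
    exact h3 b hb

theorem pcA_near (hδ : 0 ≤ δ) (hr : 0 < r) {i i' : ℕ}
    (h : pcA p k δ r A i = pcA p k δ r A i') :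
    dist (Pp δ (run p k A i)) (Pp δ (run p k A i')) ≤ 2 * r + δ := by
  have h1 := dist_of_pc_eq (a := fun b => mid δ (run p k A b)) hr h
  have h2 := dist_mid_Pp hδ (run p k A i)
  have h3 := dist_mid_Pp hδ (run p k A i')
  have h4 := dist_triangle4 (Pp δ (run p k A i)) (mid δ (run p k A i)) (mid δ (run p k A i'))
    (Pp δ (run p k A i'))
  rw [dist_comm (Pp δ (run p k A i)) (mid δ (run p k A i))] at h4
  linarith

section

variable (hp : IsPolygon p) (hS : Encloses p S) (hk : k < n) (hA : A ⊆ edges S) (hδ : 0 ≤ δ)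
include hp hS hk hA hδ

theorem kap_aux {F : Set ℂ} {f b z₀ : ℂ} {R σ e₁ : ℝ} {κ : ℂ → ℤ}
    (hK : KapData F (pl p k δ A) σ f b z₀ R κ) {i i' : ℕ} (hii : i ≤ i')
    (hi' : (i' : ℝ) + 1 ≤ σ) (hl' : i' ≤ len p k A)
    (hball : ∀ j, i ≤ j → j ≤ i' → dist (Pp δ (run p k A j)) z₀ ≤ e₁) (hR : e₁ + δ ≤ R) :
    κ (Pp δ (run p k A i)) = κ (Pp δ (run p k A i')) := by
  have hii' : (i : ℝ) ≤ i' := by exact_mod_cast hii
  refine hK.loc (pl p k δ A '' Icc ((i : ℝ) + 1) ((i' : ℝ) + 1)) ?_ (past_prop _ _).2 _ ?_ _ ?_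
  · rintro _ ⟨x, ⟨hx1, hx2⟩, rfl⟩
    have hx0 : 0 ≤ x := by
      have : (0 : ℝ) ≤ i := Nat.cast_nonneg _
      linarith
    refine ⟨Or.inr ⟨x, ⟨hx0, hx2.trans hi'⟩, rfl⟩, ?_⟩
    have h1 := Nat.floor_le hx0
    have h2 := Nat.lt_floor_add_one x
    have h3 : i + 1 ≤ ⌊x⌋₊ := Nat.le_floor (by push_cast; exact hx1)
    have h4 : ⌊x⌋₊ ≤ i' + 1 := by
      have : (⌊x⌋₊ : ℝ) ≤ (i' : ℝ) + 1 := h1.trans hx2
      exact_mod_cast this
    have hnu : (nu p k A : ℝ) = len p k A + 2 := by unfold nu; push_cast; ring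
    have hl'' : (i' : ℝ) ≤ len p k A := by exact_mod_cast hl'
    have h5 := pl_lip (δ := δ) hp hS hk hA hδ (Nat.cast_nonneg ⌊x⌋₊) h1
      (by rw [hnu]; linarith)
    rw [pl_nat' (by omega) (by omega)] at h5
    have h6 := hball (⌊x⌋₊ - 1) (by omega) (by omega)
    rw [mem_closedBall]
    have h7 := dist_triangle (pl p k δ A x) (Pp δ (run p k A (⌊x⌋₊ - 1))) z₀
    have h8 : δ * (1 / 2 * (x - ⌊x⌋₊)) ≤ δ := by nlinarith
    linarith
  · exact ⟨_, ⟨le_rfl, by linarith⟩, pl_nat (hii.trans hl')⟩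
  · exact ⟨_, ⟨by linarith, le_rfl⟩, pl_nat hl'⟩

theorem kap_const {F : Set ℂ} {f b z₀ : ℂ} {R σ e₀ : ℝ} {κ : ℂ → ℤ}
    (hK : KapData F (pl p k δ A) σ f b z₀ R κ) (hr : 0 < r) {i i' : ℕ}
    (hi : (i : ℝ) + 1 ≤ σ) (hi' : (i' : ℝ) + 1 ≤ σ) (hl : i ≤ len p k A) (hl' : i' ≤ len p k A)
    (h : pcA p k δ r A i = pcA p k δ r A i') (h0 : dist (Pp δ (run p k A i)) z₀ ≤ e₀)
    (hR : e₀ + 2 * r + 2 * δ ≤ R) :
    κ (Pp δ (run p k A i)) = κ (Pp δ (run p k A i')) := by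
  have hall : ∀ j, pcA p k δ r A j = pcA p k δ r A i → dist (Pp δ (run p k A j)) z₀ ≤
      e₀ + 2 * r + δ := by
    intro j hj
    have h1 := pcA_near hδ hr hj
    have h2 := dist_triangle (Pp δ (run p k A j)) (Pp δ (run p k A i)) z₀
    linarith
  rcases le_total i i' with h1 | h1
  · refine kap_aux hp hS hk hA hδ hK h1 hi' hl' (e₁ := e₀ + 2 * r + δ) (fun j hj hj' => ?_)
      (by linarith)
    exact hall j (pc_between hj hj' h)
  · refine (kap_aux hp hS hk hA hδ hK h1 hi hl (e₁ := e₀ + 2 * r + δ) (fun j hj hj' => ?_)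
      (by linarith)).symm
    refine hall j ?_
    have := pc_between hj hj' h.symm
    exact this.trans h.symm

end

/-- **From a gate to a fresh arm.** -/
theorem farm_of_gate (hL : S_left) (hR : S_right) (hδ : 0 < δ) (hp : IsPolygon p)
    (hS : Encloses p S) (h0 : 0 < k) (hk : k + 1 < n) (hA : A ⊆ edges S) {τ m t : ℕ}
    {C : ℕ → Medial}
    (hτt : τ < t) (ht : t < len p k A) (hε : 0 ≤ ε)
    (hC : ∀ b ≤ m, dist (Pp δ (C b)) (Pp δ (run p k A τ)) ≤ 2 * ε)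
    (hgate : ((GLe p k S A τ m C ∨ GRi p k S A τ m C) ∧
        ¬ JoinedIn (Om δ S \ (pl p k δ A '' Icc 0 (τ + 1) ∪ Seg δ m C)) (Pp δ (run p k A t))
          (bT p k δ)) ∨
      ((GWi p k S A τ m C ∨ GFr p k S A τ m C) ∧
        ¬ JoinedIn (Om δ S \ (pl p k δ A '' Icc 0 (τ + 1) ∪ Seg δ m C ∪ Bit δ (C m)))
          (Pp δ (run p k A t)) (bT p k δ)))
    {R₁ : ℝ} (hR₁ : 3 * ε < R₁) (hfar : R₁ ≤ dist (Pp δ (run p k A t)) (Pp δ (run p k A τ)))
    {r' R' : ℤ} (hr' : 6 * ε / δ + 3 ≤ r') (hR' : (R' : ℝ) ≤ R₁ / (2 * δ) - 1 / 2) :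
    FArm p k S A τ r' R' := by
  classical
  set P : ℕ → Prop := fun w => dist (Pp δ (run p k A w)) (Pp δ (run p k A τ)) ≤ 3 * ε with hP
  have hPτ : P τ := by simp only [hP, dist_self]; linarith
  set w₁ := Nat.findGreatest P t with hw₁
  have h1 : P w₁ := Nat.findGreatest_spec hτt.le hPτ
  have h2 : τ ≤ w₁ := Nat.le_findGreatest hτt.le hPτ
  have h3 : w₁ ≤ t := Nat.findGreatest_le t
  have h4 : w₁ ≠ t := by
    intro h
    rw [h] at h1
    simp only [hP] at h1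
    linarith
  have h5 : ∀ w, w₁ < w → w ≤ t → 3 * ε < dist (Pp δ (run p k A w)) (Pp δ (run p k A τ)) := by
    intro w hw hw'
    exact not_le.1 (Nat.findGreatest_is_greatest hw hw')
  have havoid : ∀ w, w₁ < w → ∀ i ≤ m, ∀ j, w ≤ j → j ≤ t → C i ≠ run p k A j := by
    intro w hw i hi j hj hj' he
    have h6 := hC i hi
    rw [he] at h6
    have h7 := h5 j (by omega) hj'
    linarith
  refine ⟨w₁ + 1, t, by omega, by omega, ht, ?_, ?_, ?_⟩
  · have h6 := (nm_bounds hδ (run p k A (w₁ + 1)) (run p k A τ)).1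
    have h7 := dist_mid_Pp hδ.le (run p k A (w₁ + 1))
    have h8 := dist_mid_Pp hδ.le (run p k A τ)
    have h9 := run_step (p := p) (k := k) (A := A) hδ.le w₁
    have h10 := dist_triangle4 (mid δ (run p k A (w₁ + 1))) (Pp δ (run p k A (w₁ + 1)))
      (Pp δ (run p k A τ)) (mid δ (run p k A τ))
    have h11 := dist_triangle (Pp δ (run p k A (w₁ + 1))) (Pp δ (run p k A w₁))
      (Pp δ (run p k A τ))
    rw [dist_comm (Pp δ (run p k A τ))] at h10
    have h12 : dist (mid δ (run p k A (w₁ + 1))) (mid δ (run p k A τ)) ≤ 3 * ε + 3 / 2 * δ := by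
      simp only [hP] at h1
      linarith
    have h13 : 2 * dist (mid δ (run p k A (w₁ + 1))) (mid δ (run p k A τ)) / δ ≤
        6 * ε / δ + 3 := by
      rw [div_le_iff₀ hδ]
      have : (6 * ε / δ + 3) * δ = 6 * ε + 3 * δ := by field_simp
      rw [this]
      linarith
    exact_mod_cast h6.trans (h13.trans hr')
  · have h6 := (nm_bounds hδ (run p k A t) (run p k A τ)).2
    have h7 := dist_mid_Pp hδ.le (run p k A t)
    have h8 := dist_mid_Pp hδ.le (run p k A τ)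
    have h10 := dist_triangle4 (Pp δ (run p k A t)) (mid δ (run p k A t))
      (mid δ (run p k A τ)) (Pp δ (run p k A τ))
    rw [dist_comm (Pp δ (run p k A t)) (mid δ (run p k A t))] at h10
    have h12 : R₁ / (2 * δ) - 1 / 2 ≤
        dist (mid δ (run p k A t)) (mid δ (run p k A τ)) / (2 * δ) := by
      rw [le_div_iff₀ (by positivity)]
      have : (R₁ / (2 * δ) - 1 / 2) * (2 * δ) = R₁ - δ := by field_simp
      rw [this]
      linarith
    exact_mod_cast hR'.trans (h12.trans h6)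
  · have hl : ∀ w, w₁ + 1 ≤ w → w ≤ t → τ < w := fun w hw _ => by omega
    rcases hgate with ⟨h6 | h6, h7⟩ | ⟨h6 | h6, h7⟩
    · exact Or.inl fun w hw hw' => hL hδ hp hS h0 hk hA τ m w t C (hl w hw hw') hw' ht
        (havoid w (by omega)) (Or.inl ⟨h6, h7⟩)
    · exact Or.inr fun w hw hw' => hR hδ hp hS h0 hk hA τ m w t C (hl w hw hw') hw' ht
        (havoid w (by omega)) (Or.inl ⟨h6, h7⟩)
    · exact Or.inl fun w hw hw' => hL hδ hp hS h0 hk hA τ m w t C (hl w hw hw') hw' ht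
        (havoid w (by omega)) (Or.inr ⟨h6, h7⟩)
    · exact Or.inr fun w hw hw' => hR hδ hp hS h0 hk hA τ m w t C (hl w hw hw') hw' ht
        (havoid w (by omega)) (Or.inr ⟨h6, h7⟩)

/-- **The bridge**: the output of the continuum half gives a fresh arm behind the first time of a
gate between two pieces, or to the boundary. -/
theorem bridge (hL : S_left) (hR : S_right) (hδ : 0 < δ) (hp : IsPolygon p)
    (hS : Encloses p S) (h0 : 0 < k) (hk : k + 1 < n) (hA : A ⊆ edges S)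
    (hg1 : ∀ c : Medial, c.1 ∈ verts S → fc c ∉ S → (δ : ℂ) * cpt (3 / 8) c ∈ frontier (Om δ S))
    (hg2 : IsPreconnected (frontier (Om δ S))) (hg3 : IsCompact (frontier (Om δ S)))
    (hg4 : aM p δ ∈ frontier (Om δ S))
    {R η : ℝ} (hG : Gated δ p k S A R η ε) (hηR : η ≤ R) (hr : 0 < r) (hrη : 16 * r ≤ η)
    (hεη : 16 * ε ≤ η) (hδε : δ ≤ ε)
    {r' R' : ℤ} (hr' : 6 * ε / δ + 3 ≤ r') (hR' : (R' : ℝ) ≤ (3 / 2 * R) / (2 * δ) - 1 / 2) :
    ∃ l ≤ pcA p k δ r A (len p k A - 1),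
      (∃ j ≤ pcA p k δ r A (len p k A - 1), ∃ τ, QL p k S δ r ε j l A τ ∧
        (∀ i < τ, ¬ QL p k S δ r ε j l A i) ∧ FArm p k S A τ r' R') ∨
      ∃ τ, QW p k S δ r ε l A τ ∧ (∀ i < τ, ¬ QW p k S δ r ε l A i) ∧
        FArm p k S A τ r' R' := by
  classical
  obtain ⟨z₀, σ, t, κ, hK, hσt, htl, hfz, hbz, hwall, v, m, C, hv, hCε, hcase⟩ := hG
  have hε : 0 < ε := hδ.trans_le hδε
  have hη : 0 < η := by linarith
  have hRpos : 0 < R := hη.trans_le hηR
  have hv0 : (0 : ℝ) ≤ v := Nat.cast_nonneg _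
  have hvt : v + 1 < t := by
    have : (v : ℝ) + 1 < t := by linarith
    exact_mod_cast this
  have ht1 : 1 ≤ t := by omega
  have hfpl : pl p k δ A (t : ℝ) = Pp δ (run p k A (t - 1)) := pl_nat' ht1 (by omega)
  rw [hfpl] at hfz hK
  have hopen := isOpen_Om hδ S
  have hdisj : Disjoint (Om δ S) (frontier (Om δ S)) := by
    rw [hopen.frontier_eq]
    exact disjoint_sdiff_right
  -- the position at time `v`
  have hzero : C 0 = run p k A v := by
    rcases hcase with ⟨h | h, -⟩ | ⟨h | h, -⟩ <;> exact h.zero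
  have hz₀v : dist (Pp δ (run p k A v)) z₀ ≤ ε := by
    have := hCε 0 (Nat.zero_le _)
    rw [dist_comm, hzero] at this
    exact this
  have hC2 : ∀ b ≤ m, dist (Pp δ (C b)) (Pp δ (run p k A v)) ≤ 2 * ε := by
    intro b hb
    have h1 := hCε b hb
    have h2 := dist_triangle_right (Pp δ (C b)) (Pp δ (run p k A v)) z₀
    have h3 : dist (Pp δ (C b)) z₀ ≤ ε := by rw [dist_comm]; exact h1
    linarith
  -- positions in the piece of `v`
  have hpiece : ∀ τ, pcA p k δ r A τ = pcA p k δ r A v →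
      dist (Pp δ (run p k A τ)) z₀ ≤ ε + 2 * r + δ := by
    intro τ hτ
    have h1 := pcA_near hδ.le hr hτ
    have h2 := dist_triangle (Pp δ (run p k A τ)) (Pp δ (run p k A v)) z₀
    linarith
  -- conclusion, once we have the separation at the first time
  have final : ∀ (τ m' : ℕ) (C' : ℕ → Medial), τ ≤ v → pcA p k δ r A τ = pcA p k δ r A v →
      (∀ b ≤ m', dist (Pp δ (C' b)) (Pp δ (run p k A τ)) ≤ 2 * ε) →
      (((GLe p k S A τ m' C' ∨ GRi p k S A τ m' C') ∧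
        ¬ JoinedIn (Om δ S \ (pl p k δ A '' Icc 0 (τ + 1) ∪ Seg δ m' C'))
          (Pp δ (run p k A (t - 1))) (bT p k δ)) ∨
      ((GWi p k S A τ m' C' ∨ GFr p k S A τ m' C') ∧
        ¬ JoinedIn (Om δ S \ (pl p k δ A '' Icc 0 (τ + 1) ∪ Seg δ m' C' ∪ Bit δ (C' m')))
          (Pp δ (run p k A (t - 1))) (bT p k δ))) →
      FArm p k S A τ r' R' := by
    intro τ m' C' hτ hpcτ hC' hgate
    have h1 := hpiece τ hpcτ
    have h2 := dist_triangle_right (Pp δ (run p k A (t - 1))) (Pp δ (run p k A τ)) z₀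
    refine farm_of_gate hL hR hδ hp hS h0 hk hA (by omega) (by omega) hε.le hC' hgate
      (R₁ := 3 / 2 * R) (by linarith) ?_ hr' hR'
    have h3 := dist_triangle (Pp δ (run p k A (t - 1))) (Pp δ (run p k A τ)) z₀
    rw [dist_comm z₀] at hfz
    linarith
  have hvlen : v ≤ len p k A - 1 := by omega
  refine ⟨pcA p k δ r A v, pc_mono hvlen, ?_⟩
  rcases hcase with ⟨hgt, hκ⟩ | ⟨hgt, hκ⟩
  · -- loops
    left
    obtain ⟨u, hu, hCu⟩ : ∃ u < v, C m = run p k A u := by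
      rcases hgt with h | h <;> exact h.past
    have hex : ∃ i, QL p k S δ r ε (pcA p k δ r A u) (pcA p k δ r A v) A i :=
      ⟨v, rfl, m, C, hgt, hC2, u, hu, hCu, rfl⟩
    refine ⟨pcA p k δ r A u, pc_mono (by omega), Nat.find hex, Nat.find_spec hex,
      fun i hi => Nat.find_min hex hi, ?_⟩
    set τ := Nat.find hex with hτ
    have hτv : τ ≤ v := Nat.find_min' hex ⟨rfl, m, C, hgt, hC2, u, hu, hCu, rfl⟩
    obtain ⟨hpcτ, m', C', hgt', hC', u', hu', hCu', hpcu'⟩ := Nat.find_spec hex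
    rw [← hτ] at hpcτ hgt' hC' hu'
    refine final τ m' C' hτv hpcτ hC' (Or.inl ⟨hgt', ?_⟩)
    have hτv' : (τ : ℝ) ≤ v := by exact_mod_cast hτv
    have huv' : (u : ℝ) ≤ v := by exact_mod_cast hu.le
    have hu'v' : (u' : ℝ) ≤ τ := by exact_mod_cast hu'.le
    have hzero' : C' 0 = run p k A τ := by rcases hgt' with h | h <;> exact h.zero
    -- kappa
    have e1 : κ (Pp δ (run p k A v)) = κ (Pp δ (run p k A τ)) :=
      kap_const hp hS (by omega) hA hδ.le hK hr hv (by linarith) (by omega) (by omega) hpcτ.symm hz₀v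
        (by linarith)
    have hz₀u : dist (Pp δ (run p k A u)) z₀ ≤ ε := by
      have := hCε m le_rfl
      rw [dist_comm, hCu] at this
      exact this
    have e2 : κ (Pp δ (run p k A u)) = κ (Pp δ (run p k A u')) :=
      kap_const hp hS (by omega) hA hδ.le hK hr (by linarith) (by linarith) (by omega) (by omega)
        hpcu'.symm hz₀u (by linarith)
    have hne : κ (Pp δ (run p k A u')) ≠ κ (Pp δ (run p k A τ)) := by
      rw [← e1, ← e2]
      have : κ (Pp δ (C m)) ≠ κ (Pp δ (C 0)) := hκ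
      rwa [hCu, hzero] at this
    have hsub : Seg δ m' C' ⊆ closedBall z₀ R := by
      refine Seg_subset fun i hi => ?_
      have h1 := hC' i hi
      have h2 := hpiece τ hpcτ
      have h3 := dist_triangle (Pp δ (C' i)) (Pp δ (run p k A τ)) z₀
      linarith
    have hm1 : Pp δ (run p k A u') ∈ pl p k δ A '' Icc 0 ((τ : ℝ) + 1) ∩ Seg δ m' C' := by
      refine ⟨⟨(u' : ℝ) + 1, ⟨by positivity, by linarith⟩, pl_nat (by omega)⟩, ?_⟩
      rw [← hCu']
      exact mem_Seg le_rfl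
    have hm2 : Pp δ (run p k A τ) ∈ pl p k δ A '' Icc 0 ((τ : ℝ) + 1) ∩ Seg δ m' C' := by
      refine ⟨⟨(τ : ℝ) + 1, ⟨by positivity, le_rfl⟩, pl_nat (by omega)⟩, ?_⟩
      rw [← hzero']
      exact start_mem_Seg
    have hsep := hK.sep (pl p k δ A '' Icc 0 ((τ : ℝ) + 1))
      (fun x hx => Or.inr (image_mono (Icc_subset_Icc le_rfl (by linarith)) hx))
      (past_prop _ _).1 (past_prop _ _).2 (Seg δ m' C') hsub (Seg_prop _ _).1 (Seg_prop _ _).2
      _ hm1 _ hm2 hne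
    intro hj
    exact hsep (hj.mono fun x hx => hx.2)
  · -- walls
    right
    have hex : ∃ i, QW p k S δ r ε (pcA p k δ r A v) A i := ⟨v, rfl, m, C, hgt, hC2⟩
    refine ⟨Nat.find hex, Nat.find_spec hex, fun i hi => Nat.find_min hex hi, ?_⟩
    set τ := Nat.find hex with hτ
    have hτv : τ ≤ v := Nat.find_min' hex ⟨rfl, m, C, hgt, hC2⟩
    obtain ⟨hpcτ, m', C', hgt', hC'⟩ := Nat.find_spec hex
    rw [← hτ] at hpcτ hgt' hC'
    refine final τ m' C' hτv hpcτ hC' (Or.inr ⟨hgt', ?_⟩)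
    have hτv' : (τ : ℝ) ≤ v := by exact_mod_cast hτv
    have hzero' : C' 0 = run p k A τ := by rcases hgt' with h | h <;> exact h.zero
    -- kappa
    have e1 : κ (Pp δ (run p k A v)) = κ (Pp δ (run p k A τ)) :=
      kap_const hp hS (by omega) hA hδ.le hK hr hv (by linarith) (by omega) (by omega) hpcτ.symm hz₀v
        (by linarith)
    -- the boundary points
    have hfr : ∀ (τ m : ℕ) (C : ℕ → Medial), (GWi p k S A τ m C ∨ GFr p k S A τ m C) →
        (δ : ℂ) * cpt (3 / 8) (C m) ∈ frontier (Om δ S) := by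
      intro τ m C h
      rcases h with h | h
      · refine hg1 _ (verts_last hp hS hA h.toPre fun _ => ?_) h.out
        obtain ⟨e, -, he⟩ := h.last
        exact Or.inl ⟨e, he⟩
      · exact hg1 _ (verts_last hp hS hA h.toPre fun h0 => Or.inr (h.last h0).1) h.out
    have hb1 : dist ((δ : ℂ) * cpt (3 / 8) (C m)) z₀ ≤ η := by
      have h1 := dist_bit hδ.le (C m)
      have h2 : dist (Pp δ (C m)) z₀ ≤ ε := by
        rw [dist_comm]; exact hCε m le_rfl
      have h3 := dist_triangle ((δ : ℂ) * cpt (3 / 8) (C m)) (Pp δ (C m)) z₀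
      linarith
    have hb2 : ∀ i ≤ m', dist (Pp δ (C' i)) z₀ ≤ η - δ := by
      intro i hi
      have h1 := hC' i hi
      have h2 := hpiece τ hpcτ
      have h3 := dist_triangle (Pp δ (C' i)) (Pp δ (run p k A τ)) z₀
      linarith
    have hb3 : dist ((δ : ℂ) * cpt (3 / 8) (C' m')) z₀ ≤ η := by
      have h1 := dist_bit hδ.le (C' m')
      have h2 := hb2 m' le_rfl
      have h3 := dist_triangle ((δ : ℂ) * cpt (3 / 8) (C' m')) (Pp δ (C' m')) z₀
      linarith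
    have e2 : κ ((δ : ℂ) * cpt (3 / 8) (C m)) = κ ((δ : ℂ) * cpt (3 / 8) (C' m')) :=
      hwall _ ⟨hfr v m C hgt, mem_closedBall.2 hb1⟩ _ ⟨hfr τ m' C' hgt', mem_closedBall.2 hb3⟩
    have hne : κ ((δ : ℂ) * cpt (3 / 8) (C' m')) ≠ κ (Pp δ (run p k A τ)) := by
      rw [← e1, ← e2]
      have : κ ((δ : ℂ) * cpt (3 / 8) (C m)) ≠ κ (Pp δ (C 0)) := hκ
      rwa [hzero] at this
    have hsub : Seg δ m' C' ∪ Bit δ (C' m') ⊆ closedBall z₀ R := by
      refine union_subset (Seg_subset fun i hi => ?_) (Bit_subset ?_ ?_)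
      · have := hb2 i hi
        linarith
      · have := hb2 m' le_rfl
        linarith
      · linarith
    have hcon : IsCompact (Seg δ m' C' ∪ Bit δ (C' m')) ∧
        IsPreconnected (Seg δ m' C' ∪ Bit δ (C' m')) := by
      refine ⟨(Seg_prop _ _).1.union (Bit_prop _).1, ?_⟩
      exact IsPreconnected.union (Pp δ (C' m')) (mem_Seg le_rfl) (left_mem_segment _ _ _)
        (Seg_prop _ _).2 (Bit_prop _).2
    have hG1 : IsCompact (frontier (Om δ S) ∪ pl p k δ A '' Icc 0 ((τ : ℝ) + 1)) ∧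
        IsPreconnected (frontier (Om δ S) ∪ pl p k δ A '' Icc 0 ((τ : ℝ) + 1)) := by
      refine ⟨hg3.union (past_prop _ _).1, ?_⟩
      refine IsPreconnected.union (aM p δ) hg4 ⟨0, ⟨le_rfl, by positivity⟩, pl_zero δ⟩ hg2
        (past_prop _ _).2
    have hm1 : (δ : ℂ) * cpt (3 / 8) (C' m') ∈
        (frontier (Om δ S) ∪ pl p k δ A '' Icc 0 ((τ : ℝ) + 1)) ∩
          (Seg δ m' C' ∪ Bit δ (C' m')) :=
      ⟨Or.inl (hfr τ m' C' hgt'), Or.inr (right_mem_segment _ _ _)⟩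
    have hm2 : Pp δ (run p k A τ) ∈
        (frontier (Om δ S) ∪ pl p k δ A '' Icc 0 ((τ : ℝ) + 1)) ∩
          (Seg δ m' C' ∪ Bit δ (C' m')) := by
      refine ⟨Or.inr ⟨(τ : ℝ) + 1, ⟨by positivity, le_rfl⟩, pl_nat (by omega)⟩, Or.inl ?_⟩
      rw [← hzero']
      exact start_mem_Seg
    have hsep := hK.sep (frontier (Om δ S) ∪ pl p k δ A '' Icc 0 ((τ : ℝ) + 1))
      (union_subset_union_right _ (image_mono (Icc_subset_Icc le_rfl (by linarith))))
      hG1.1 hG1.2 _ hsub hcon.1 hcon.2 _ hm1 _ hm2 hne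
    intro hj
    refine hsep (hj.mono ?_)
    rintro x ⟨hx1, hx2⟩ hx3
    rcases hx3 with (h | h) | h
    · exact disjoint_left.1 hdisj hx1 h
    · exact hx2 (Or.inl (Or.inl h))
    · rcases h with h | h
      · exact hx2 (Or.inl (Or.inr h))
      · exact hx2 (Or.inr h)

end Vale.Agent.P167.Fjord
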