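import Vale.Agent.P167.E2.Om
import Vale.Agent.P167.E2.Intf
import Vale.Agent.P167.S6.Tip2

/-!
# P167, block FJORD (NF): definitions and interfaces

The corner lattice `L`: its points are the darts `c : Medial`, at the position
`δ * cpt (1/4) c`; its edges are `{c, rot c}` (*vertex type*: around the vertex `c.1`, crossing the
edge `ahead c`) and `{c, adv c}` (*face type*: along the edge `ahead c`, in the face `fc c`).
The interface uses the edge of vertex type iff `ahead c` is closed, of face type iff it is open.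
-/

open Set Metric

namespace Vale.Agent.P167.Fjord

open Vale.Agent.P167.E6 Vale.Agent.P167.E2

/-- the step at a closed edge -/
def rot (c : Medial) : Medial := (c.1, c.2 + 1)

/-- the step at an open edge -/
def adv (c : Medial) : Medial := (c.1 + dir (c.2 + 1), c.2 - 1)

/-- The two darts are the ends of an edge of vertex type which crosses `e`. -/
def VStep (e : Sym2 (ℤ × ℤ)) (c c' : Medial) : Prop :=
  (ahead c = e ∧ c' = rot c) ∨ (ahead c' = e ∧ c = rot c')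

/-- The two darts are the ends of an edge of face type along `e`. -/
def FStep (e : Sym2 (ℤ × ℤ)) (c c' : Medial) : Prop :=
  (ahead c = e ∧ c' = adv c) ∨ (ahead c' = e ∧ c = adv c')

variable {n : ℕ}

/-- The wired edges of the polygon: `wiredOpen p k A = A ∪ Wd p k`. -/
def Wd (p : ZMod n → ℤ × ℤ) (k : ℕ) : Set (Sym2 (ℤ × ℤ)) :=
  {e | ∃ i : ℕ, k ≤ i ∧ i + 1 < n ∧ e = s(p i, p (i + 1))}

/-- The allowed steps: inside the domain, not across the wired edges. -/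
def Ok (p : ZMod n → ℤ × ℤ) (k : ℕ) (S : Finset (ℤ × ℤ)) (c c' : Medial) : Prop :=
  (∃ e, e ∉ Wd p k ∧ VStep e c c') ∨ ∃ e ∈ edges S, FStep e c c'

section

variable (p : ZMod n → ℤ × ℤ) (k : ℕ) (S : Finset (ℤ × ℤ)) (A : Finset (Sym2 (ℤ × ℤ)))

/-- A path of darts from the position at time `τ`, through darts which are not visited before, by
allowed steps except possibly for the last one; it does not contain the exit. -/
structure Pre (τ m : ℕ) (C : ℕ → Medial) : Prop where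
  zero : C 0 = run p k A τ
  fresh : ∀ i, 0 < i → i < m → ∀ j ≤ τ, C i ≠ run p k A j
  ok : ∀ i, i + 1 < m → Ok p k S (C i) (C (i + 1))
  exit : ∀ i ≤ m, C i ≠ ce p k

/-- Gate to the left side of the past. -/
structure GLe (τ m : ℕ) (C : ℕ → Medial) : Prop extends Pre p k S A τ m C where
  pos : 0 < m
  past : ∃ u < τ, C m = run p k A u
  last : ∃ e, e ∉ Wd p k ∧ VStep e (C (m - 1)) (C m)

/-- Gate to the right side of the past. -/
structure GRi (τ m : ℕ) (C : ℕ → Medial) : Prop extends Pre p k S A τ m C where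
  pos : 0 < m
  past : ∃ u < τ, C m = run p k A u
  last : ∃ e ∈ edges S, FStep e (C (m - 1)) (C m)

/-- Gate to the wired arc: the last step crosses a wired edge outward. -/
structure GWi (τ m : ℕ) (C : ℕ → Medial) : Prop extends Pre p k S A τ m C where
  pos : 0 < m
  last : ∃ e ∈ Wd p k, VStep e (C (m - 1)) (C m)
  out : fc (C m) ∉ S

/-- Gate to the free arc (`m = 0` is allowed): the last dart is outside along the free arc. -/
structure GFr (τ m : ℕ) (C : ℕ → Medial) : Prop extends Pre p k S A τ m C where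
  last : 0 < m → Ok p k S (C (m - 1)) (C m) ∧ ∀ j ≤ τ, C m ≠ run p k A j
  out : fc (C m) ∉ S

end

/-- The path as a subset of the plane. -/
def Seg (δ : ℝ) (m : ℕ) (C : ℕ → Medial) : Set ℂ :=
  {z | z = (δ : ℂ) * cpt (1 / 4) (C 0) ∨ ∃ i < m, z ∈ segment ℝ ((δ : ℂ) * cpt (1 / 4) (C i))
    ((δ : ℂ) * cpt (1 / 4) (C (i + 1)))}

/-- The diagonal piece from an exterior dart to the boundary. -/
def Bit (δ : ℝ) (c : Medial) : Set ℂ :=
  segment ℝ ((δ : ℂ) * cpt (1 / 4) c) ((δ : ℂ) * cpt (3 / 8) c)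

/-- The target. -/
noncomputable def bT (p : ZMod n → ℤ × ℤ) (k : ℕ) (δ : ℝ) : ℂ := (δ : ℂ) * cpt (5 / 16) (ce p k)

/-- The output of the logarithm argument: `κ` is the difference of a logarithm of
`(z - f) / (z - b)` on `F ∪ X [0, σ]` and of one on the ball, divided by `2 π i`. -/
structure KapData (F : Set ℂ) (X : ℝ → ℂ) (σ : ℝ) (f b z₀ : ℂ) (R : ℝ) (κ : ℂ → ℤ) : Prop where
  loc : ∀ G ⊆ (F ∪ X '' Icc 0 σ) ∩ closedBall z₀ R, IsPreconnected G →
    ∀ x ∈ G, ∀ y ∈ G, κ x = κ y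
  sep : ∀ G ⊆ F ∪ X '' Icc 0 σ, IsCompact G → IsPreconnected G →
    ∀ C ⊆ closedBall z₀ R, IsCompact C → IsPreconnected C →
    ∀ x ∈ G ∩ C, ∀ y ∈ G ∩ C, κ x ≠ κ y → ¬ JoinedIn (G ∪ C)ᶜ f b

/-- **Interface A** (continuum half to probability half). -/
def Gated (δ : ℝ) (p : ZMod n → ℤ × ℤ) (k : ℕ) (S : Finset (ℤ × ℤ)) (A : Finset (Sym2 (ℤ × ℤ)))
    (R η ε : ℝ) : Prop :=
  ∃ (z₀ : ℂ) (σ : ℝ) (t : ℕ) (κ : ℂ → ℤ),
    KapData (frontier (Om δ S)) (pl p k δ A) σ (pl p k δ A t) (bT p k δ) z₀ R κ ∧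
    σ < t ∧ t ≤ len p k A ∧ 2 * R ≤ dist z₀ (pl p k δ A t) ∧ 2 * R ≤ dist z₀ (bM p k δ) ∧
    (∀ x ∈ frontier (Om δ S) ∩ closedBall z₀ η, ∀ y ∈ frontier (Om δ S) ∩ closedBall z₀ η,
      κ x = κ y) ∧
    ∃ (v m : ℕ) (C : ℕ → Medial), (v : ℝ) + 1 ≤ σ ∧
      (∀ i ≤ m, dist z₀ ((δ : ℂ) * cpt (1 / 4) (C i)) ≤ ε) ∧
      (((GLe p k S A v m C ∨ GRi p k S A v m C) ∧
          κ ((δ : ℂ) * cpt (1 / 4) (C m)) ≠ κ ((δ : ℂ) * cpt (1 / 4) (C 0))) ∨
        ((GWi p k S A v m C ∨ GFr p k S A v m C) ∧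
          κ ((δ : ℂ) * cpt (3 / 8) (C m)) ≠ κ ((δ : ℂ) * cpt (1 / 4) (C 0))))

/-- **S_gate** (helper634): the fjord event implies a gate. -/
def S_gate : Prop :=
  ∀ (Φ : (ℝ × ℝ) ≃ₜ (ℝ × ℝ)) (δ : ℕ → ℝ) (N k : ℕ → ℕ)
    (p : ∀ n, ZMod (N n) → ℤ × ℤ) (S : ℕ → Finset (ℤ × ℤ)), Approx Φ δ N k p S →
    ∀ e > 0, ∀ r₁ > 0, ∀ R > 0, 16 * R ≤ e → 16 * R ≤ r₁ → ∃ η > 0, η ≤ R ∧
      ∀ ε > 0, ∃ ρ > 0, ∀ᶠ i in Filter.atTop, ∀ A ⊆ edges (S i),
        S6.FJR (Om (δ i) (S i)) (bM (p i) (k i) (δ i)) (Xc (p i) (k i) (δ i) A)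
          ((nu (p i) (k i) A - 1 / 2 : ℝ) / nu (p i) (k i) A) ρ e r₁ →
        Gated (δ i) (p i) (k i) (S i) A R η ε

/-- **S_left** (helper72, lattice half): behind a left gate the interface has no exterior face
on its right and crosses no closed edge already seen before `τ`. -/
def S_left : Prop :=
  ∀ {n : ℕ} {p : ZMod n → ℤ × ℤ} {S : Finset (ℤ × ℤ)} {k : ℕ} {A : Finset (Sym2 (ℤ × ℤ))}
    {δ : ℝ}, 0 < δ → IsPolygon p → Encloses p S → 0 < k → k + 1 < n → A ⊆ edges S →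
    ∀ (τ m w t : ℕ) (C : ℕ → Medial), τ < w → w ≤ t → t < len p k A →
    (∀ i ≤ m, ∀ j, w ≤ j → j ≤ t → C i ≠ run p k A j) →
    (GLe p k S A τ m C ∧ ¬ JoinedIn (Om δ S \ (pl p k δ A '' Icc 0 (τ + 1) ∪ Seg δ m C))
        ((δ : ℂ) * cpt (1 / 4) (run p k A t)) (bT p k δ) ∨
      GWi p k S A τ m C ∧ ¬ JoinedIn (Om δ S \ (pl p k δ A '' Icc 0 (τ + 1) ∪ Seg δ m C ∪
        Bit δ (C m))) ((δ : ℂ) * cpt (1 / 4) (run p k A t)) (bT p k δ)) →
    fc (run p k A w) ∈ S ∧ (ahead (run p k A w) ∉ wiredOpen p k A →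
      ∀ j < τ, ahead (run p k A j) ≠ ahead (run p k A w))

/-- **S_right** (helper72, lattice half): behind a right gate the interface follows no wired
edge and no open edge already seen before `τ`. -/
def S_right : Prop :=
  ∀ {n : ℕ} {p : ZMod n → ℤ × ℤ} {S : Finset (ℤ × ℤ)} {k : ℕ} {A : Finset (Sym2 (ℤ × ℤ))}
    {δ : ℝ}, 0 < δ → IsPolygon p → Encloses p S → 0 < k → k + 1 < n → A ⊆ edges S →
    ∀ (τ m w t : ℕ) (C : ℕ → Medial), τ < w → w ≤ t → t < len p k A →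
    (∀ i ≤ m, ∀ j, w ≤ j → j ≤ t → C i ≠ run p k A j) →
    (GRi p k S A τ m C ∧ ¬ JoinedIn (Om δ S \ (pl p k δ A '' Icc 0 (τ + 1) ∪ Seg δ m C))
        ((δ : ℂ) * cpt (1 / 4) (run p k A t)) (bT p k δ) ∨
      GFr p k S A τ m C ∧ ¬ JoinedIn (Om δ S \ (pl p k δ A '' Icc 0 (τ + 1) ∪ Seg δ m C ∪
        Bit δ (C m))) ((δ : ℂ) * cpt (1 / 4) (run p k A t)) (bT p k δ)) →
    ahead (run p k A w) ∈ wiredOpen p k A → ahead (run p k A w) ∉ Wd p k ∧
      ∀ j < τ, ahead (run p k A j) ≠ ahead (run p k A w)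

/-- The darts inside the closed wired/free boundary (`S_inside` of helper72): the exterior darts
of the wired arc are excluded. -/
def Inn (p : ZMod n → ℤ × ℤ) (k : ℕ) (S : Finset (ℤ × ℤ)) (c : Medial) : Prop :=
  c.1 ∈ verts S ∧ (fc c ∉ S → c = cs p ∨ c = ce p k ∨ ∃ i < k, c.1 = p (i : ℕ))

/-- **S_inn** (helper72 -> helper634, N-invariance): allowed steps do not leave `Inn`, except through
the entrance and the exit. -/
def S_inn : Prop :=
  ∀ {n : ℕ} {p : ZMod n → ℤ × ℤ} {S : Finset (ℤ × ℤ)} {k : ℕ}, IsPolygon p → Encloses p S →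
    0 < k → k < n → ∀ c c' : Medial, Inn p k S c → Ok p k S c c' → c ≠ cs p → c ≠ ce p k →
    c' ≠ cs p → c' ≠ ce p k → Inn p k S c'

end Vale.Agent.P167.Fjord
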