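import Mathlib

/-!
# P167, block FJORD: cutting a discrete path into pieces of small diameter
-/

namespace Vale.Agent.P167.Fjord

open Finset

/-- The anchor and the number of the current piece. -/
noncomputable def st (a : ℕ → ℂ) (r : ℝ) : ℕ → ℂ × ℕ
  | 0 => (a 0, 0)
  | i + 1 => if r ≤ dist (a (i + 1)) (st a r i).1 then (a (i + 1), (st a r i).2 + 1) else st a r i

/-- The number of the current piece. -/
noncomputable def pc (a : ℕ → ℂ) (r : ℝ) (i : ℕ) : ℕ := (st a r i).2

variable {a : ℕ → ℂ} {r : ℝ}

theorem st_succ (i : ℕ) : st a r (i + 1) =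
    if r ≤ dist (a (i + 1)) (st a r i).1 then (a (i + 1), (st a r i).2 + 1) else st a r i := rfl

theorem st_congr {b : ℕ → ℂ} {i : ℕ} (h : ∀ j ≤ i, a j = b j) : st a r i = st b r i := by
  induction i with
  | zero => simp only [st, h 0 le_rfl]
  | succ i ih => rw [st_succ, st_succ, ih fun j hj => h j (by omega), h (i + 1) le_rfl]

theorem pc_congr {b : ℕ → ℂ} {i : ℕ} (h : ∀ j ≤ i, a j = b j) : pc a r i = pc b r i := by
  unfold pc
  rw [st_congr h]

theorem pc_succ_le (i : ℕ) : pc a r (i + 1) = pc a r i ∨ pc a r (i + 1) = pc a r i + 1 := by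
  unfold pc
  rw [st_succ]
  split_ifs
  · exact Or.inr rfl
  · exact Or.inl rfl

theorem pc_mono : Monotone (pc a r) := by
  refine monotone_nat_of_le_succ fun i => ?_
  rcases pc_succ_le (a := a) (r := r) i with h | h <;> omega

theorem st_of_pc_eq {i j : ℕ} (hij : i ≤ j) (h : pc a r i = pc a r j) : st a r j = st a r i := by
  induction j, hij using Nat.le_induction with
  | base => rfl
  | succ j hj ih =>
    have h1 : pc a r i ≤ pc a r j := pc_mono hj
    have h2 : pc a r j ≤ pc a r (j + 1) := pc_mono (Nat.le_succ j)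
    have h3 : pc a r (j + 1) = pc a r j := by omega
    rw [st_succ]
    split_ifs with h4
    · exfalso
      unfold pc at h3
      rw [st_succ, if_pos h4] at h3
      simp only at h3
      omega
    · exact ih (by omega)

theorem dist_anchor (hr : 0 < r) (i : ℕ) : dist (a i) (st a r i).1 < r := by
  cases i with
  | zero => simpa [st] using hr
  | succ i =>
    rw [st_succ]
    split_ifs with h
    · simpa using hr
    · exact not_le.1 h

theorem dist_of_pc_eq (hr : 0 < r) {i j : ℕ} (h : pc a r i = pc a r j) :
    dist (a i) (a j) < 2 * r := by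
  have key : st a r i = st a r j := by
    rcases le_total i j with h1 | h1
    · exact (st_of_pc_eq h1 h).symm
    · exact st_of_pc_eq h1 h.symm
  have h1 := dist_anchor (a := a) hr i
  have h2 := dist_anchor (a := a) hr j
  rw [← key] at h2
  have h3 := dist_triangle_right (a i) (a j) (st a r i).1
  linarith

/-- The pieces are intervals. -/
theorem pc_between {i j l : ℕ} (hij : i ≤ j) (hjl : j ≤ l) (h : pc a r i = pc a r l) :
    pc a r j = pc a r i := by
  have h1 : pc a r i ≤ pc a r j := pc_mono hij
  have h2 : pc a r j ≤ pc a r l := pc_mono hjl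
  omega

/-! ### The number of pieces and the crossings -/

theorem exists_time (c : ℕ) {i : ℕ} (h : c ≤ pc a r i) : ∃ j ≤ i, pc a r j = c ∧
    (st a r j).1 = a j := by
  induction i with
  | zero =>
    refine ⟨0, le_rfl, ?_, rfl⟩
    have : pc a r 0 = 0 := rfl
    omega
  | succ i ih =>
    rcases le_or_gt c (pc a r i) with h1 | h1
    · obtain ⟨j, hj, h2⟩ := ih h1
      exact ⟨j, by omega, h2⟩
    · rcases pc_succ_le (a := a) (r := r) i with h2 | h2
      · omega
      · refine ⟨i + 1, le_rfl, by omega, ?_⟩
        rw [st_succ]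
        split_ifs with h3
        · rfl
        · exfalso
          unfold pc at h2
          rw [st_succ, if_neg h3] at h2
          omega

/-- The first time of the piece `c`. -/
theorem exists_times (L : ℕ) : ∃ T : ℕ → ℕ, (∀ c ≤ pc a r L, T c ≤ L ∧ pc a r (T c) = c ∧
    (st a r (T c)).1 = a (T c)) := by
  classical
  refine ⟨fun c => if h : c ≤ pc a r L then (exists_time (a := a) (r := r) c h).choose else 0, ?_⟩
  intro c hc
  simp only [dif_pos hc]
  exact (exists_time (a := a) (r := r) c hc).choose_spec

/-- Many pieces give many excursions around one of the points of a net. -/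
theorem excursions {L : ℕ} {Z : Finset ℂ} (hZ : ∀ i ≤ L, ∃ z ∈ Z, dist (a i) z ≤ r / 8)
    {m : ℕ} (hm : Z.card * m < pc a r L) : ∃ z ∈ Z, ∃ t : ℕ → ℕ, Monotone t ∧ ∀ j < m,
      dist (a (t (2 * j))) z ≤ r / 8 ∧ 7 * r / 8 ≤ dist (a (t (2 * j + 1))) z ∧
      t (2 * j + 1) ≤ L := by
  classical
  obtain ⟨T, hT⟩ := exists_times (a := a) (r := r) L
  have hlt : ∀ c c', c ≤ c' → c' ≤ pc a r L → T c ≤ T c' := by
    intro c c' h1 h2
    by_contra h3
    push Not at h3
    have h4 := pc_mono (a := a) (r := r) h3.le
    rw [(hT c' h2).2.1, (hT c (h1.trans h2)).2.1] at h4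
    have h5 : c = c' := by omega
    subst h5
    exact absurd h3 (lt_irrefl _)
  have hstep : ∀ c, c < pc a r L → r ≤ dist (a (T (c + 1))) (a (T c)) := by
    intro c hc
    obtain ⟨h1, h2, h3⟩ := hT c hc.le
    obtain ⟨h4, h5, h6⟩ := hT (c + 1) hc
    -- the time before
    have h7 : T (c + 1) ≠ 0 := by
      intro h0
      rw [h0] at h5
      have : pc a r 0 = 0 := rfl
      omega
    obtain ⟨u, hu⟩ := Nat.exists_eq_succ_of_ne_zero h7
    -- the first time at which the number is `c + 1`
    have h8 : T c ≤ T (c + 1) := hlt _ _ (Nat.le_succ c) hc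
    -- the position at the start of the piece
    have hex : ∃ j, pc a r j = c + 1 := ⟨_, h5⟩
    set f := Nat.find hex with hf
    have hf1 : pc a r f = c + 1 := Nat.find_spec hex
    have hf2 : f ≤ T (c + 1) := Nat.find_min' hex h5
    have hf3 : f ≠ 0 := by
      intro h0
      rw [h0] at hf1
      have : pc a r 0 = 0 := rfl
      omega
    obtain ⟨g, hg⟩ := Nat.exists_eq_succ_of_ne_zero hf3
    have hg1 : pc a r g ≠ c + 1 := Nat.find_min hex (by omega)
    have hg2 : pc a r g = c := by
      have := pc_succ_le (a := a) (r := r) g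
      rw [← Nat.succ_eq_add_one, ← hg, hf1] at this
      omega
    have h9 : st a r (T (c + 1)) = st a r f := st_of_pc_eq hf2 (by rw [hf1, h5])
    have h10 : st a r f = if r ≤ dist (a f) (st a r g).1 then (a f, (st a r g).2 + 1)
        else st a r g := by
      rw [hg]
      exact st_succ g
    have h11 : r ≤ dist (a f) (st a r g).1 := by
      by_contra hc'
      rw [if_neg hc'] at h10
      have : pc a r f = pc a r g := by unfold pc; rw [h10]
      omega
    rw [if_pos h11] at h10
    have h12 : st a r (T c) = st a r g := by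
      have h13 : T c ≤ g ∨ g ≤ T c := le_total _ _
      rcases h13 with h13 | h13
      · exact (st_of_pc_eq h13 (by rw [hg2, h2])).symm
      · exact st_of_pc_eq h13 (by rw [hg2, h2])
    have h14 : a (T (c + 1)) = a f := by rw [← h6, h9, h10]
    rw [h14, ← h3, h12]
    exact h11
  -- pigeonhole
  have hz : ∀ c : ℕ, ∃ z, c < pc a r L → z ∈ Z ∧ dist (a (T c)) z ≤ r / 8 := by
    intro c
    by_cases hc : c < pc a r L
    · obtain ⟨z, h1, h2⟩ := hZ (T c) (hT c hc.le).1
      exact ⟨z, fun _ => ⟨h1, h2⟩⟩
    · exact ⟨0, fun h => absurd h hc⟩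
  choose z hz using hz
  obtain ⟨y, hy, hcard⟩ := exists_lt_card_fiber_of_mul_lt_card_of_maps_to
    (s := range (pc a r L)) (t := Z) (f := z) (n := m)
    (fun c hc => (hz c (mem_range.1 hc)).1) (by simpa using hm)
  set F := (range (pc a r L)).filter fun c => z c = y with hF
  -- the elements of the fibre in increasing order
  have hord : ∃ g : ℕ → ℕ, (∀ i < F.card, g i ∈ F) ∧ (∀ i j, i < j → j < F.card → g i < g j) := by
    refine ⟨fun i => if h : i < F.card then F.orderEmbOfFin rfl ⟨i, h⟩ else 0, ?_, ?_⟩
    · intro i hi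
      simp only [dif_pos hi]
      exact F.orderEmbOfFin_mem rfl _
    · intro i j hij hj
      simp only [dif_pos hj, dif_pos (hij.trans hj)]
      exact (F.orderEmbOfFin rfl).strictMono (by exact hij)
  obtain ⟨g, hg1, hg2⟩ := hord
  have hF1 : ∀ i < F.card, g i < pc a r L ∧ z (g i) = y := by
    intro i hi
    have := hg1 i hi
    rw [hF, mem_filter, mem_range] at this
    exact this
  -- the times, constant after the last one
  refine ⟨y, hy, fun n => if n < 2 * m then T (g (n / 2) + n % 2) else L, ?_, ?_⟩
  · refine monotone_nat_of_le_succ fun n => ?_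
    by_cases h1 : n + 1 < 2 * m
    · simp only [if_pos h1, if_pos (show n < 2 * m by omega)]
      rcases Nat.even_or_odd' n with ⟨i, hi | hi⟩
      · have e1 : n / 2 = i := by omega
        have e2 : n % 2 = 0 := by omega
        have e3 : (n + 1) / 2 = i := by omega
        have e4 : (n + 1) % 2 = 1 := by omega
        rw [e1, e2, e3, e4]
        have := (hF1 i (by omega)).1
        exact hlt _ _ (by omega) (by omega)
      · have e1 : n / 2 = i := by omega
        have e2 : n % 2 = 1 := by omega
        have e3 : (n + 1) / 2 = i + 1 := by omega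
        have e4 : (n + 1) % 2 = 0 := by omega
        rw [e1, e2, e3, e4]
        have h2 := hg2 i (i + 1) (by omega) (by omega)
        have := (hF1 (i + 1) (by omega)).1
        exact hlt _ _ (by omega) (by omega)
    · simp only [if_neg h1]
      split_ifs with h2
      · have := (hF1 (n / 2) (by omega)).1
        exact (hT _ (by have := Nat.mod_lt n (show 0 < 2 by norm_num); omega)).1
      · exact le_rfl
  · intro j hj
    have h1 := hF1 j (by omega)
    have e1 : 2 * j / 2 = j := by omega
    have e2 : 2 * j % 2 = 0 := by omega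
    have e3 : (2 * j + 1) / 2 = j := by omega
    have e4 : (2 * j + 1) % 2 = 1 := by omega
    simp only [if_pos (show 2 * j < 2 * m by omega), if_pos (show 2 * j + 1 < 2 * m by omega)]
    rw [e1, e2, e3, e4, add_zero]
    have h2 := (hz (g j) h1.1).2
    rw [h1.2] at h2
    refine ⟨h2, ?_, (hT _ (by omega)).1⟩
    have h3 := hstep (g j) h1.1
    have h4 := dist_triangle_right (a (T (g j + 1))) (a (T (g j))) y
    linarith

end Vale.Agent.P167.Fjord
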