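import Vale.Agent.P167.Fjord.Defs
import Vale.Agent.P167.Fjord.Pieces
import Vale.Agent.P167.H192.Dict2

/-!
# P167, block FJORD (NF): interfaces of the probability half
-/

open Filter Topology

namespace Vale.Agent.P167.Fjord

open Vale.Agent.P167.E6 Vale.Agent.P167.E2

variable {n : ℕ}

/-- **A fresh arm behind the time `τ`**: between the times `w₀` and `t` the interface goes from
distance `r` to distance `R` of its position at time `τ` (in the lattice of the squares), and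
either all faces on its right are in the domain and all closed edges were not seen before `τ`, or
all open edges are not wired and were not seen before `τ`. -/
def FArm (p : ZMod n → ℤ × ℤ) (k : ℕ) (S : Finset (ℤ × ℤ)) (A : Finset (Sym2 (ℤ × ℤ))) (τ : ℕ)
    (r R : ℤ) : Prop :=
  ∃ w₀ t : ℕ, τ < w₀ ∧ w₀ ≤ t ∧ t < len p k A ∧
    nm (H192.sq (ahead (run p k A w₀)) - H192.sq (ahead (run p k A τ))) ≤ r ∧
    R ≤ nm (H192.sq (ahead (run p k A t)) - H192.sq (ahead (run p k A τ))) ∧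
    ((∀ w, w₀ ≤ w → w ≤ t → fc (run p k A w) ∈ S ∧ (ahead (run p k A w) ∉ wiredOpen p k A →
        ∀ j < τ, ahead (run p k A j) ≠ ahead (run p k A w))) ∨
      (∀ w, w₀ ≤ w → w ≤ t → ahead (run p k A w) ∈ wiredOpen p k A →
        ahead (run p k A w) ∉ Wd p k ∧ ∀ j < τ, ahead (run p k A j) ≠ ahead (run p k A w)))

open Classical in
/-- **S_farm** (helper161): fresh arms behind the first time at which an adapted property holds
have a small probability. -/
def S_farm : Prop :=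
  ∃ C α : ℝ, 0 < C ∧ 0 < α ∧ ∀ (n : ℕ) (p : ZMod n → ℤ × ℤ) (S : Finset (ℤ × ℤ)) (k : ℕ),
    IsPolygon p → Encloses p S → 0 < k → k < n →
    ∀ Q : Finset (Sym2 (ℤ × ℤ)) → ℕ → Prop,
    (∀ A ⊆ edges S, ∀ A' ⊆ edges S, ∀ i, (∀ j ≤ i, run p k A j = run p k A' j) →
      Q A i → Q A' i) →
    ∀ r R : ℤ, 1 ≤ r → r ≤ R →
      mean S (fun A => if ∃ τ, Q A τ ∧ (∀ i < τ, ¬ Q A i) ∧ FArm p k S A τ r R then 1 else 0) ≤
        C * ((r : ℝ) / R) ^ α

open Classical in
/-- **S_pieces** (helper161): the number of the pieces of the interface is tight. -/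
def S_pieces : Prop :=
  ∀ (Φ : (ℝ × ℝ) ≃ₜ (ℝ × ℝ)) (δ : ℕ → ℝ) (N k : ℕ → ℕ)
    (p : ∀ n, ZMod (N n) → ℤ × ℤ) (S : ℕ → Finset (ℤ × ℤ)), Approx Φ δ N k p S →
    ∀ r > 0, ∀ q > 0, ∃ K : ℕ, ∀ᶠ i in atTop,
      mean (S i) (fun A => if K < pc (fun j => mid (δ i) (run (p i) (k i) A j)) r
        (len (p i) (k i) A - 1) then 1 else 0) ≤ q

end Vale.Agent.P167.Fjord
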