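import Vale.Agent.P167.Fjord.Defs2
import Vale.Agent.P167.H161.Lat
import Vale.Agent.P167.H161.ArmP

/-!
# P167, block FJORD (NF): fresh arms behind an adapted time are unlikely
-/

namespace Vale.Agent.P167.Fjord

open Set Filter Topology MeasureTheory
open Vale.Agent.P145.FB (PStep)
open Vale.Agent.P167.E6 Vale.Agent.P167.E2 Vale.Agent.P167.H161 Vale.Agent.P167.H558

variable {n : ℕ} {p : ZMod n → ℤ × ℤ} {S : Finset (ℤ × ℤ)} {k : ℕ}

/-- The path of the squares model. -/
noncomputable abbrev pth (p : ZMod n → ℤ × ℤ) (k : ℕ) (S : Finset (ℤ × ℤ)) (w : Cfg) (j : ℕ) : Ed :=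
  H192.path (H192.dq p k S) (H192.bq p k) (H192.me (cs p)) w j

theorem pth_eq (w : Cfg) (j : ℕ) : pth p k S w j = H192.me (run p k (H192.As S w) j) := by
  unfold pth
  rw [← H192.E6path]
  rfl

theorem hdv_pth (w : Cfg) (j : ℕ) :
    hdv (pth p k S w j) = H192.sq (ahead (run p k (H192.As S w) j)) := by
  rw [pth_eq, H192.hdv_me]

/-- The squares which were read. -/
noncomputable abbrev rd (p : ZMod n → ℤ × ℤ) (k : ℕ) (S : Finset (ℤ × ℤ)) :
    ℕ → Cfg → Finset (ℤ × ℤ) := H192.rev (H192.dq p k S) (H192.bq p k) (H192.me (cs p))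

theorem near_le {q x s : ℤ × ℤ} {r : ℤ} (h : nm (q - x) ≤ r) (h1 : s.1 = q.1 ∨ s.1 = q.1 + 1)
    (h2 : s.2 = q.2 ∨ s.2 = q.2 + 1) : nm (s - x) ≤ r + 1 := by
  simp only [nm, Prod.fst_sub, Prod.snd_sub, max_le_iff, abs_le] at h ⊢
  omega

theorem near_ge {q x s : ℤ × ℤ} {R : ℤ} (h : R ≤ nm (q - x)) (h1 : s.1 = q.1 ∨ s.1 = q.1 + 1)
    (h2 : s.2 = q.2 ∨ s.2 = q.2 + 1) : R - 1 ≤ nm (s - x) := by
  simp only [nm, Prod.fst_sub, Prod.snd_sub, le_max_iff, le_abs] at h ⊢
  omega

/-- From a fresh arm of the interface to an arm along squares which were not read. -/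
theorem arm_of_farm {w : Cfg} {τ : ℕ} {r R : ℤ}
    (h : FArm p k S (H192.As S w) τ r R) :
    Arm2 (hdv (pth p k S w τ)) r R (↑(H192.dq p k S) \ ↑(rd p k S τ w)) w := by
  set A := H192.As S w with hA
  obtain ⟨w₀, t, h1, h2, h3, h4, h5, h6⟩ := h
  -- unread squares
  have hun : ∀ v, (∀ j < τ, ahead (run p k A j) ≠ ahead (run p k A v)) →
      hdv (pth p k S w v) ∉ rd p k S τ w := by
    intro v hv hm
    rw [H192.mem_rev] at hm
    obtain ⟨-, j, hj, hj'⟩ := hm
    have h7 : hdv (pth p k S w j) = hdv (pth p k S w v) := hj'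
    rw [hdv_pth, hdv_pth] at h7
    exact hv j hj (H192.sq_inj (H192.isEdge_ahead _) (H192.isEdge_ahead _) h7)
  have hst := H166.corner (pth p k S w w₀)
  have hen := H166.corner (pth p k S w t)
  rw [← hdv_pth, ← hdv_pth (p := p) (k := k) (S := S) w τ] at h4 h5
  rcases h6 with h6 | h6
  · -- dual arm
    right
    refine ⟨rs (pth p k S w w₀), rs (pth p k S w t), hst.2.2.2.2.2, ?_, ?_, ?_⟩
    · exact near_le h4 hst.2.2.1 hst.2.2.2.1
    · exact near_ge h5 hen.2.2.1 hen.2.2.2.1
    · have key : ∀ m, w₀ ≤ m → m ≤ t → Relation.ReflTransGen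
          (PStep ((op w)ᶜ ∩ (↑(H192.dq p k S) \ ↑(rd p k S τ w))))
          (rs (pth p k S w w₀)) (rs (pth p k S w m)) := by
        intro m hm
        induction m, hm using Nat.le_induction with
        | base => intro _; exact Relation.ReflTransGen.refl
        | succ m hm ih =>
          intro hmt
          have ih' := ih (by omega)
          obtain ⟨g1, g2⟩ := h6 m hm (by omega)
          have hs : pth p k S w (m + 1) =
              nx (H192.ov (H192.dq p k S) (H192.bq p k) w) (pth p k S w m) := H192.path_succ w m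
          rw [hs]
          rcases H192.ls_nx (H192.ov (H192.dq p k S) (H192.bq p k) w) (pth p k S w m) with
            ⟨_, _, e3, _⟩ | ⟨e1, e2, _, e4⟩
          · rw [e3]
            exact ih'
          · refine ih'.tail ⟨e2.1, e2.2.1, ?_⟩
            rw [e4]
            -- the square is in the domain
            have hcl : ahead (run p k A m) ∉ wiredOpen p k A := by
              intro ho
              rw [← H192.cfg_wiredOpen, hdv_pth] at e1
              have : H192.cfg (wiredOpen p k A) (H192.sq (ahead (run p k A m))) = true := by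
                rw [H192.cfg_true, H192.ed_sq (H192.isEdge_ahead _)]
                exact ho
              rw [this] at e1
              exact Bool.noConfusion e1
            have hE : ahead (run p k A m) ∈ edges S := by
              rw [show ahead (run p k A m) = s((run p k A m).1,
                (run p k A m).1 + dir ((run p k A m).2 + 1)) from rfl, mem_edges, fin4_2]
              exact Or.inr g1
            have hD : hdv (pth p k S w m) ∈ H192.dq p k S := by
              rw [H192.mem_dq, hdv_pth, H192.ed_sq (H192.isEdge_ahead _)]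
              exact ⟨hE, fun hw => hcl (Or.inr hw)⟩
            refine ⟨?_, Finset.mem_coe.2 hD, fun hm' => hun m (g2 hcl) (Finset.mem_coe.1 hm')⟩
            rw [H192.ov_mem hD] at e1
            show ¬ (w (hdv (pth p k S w m)) = true)
            rw [e1]
            simp
      exact key t h2 le_rfl
  · -- primal arm
    left
    refine ⟨ls (pth p k S w w₀), ls (pth p k S w t), hst.2.2.2.2.1, ?_, ?_, ?_⟩
    · exact near_le h4 hst.1 hst.2.1
    · exact near_ge h5 hen.1 hen.2.1
    · have key : ∀ m, w₀ ≤ m → m ≤ t → Relation.ReflTransGen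
          (PStep (op w ∩ (↑(H192.dq p k S) \ ↑(rd p k S τ w))))
          (ls (pth p k S w w₀)) (ls (pth p k S w m)) := by
        intro m hm
        induction m, hm using Nat.le_induction with
        | base => intro _; exact Relation.ReflTransGen.refl
        | succ m hm ih =>
          intro hmt
          have ih' := ih (by omega)
          have hs : pth p k S w (m + 1) =
              nx (H192.ov (H192.dq p k S) (H192.bq p k) w) (pth p k S w m) := H192.path_succ w m
          rw [hs]
          rcases H192.ls_nx (H192.ov (H192.dq p k S) (H192.bq p k) w) (pth p k S w m) with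
            ⟨e1, e2, _, e4⟩ | ⟨_, _, e3, _⟩
          · refine ih'.tail ⟨e2.1, e2.2.1, ?_⟩
            rw [e4]
            have hop : ahead (run p k A m) ∈ wiredOpen p k A := by
              rw [← H192.cfg_wiredOpen, hdv_pth, H192.cfg_true,
                H192.ed_sq (H192.isEdge_ahead _)] at e1
              exact e1
            obtain ⟨g1, g2⟩ := h6 m hm (by omega) hop
            have hAm : ahead (run p k A m) ∈ A := hop.resolve_right g1
            have hD : hdv (pth p k S w m) ∈ H192.dq p k S := by
              rw [H192.mem_dq, hdv_pth, H192.ed_sq (H192.isEdge_ahead _)]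
              exact ⟨H192.As_subset S w hAm, g1⟩
            refine ⟨?_, Finset.mem_coe.2 hD, fun hm' => hun m g2 (Finset.mem_coe.1 hm')⟩
            rw [H192.ov_mem hD] at e1
            exact e1
          · rw [e3]
            exact ih'
      exact key t h2 le_rfl

theorem run_of_pth {w w' : Cfg} {j : ℕ} (h : pth p k S w' j = pth p k S w j) :
    run p k (H192.As S w') j = run p k (H192.As S w) j := by
  rw [pth_eq, pth_eq] at h
  exact H192.me_inj h

open Classical in
/-- **S_farm**. -/
theorem s_farm : S_farm := by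
  obtain ⟨C, α, hC, hα, hmain⟩ := fresh_arm2
  refine ⟨C, α, hC, hα, fun n p S k _ _ _ _ Q hQ r R hr hR => ?_⟩
  set N : ℕ := (edges S).powerset.sup (len p k) with hN
  have hlen : ∀ A ⊆ edges S, len p k A ≤ N := fun A hA =>
    Finset.le_sup (f := len p k) (Finset.mem_powerset.2 hA)
  -- the adapted property
  have hP : ∀ i, Past (rd p k S i) (fun w : Cfg => Q (H192.As S w) i) := by
    intro i w w' h
    have h1 : ∀ j ≤ i, run p k (H192.As S w') j = run p k (H192.As S w) j := fun j hj =>
      run_of_pth (H192.path_eq_of_rev h j hj)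
    exact propext ⟨hQ _ (H192.As_subset S w') _ (H192.As_subset S w) i h1,
      hQ _ (H192.As_subset S w) _ (H192.As_subset S w') i fun j hj => (h1 j hj).symm⟩
  have hex : ∀ w : Cfg, ∃ i, Q (H192.As S w) i ∨ N ≤ i := fun w => ⟨N, Or.inr le_rfl⟩
  set κ : Cfg → ℕ := fun w => Nat.find (hex w) with hκ
  have hst : StopTime (rd p k S) κ := by
    refine H192.expl_rev.first (Q := fun i w => Q (H192.As S w) i ∨ N ≤ i) (fun i => ?_)
      (fun w => Nat.find_spec (hex w)) (fun w i hi => Nat.find_min (hex w) hi)
    exact (hP i).comp (fun q => q ∨ N ≤ i)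
  have hK : StopSet (at' (rd p k S) κ) := H192.expl_rev.at_stop hst
  have hx : Past (at' (rd p k S) κ) (fun w : Cfg => hdv (pth p k S w (κ w))) := by
    intro w w' h
    have h1 : κ w' = κ w := hst w w' h
    show hdv (pth p k S w' (κ w')) = hdv (pth p k S w (κ w))
    rw [h1]
    exact congrArg hdv (H192.path_eq_of_rev h (κ w) le_rfl)
  rw [mean_ind]
  refine (measureReal_mono ?_).trans (hmain r R hr hR (H192.dq p k S) _ hK _ hx fun w w' h => ?_)
  · rintro w ⟨τ, h1, h2, h3⟩
    have h4 : κ w = τ := by
      rw [hκ]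
      refine (Nat.find_eq_iff (hex w)).2 ⟨Or.inl h1, fun i hi h => ?_⟩
      rcases h with h | h
      · exact h2 i hi h
      · obtain ⟨w₀, t, g1, g2, g3, -⟩ := h3
        have := hlen _ (H192.As_subset S w)
        omega
    show Arm2 (hdv (pth p k S w (κ w))) r R (↑(H192.dq p k S) \ ↑(rd p k S (κ w) w)) w
    rw [h4]
    exact arm_of_farm h3
  · have h5 : ∀ q ∈ at' (rd p k S) κ w, w' q = w q := fun q hq =>
      h q (H192.rev_subset _ _ hq)
    exact ⟨hK w w' h5, hx w w' h5⟩

end Vale.Agent.P167.Fjord
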