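import Vale.Agent.P167.Fjord.Gate2

/-!
# P167, block FJORD: `S_gate`, the fjord event implies a gate
-/

open Set Metric Filter Topology

namespace Vale.Agent.P167.Fjord

open Vale.Agent.P167.E6 Vale.Agent.P167.E2 Vale.Agent.P167.H327
open Vale.Agent.P153.R2.R1 (Ctrl)
open Vale.Agent.P167.S6 (FJR fj_lat kappa ctrl_Om)

variable {n : ℕ} {p : ZMod n → ℤ × ℤ} {S : Finset (ℤ × ℤ)} {k : ℕ} {A : Finset (Sym2 (ℤ × ℤ))}
  {δ : ℝ}

theorem cpt_frontierG (hδ : 0 < δ) {c : Medial} (h1 : c.1 ∈ verts S) (h2 : fc c ∉ S) :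
    (δ : ℂ) * cpt (3 / 8) c ∈ frontier (Om δ S) := by
  obtain ⟨r, hr⟩ := mem_verts.1 h1
  have := image_frontier_Om hδ (quad_frontier (S := S) (v := c.1) (c := c.2) (r := r) h2 hr)
  unfold cpt
  push_cast at this ⊢
  exact this

theorem dist_pos_cpt (hδ : 0 ≤ δ) (c : Medial) :
    dist (pos δ c) ((δ : ℂ) * cpt (3 / 8) c) ≤ δ / 2 := by
  unfold pos
  rw [dist_eq_norm, ← mul_sub, norm_mul, Complex.norm_real, Real.norm_of_nonneg hδ]
  nlinarith [cpt_end c]

theorem pl_pos (δ : ℝ) {a : ℕ} (ha : a ≤ len p k A) :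
    pl p k δ A ((a : ℝ) + 1) = pos δ (run p k A a) := by
  unfold pl pos
  have h := lin_nat (xv p k A) (a + 1)
  push_cast at h
  rw [h, xv_mid ha]

section

variable (hp : IsPolygon p) (hS : Encloses p S) (hk : k + 1 < n) (hA : A ⊆ edges S) (hδ : 0 < δ)
include hp hS hk hA hδ

theorem speed {x y : ℝ} (hx : 0 ≤ x) (hxy : x ≤ y) (hy : y ≤ nu p k A) :
    dist (pl p k δ A x) (pl p k δ A y) ≤ δ / 2 * (y - x) := by
  have h1 := @lin_lip (xv p k A) (nu p k A) (1 / 2) (xv_step hp hS (by omega) hA) x y hx hxy hy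
  unfold pl
  rw [dist_eq_norm, ← mul_sub, norm_mul, Complex.norm_real, Real.norm_of_nonneg hδ.le,
    norm_sub_rev]
  nlinarith

omit hk hA in
/-- Exterior darts near the frontier. -/
theorem exists_ext {x : ℂ} (hx : x ∈ frontier (Om δ S)) :
    ∃ c : Medial, c.1 ∈ verts S ∧ fc c ∉ S ∧ dist x (pos δ c) ≤ 3 * δ := by
  rw [frontier_Om hδ hp hS] at hx
  obtain ⟨s, rfl⟩ := hx
  refine ⟨(p ⌊s⌋, ro p ⌊s⌋ - 1), p_mem_verts hp hS _, (enc_out hp hS).2, ?_⟩
  have h1 := dist_QF hδ hp hS s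
  have h2 : dist ((δ : ℂ) * pt (p ⌊s⌋)) (pos δ ((p ⌊s⌋, ro p ⌊s⌋ - 1) : Medial)) ≤ δ / 2 := by
    unfold pos
    rw [dist_eq_norm, ← mul_sub, norm_mul, Complex.norm_real, Real.norm_of_nonneg hδ.le]
    have h3 : ‖pt (p ⌊s⌋) - cpt (1 / 4) ((p ⌊s⌋, ro p ⌊s⌋ - 1) : Medial)‖ ≤ 1 / 2 := by
      have e : pt (p ⌊s⌋) - cpt (1 / 4) ((p ⌊s⌋, ro p ⌊s⌋ - 1) : Medial) =
          ((-1 / 4 : ℝ) : ℂ) * E2.sq (ro p ⌊s⌋ - 1) := by
        simp only [cpt]
        push_cast
        ring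
      rw [e]
      refine (norm_le_of_coord (a := 1 / 4) (b := 1 / 4) ?_ ?_).trans (by norm_num)
      · rw [Complex.re_ofReal_mul, abs_mul, abs_sq_re]
        norm_num [abs_of_pos]
      · rw [Complex.im_ofReal_mul, abs_mul, abs_sq_im]
        norm_num [abs_of_pos]
    nlinarith
  have := dist_triangle (QF p δ s) ((δ : ℂ) * pt (p ⌊s⌋))
    (pos δ ((p ⌊s⌋, ro p ⌊s⌋ - 1) : Medial))
  linarith

theorem bT_eq : bT p k δ = pl p k δ A (len p k A + 3 / 2) := by
  unfold bT pl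
  rw [lin_last hp hS (by omega) hA (by linarith) (by linarith)]
  congr 2
  norm_num

/-- **From the fjord event to a gate**, in a fixed domain. -/
theorem gated_of_fjr {e r₁ R η ε ρ : ℝ} (hR : 0 < R) (he : 16 * R ≤ e) (hr : 16 * R ≤ r₁)
    (hη : 0 < η) (hηR : 2 * η ≤ R) (hρ : 0 < ρ) (hρε : 16 * ρ ≤ ε) (hρη : 16 * ρ ≤ η)
    (hδρ : 16 * δ ≤ ρ) (hctrl : Ctrl (Om δ S) (2 * η) (R / 2))
    (h : FJR (Om δ S) (bM p k δ) (Xc p k δ A) 1 ρ e r₁) : Gated δ p k S A R η ε := by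
  obtain ⟨i, t, τ, z₀, hit, htτ, hτν, hz₀, hz₀b, hft, hsep⟩ :=
    fj_lat hp hS hk hA hδ (by linarith) h
  have hnu : (nu p k A : ℝ) = len p k A + 2 := by unfold nu; push_cast; ring
  have htl : t ≤ len p k A := by
    have : (t : ℝ) + 1 < len p k A + 2 := by linarith
    have h2 : t + 1 < len p k A + 2 := by exact_mod_cast this
    omega
  have hit' : (i : ℝ) < t := by exact_mod_cast hit
  have htl' : (t : ℝ) ≤ len p k A := by exact_mod_cast htl
  -- the target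
  have hbT := bT_eq (δ := δ) hp hS hk hA hδ
  have hinj := pl_injOn hp hS hk hA hδ
  have hbOm : bT p k δ ∈ Om δ S := by
    rw [hbT]
    exact pl_mem_Om hp hS (by omega) hA hδ (by positivity) (by linarith)
  have hbb : dist (bT p k δ) (bM p k δ) ≤ δ := by
    rw [hbT, ← pl_nu (A := A) δ]
    have := speed hp hS hk hA hδ (x := len p k A + 3 / 2) (y := nu p k A) (by positivity)
      (by linarith) le_rfl
    rw [hnu] at this ⊢
    nlinarith
  have hbn : bT p k δ ∉ pl p k δ A '' Icc 0 (i : ℝ) := by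
    rintro ⟨v, hv, hve⟩
    rw [hbT] at hve
    have := hinj ⟨hv.1, by linarith [hv.2]⟩ ⟨by positivity, by linarith⟩ hve
    linarith [hv.2]
  obtain ⟨hj, hs⟩ := hsep t ⟨hit', by linarith⟩ (bT p k δ) hbOm (by linarith) hbn
  set F : Set ℂ := frontier (Om δ S) with hF
  set P : Set ℂ := pl p k δ A '' Icc 0 (i : ℝ) with hP
  have hPc : IsCompact P := isCompact_Icc.image_of_continuousOn (continuous_pl δ).continuousOn
  have hFc : IsCompact F := Vale.Agent.P167.S6.isCompact_frontier_Om hδ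
  have hρR : ρ ≤ R := by linarith
  obtain ⟨κ, hκ1, hκ2, x, hx, y, hy, hxy⟩ := kappa (hFc.union hPc) (isCompact_closedBall z₀ ρ)
    (closedBall_subset_closedBall hρR)
    (P153.TOP.hasLogOn_of_convex (convex_closedBall z₀ R)) (f := pl p k δ A t)
    (b := bT p k δ) (by
      rw [mem_closedBall]
      linarith) (by
      rw [mem_closedBall]
      have := dist_triangle_left z₀ (bM p k δ) (bT p k δ)
      linarith) hj hs
  -- the phase is constant on the frontier near `z₀`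
  have hκF : ∀ x ∈ F ∩ closedBall z₀ η, ∀ y ∈ F ∩ closedBall z₀ η, κ x = κ y := by
    rintro x ⟨hx, hx'⟩ y ⟨hy, hy'⟩
    rw [mem_closedBall] at hx' hy'
    obtain ⟨J, -, hJc, hJF, hJ1, hJ2⟩ := hctrl x hx
    have hxJ : x ∈ J := hJ1 ⟨hx, mem_closedBall_self (by linarith)⟩
    have hyJ : y ∈ J := hJ1 ⟨hy, by
      rw [mem_closedBall]
      have := dist_triangle_right y x z₀
      linarith⟩
    refine hκ1 J (fun z hz => ⟨Or.inl (hJF hz), ?_⟩) hJc x hxJ y hyJ
    have h1 := hJ2 hz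
    rw [mem_closedBall] at h1 ⊢
    have := dist_triangle z x z₀
    linarith
  have hseg : ∀ s s' : ℝ, 0 ≤ s → s ≤ s' → s' ≤ i → s' ≤ s + 1 →
      dist (pl p k δ A s) z₀ ≤ R - δ → κ (pl p k δ A s) = κ (pl p k δ A s') := by
    intro s s' h0 h1 h2 h3 h4
    refine hκ1 (pl p k δ A '' Icc s s') ?_
      (isPreconnected_Icc.image _ (continuous_pl δ).continuousOn) _
      ⟨s, ⟨le_rfl, h1⟩, rfl⟩ _ ⟨s', ⟨h1, le_rfl⟩, rfl⟩
    rintro _ ⟨u, hu, rfl⟩
    refine ⟨Or.inr ⟨u, ⟨h0.trans hu.1, hu.2.trans h2⟩, rfl⟩, ?_⟩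
    rw [mem_closedBall]
    have h5 := speed hp hS hk hA hδ (x := s) (y := u) h0 hu.1 (by linarith [hu.2])
    have h6 := dist_triangle_left (pl p k δ A u) z₀ (pl p k δ A s)
    nlinarith [hu.2]
  -- a visited dart near a point of the curve
  have hdart : ∀ x ∈ closedBall z₀ ρ, x ∉ F → x ∈ P → ∃ a, a + 1 ≤ i ∧
      dist z₀ (pos δ (run p k A a)) ≤ ρ + δ ∧ κ (pos δ (run p k A a)) = κ x := by
    rintro _ hx hxF ⟨s, hs, rfl⟩
    rw [mem_closedBall] at hx
    have hs0 : 0 < s := by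
      rcases hs.1.eq_or_lt with h | h
      · exfalso
        apply hxF
        rw [← h, pl_zero]
        exact aM_mem hδ hp hS
      · exact h
    have hi1 : 1 ≤ i := by
      have : (0 : ℝ) < i := hs0.trans_le hs.2
      have : 0 < i := by exact_mod_cast this
      omega
    have hi1' : (1 : ℝ) ≤ i := by exact_mod_cast hi1
    rcases lt_or_ge s 1 with h1 | h1
    · refine ⟨0, by omega, ?_, ?_⟩
      · rw [← pl_pos δ (Nat.zero_le _)]
        have h5 := speed hp hS hk hA hδ (x := s) (y := 1) hs.1 h1.le (by linarith)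
        have h6 := dist_triangle_left z₀ (pl p k δ A 1) (pl p k δ A s)
        rw [Nat.cast_zero, zero_add]
        nlinarith
      · rw [← pl_pos δ (Nat.zero_le _), Nat.cast_zero, zero_add]
        exact (hseg s 1 hs.1 h1.le hi1' (by linarith) (by linarith)).symm
    · have h2 := Nat.floor_le hs.1
      have h3 := Nat.lt_floor_add_one s
      have h4 : 1 ≤ ⌊s⌋₊ := by rwa [Nat.one_le_floor_iff]
      obtain ⟨a, ha⟩ : ∃ a, ⌊s⌋₊ = a + 1 := ⟨⌊s⌋₊ - 1, by omega⟩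
      have h5 : a + 1 ≤ i := by
        rw [← ha]
        have : (⌊s⌋₊ : ℝ) ≤ i := h2.trans hs.2
        exact_mod_cast this
      rw [ha] at h2 h3
      push_cast at h2 h3
      have h6 := speed hp hS hk hA hδ (x := (a : ℝ) + 1) (y := s) (by positivity) h2
        (by linarith [hs.2])
      have hal : a ≤ len p k A := by omega
      have h7 := dist_triangle (pl p k δ A ((a : ℝ) + 1)) (pl p k δ A s) z₀
      have h8 : dist (pl p k δ A ((a : ℝ) + 1)) z₀ ≤ ρ + δ := by nlinarith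
      refine ⟨a, h5, ?_, ?_⟩
      · rw [← pl_pos δ hal, dist_comm]
        exact h8
      · rw [← pl_pos δ hal]
        exact hseg _ s (by positivity) h2 hs.2 (by linarith) (by linarith)
  -- the exit is far
  have hce : ∀ c : Medial, dist z₀ (pos δ c) ≤ R → c ≠ ce p k := by
    rintro c hc rfl
    have h1 := dist_pos_cpt hδ.le (ce p k)
    have h2 : bM p k δ = (δ : ℂ) * cpt (3 / 8) (ce p k) := bM_eq p k δ
    rw [← h2] at h1
    have := dist_triangle z₀ (pos δ (ce p k)) (bM p k δ)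
    linarith
  -- the combinatorial gate
  have hgate : ∃ (K : ℤ) (N : ℕ) (d : ℕ → Medial), (∀ l < N, Nb (d l) (d (l + 1))) ∧
      (∀ l ≤ N, dist z₀ (pos δ (d l)) ≤ 10 * ρ) ∧
      (∃ a, a + 1 ≤ i ∧ d 0 = run p k A a) ∧ κ (pos δ (d 0)) ≠ K ∧
      (∀ l ≤ N, (d l).1 ∈ verts S → fc (d l) ∉ S → κ ((δ : ℂ) * cpt (3 / 8) (d l)) = K) ∧
      ((fc (d N) ∉ S ∧ (d N).1 ∈ verts S) ∨
        (∃ a, a + 1 ≤ i ∧ d N = run p k A a) ∧ κ (pos δ (d N)) = K) := by
    by_cases hfr : ∃ w ∈ F, dist w z₀ ≤ 4 * ρ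
    · obtain ⟨w, hwF, hw⟩ := hfr
      have hwη : w ∈ F ∩ closedBall z₀ η := ⟨hwF, by rw [mem_closedBall]; linarith⟩
      -- a point of the curve with another phase
      obtain ⟨u, hu, huF, huP, huκ⟩ : ∃ u ∈ closedBall z₀ ρ, u ∉ F ∧ u ∈ P ∧ κ u ≠ κ w := by
        have key : ∀ u ∈ (F ∪ P) ∩ closedBall z₀ ρ, κ u ≠ κ w → u ∉ F ∧ u ∈ P := by
          intro u hu hne
          have : u ∉ F := fun hF' => hne (hκF u ⟨hF', closedBall_subset_closedBall
            (by linarith) hu.2⟩ w hwη)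
          exact ⟨this, hu.1.resolve_left this⟩
        by_cases h1 : κ x = κ w
        · have h2 : κ y ≠ κ w := fun h3 => hxy (h1.trans h3.symm)
          exact ⟨y, hy.2, (key y hy h2).1, (key y hy h2).2, h2⟩
        · exact ⟨x, hx.2, (key x hx h1).1, (key x hx h1).2, h1⟩
      obtain ⟨a, ha, hda, hκa⟩ := hdart u hu huF huP
      obtain ⟨c, hc1, hc2, hc3⟩ := exists_ext hp hS hδ hwF
      have hc4 : dist z₀ (pos δ c) ≤ 5 * ρ := by
        have := dist_triangle_left z₀ (pos δ c) w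
        linarith
      obtain ⟨N, d, hd0, hdN, hds, hdb⟩ := exists_walk hδ.le (hda.trans (by linarith)) hc4
      have hdb' : ∀ l ≤ N, dist z₀ (pos δ (d l)) ≤ 10 * ρ := fun l hl =>
        (hdb l hl).trans (by linarith)
      refine ⟨κ w, N, d, hds, hdb', ⟨a, ha, hd0⟩, ?_, ?_, Or.inl ?_⟩
      · rw [hd0, hκa]
        exact huκ
      · intro l hl h1 h2
        refine hκF _ ⟨cpt_frontierG hδ h1 h2, ?_⟩ w hwη
        rw [mem_closedBall]
        have h3 := dist_pos_cpt hδ.le (d l)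
        have h4 := dist_triangle_left ((δ : ℂ) * cpt (3 / 8) (d l)) z₀ (pos δ (d l))
        have h5 := hdb' l hl
        rw [dist_comm] at h5
        linarith
      · rw [hdN]
        exact ⟨hc2, hc1⟩
    · push Not at hfr
      have hnF : ∀ u ∈ (F ∪ P) ∩ closedBall z₀ ρ, u ∉ F ∧ u ∈ P := by
        intro u hu
        have h1 := hu.2
        rw [mem_closedBall] at h1
        have h2 : u ∉ F := fun h3 => absurd (hfr u h3) (by linarith)
        exact ⟨h2, hu.1.resolve_left h2⟩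
      obtain ⟨a, ha, hda, hκa⟩ := hdart x hx.2 (hnF x hx).1 (hnF x hx).2
      obtain ⟨b, hb, hdb, hκb⟩ := hdart y hy.2 (hnF y hy).1 (hnF y hy).2
      obtain ⟨N, d, hd0, hdN, hds, hdd⟩ := exists_walk hδ.le hda hdb
      refine ⟨κ y, N, d, hds, fun l hl => (hdd l hl).trans (by linarith), ⟨a, ha, hd0⟩, ?_, ?_,
        Or.inr ⟨⟨b, hb, hdN⟩, ?_⟩⟩
      · rw [hd0, hκa]
        exact hxy
      · intro l hl h1 h2
        exfalso
        have h3 := dist_pos_cpt hδ.le (d l)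
        have h4 := dist_triangle_left ((δ : ℂ) * cpt (3 / 8) (d l)) z₀ (pos δ (d l))
        have h5 := hdd l hl
        rw [dist_comm] at h5
        have h6 := hfr _ (cpt_frontierG hδ h1 h2)
        linarith
      · rw [hdN, hκb]
  obtain ⟨K, N, d, hds, hdd, hd0, hκ0, hext, hend⟩ := hgate
  obtain ⟨v, m, C, hv, hCd, hC⟩ := gate_of_walk (κ := fun c => κ (pos δ c))
    (κo := fun c => κ ((δ : ℂ) * cpt (3 / 8) c)) hp hS hA hds hd0 hκ0 hext hend
    (fun l hl => hce _ ((hdd l hl).trans (by linarith)))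
  refine ⟨z₀, i, t, κ, ⟨?_, ?_⟩, hit', htl, ?_, ?_, hκF, v, m, C, ?_, ?_, hC⟩
  · exact hκ1
  · rintro G hG hGc hGp C hC hCc hCp x ⟨hxG, hxC⟩ y ⟨hyG, hyC⟩ hne
    exact hκ2 x ⟨hG hxG, hC hxC⟩ y ⟨hG hyG, hC hyC⟩ hne G hG hGp hxG hyG C hC hCp hxC hyC
      (hGc.union hCc).isClosed
  · rw [dist_comm]
    linarith
  · linarith
  · exact_mod_cast hv
  · intro j hj
    obtain ⟨l, hl, he⟩ := hCd j hj
    rw [he]
    exact (hdd l hl).trans (by linarith)

end

theorem FJR.mono_T {D : Set ℂ} {b : ℂ} {X : C(unitInterval, ℂ)} {T T' ρ e r₁ : ℝ}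
    (h : FJR D b X T ρ e r₁) (hT : T ≤ T') : FJR D b X T' ρ e r₁ := by
  obtain ⟨s, t, h1, h2, h3⟩ := h
  exact ⟨s, t, h1, h2.trans_le hT, h3⟩

/-- **S_gate.** -/
theorem s_gate : S_gate := by
  intro Φ δ N k p S hA e he r₁ hr₁ R hR hRe hRr
  obtain ⟨η₀, hη₀, hctrl⟩ := ctrl_Om hA (half_pos hR)
  refine ⟨min (η₀ / 2) (R / 2), lt_min (by positivity) (by positivity),
    (min_le_right _ _).trans (by linarith), ?_⟩
  intro ε hε
  set η := min (η₀ / 2) (R / 2) with hη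
  have hηpos : 0 < η := lt_min (by positivity) (by positivity)
  have hη1 : η ≤ η₀ / 2 := min_le_left _ _
  have hη2 : η ≤ R / 2 := min_le_right _ _
  set ρ := min ε η / 16 with hρ
  have hρpos : 0 < ρ := by positivity
  have hρ1 : 16 * ρ ≤ ε := by
    rw [hρ]
    linarith [min_le_left ε η]
  have hρ2 : 16 * ρ ≤ η := by
    rw [hρ]
    linarith [min_le_right ε η]
  refine ⟨ρ, hρpos, ?_⟩
  have hδ : ∀ᶠ n in atTop, δ n < ρ / 16 := hA.2.1.eventually (gt_mem_nhds (by positivity))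
  filter_upwards [hctrl, hδ, eventually_two hA] with i hi hδi hk A hAS hfj
  obtain ⟨hδ0, hk0, hkN, hp, hS⟩ := hA.1 i
  have hnu : (0 : ℝ) < nu (p i) (k i) A := by
    have : 0 < nu (p i) (k i) A := by unfold nu; omega
    exact_mod_cast this
  refine gated_of_fjr hp hS hk hAS hδ0 hR hRe hRr hηpos (by linarith) hρpos hρ1 hρ2
    (by linarith) (hi.mono (by linarith) le_rfl) (FJR.mono_T hfj ?_)
  rw [div_le_one hnu]
  linarith

end Vale.Agent.P167.Fjord
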