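import Vale.Agent.P167.Fjord.Defs

/-!
# P167, block FJORD, S_gate, part 1: the combinatorics of the gate
-/

open Set Metric

namespace Vale.Agent.P167.Fjord

open Vale.Agent.P167.E6 Vale.Agent.P167.E2

/-- Neighbours in the corner lattice. -/
def Nb (c c' : Medial) : Prop := ∃ e, VStep e c c' ∨ FStep e c c'

theorem VStep.symG {e : Sym2 (ℤ × ℤ)} {c c' : Medial} (h : VStep e c c') : VStep e c' c :=
  Or.symm h

theorem FStep.symG {e : Sym2 (ℤ × ℤ)} {c c' : Medial} (h : FStep e c c') : FStep e c' c :=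
  Or.symm h

variable {n : ℕ} {p : ZMod n → ℤ × ℤ} {S : Finset (ℤ × ℤ)} {k : ℕ} {A : Finset (Sym2 (ℤ × ℤ))}

theorem Ok.symm {c c' : Medial} (h : Ok p k S c c') : Ok p k S c' c := by
  rcases h with ⟨e, h1, h2⟩ | ⟨e, h1, h2⟩
  · exact Or.inl ⟨e, h1, h2.symG⟩
  · exact Or.inr ⟨e, h1, h2.symG⟩

theorem VStep.fstG {e : Sym2 (ℤ × ℤ)} {c c' : Medial} (h : VStep e c c') : c'.1 = c.1 := by
  rcases h with ⟨-, h⟩ | ⟨-, h⟩ <;> rw [h] <;> rfl

theorem fc_advG (c : Medial) : fc (adv c) = fc c := by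
  unfold fc adv
  simp only
  rw [← fin4_4, face_right, fin4_2]

theorem FStep.fc_eq {e : Sym2 (ℤ × ℤ)} {c c' : Medial} (h : FStep e c c') : fc c' = fc c := by
  rcases h with ⟨-, h⟩ | ⟨-, h⟩
  · rw [h, fc_advG]
  · rw [h, fc_advG]

theorem ahead_mem {c : Medial} (h : fc c ∈ S) : ahead c ∈ edges S := by
  unfold ahead
  rw [mem_edges, fin4_2]
  exact Or.inr h

theorem FStep.mem {e : Sym2 (ℤ × ℤ)} {c c' : Medial} (h : FStep e c c') (hc : fc c ∈ S) :
    e ∈ edges S := by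
  have hc' : fc c' ∈ S := by rw [h.fc_eq]; exact hc
  rcases h with ⟨h, -⟩ | ⟨h, -⟩
  · rw [← h]; exact ahead_mem hc
  · rw [← h]; exact ahead_mem hc'

theorem fst_mem {c : Medial} (h : fc c ∈ S) : c.1 ∈ verts S := mem_verts.2 ⟨_, h⟩

theorem fc_rotG (c : Medial) : fc (rot c) = face c.1 (c.2 + 1) := rfl

theorem fin4_6G : ∀ r : Fin 4, r + 1 + 2 - 1 = r + 1 + 1 := by decide

/-- Exactly one side of an edge of the polygon is inside. -/
theorem wd_side (hp : IsPolygon p) (hS : Encloses p S) {c : Medial} (h : ahead c ∈ Wd p k) :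
    (fc c ∈ S ∧ fc (rot c) ∉ S) ∨ (fc c ∉ S ∧ fc (rot c) ∈ S) := by
  obtain ⟨i, -, -, he⟩ := h
  obtain ⟨v, r⟩ := c
  unfold ahead at he
  simp only at he
  rw [Sym2.eq_iff] at he
  rcases he with ⟨h1, h2⟩ | ⟨h1, h2⟩
  · right
    have := (hS v (r + 1)).1 ⟨i, h1.symm, h2.symm⟩
    rw [fin4_2] at this
    exact ⟨this.2, this.1⟩
  · left
    -- the polygon runs from `v + dir (r + 1)` to `v`
    have h3 : p (i + 1) = p i + dir (r + 1 + 2) := by
      rw [← h1, ← h2, dir_add_two']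
    have := (hS (p i) (r + 1 + 2)).1 ⟨i, rfl, h3⟩
    rw [← h2] at this
    have e1 := fin4_6G r
    rw [face_right, fin4_2, e1, face_left] at this
    exact this

theorem VStep.out (hp : IsPolygon p) (hS : Encloses p S) {e : Sym2 (ℤ × ℤ)} {c c' : Medial}
    (h : VStep e c c') (he : e ∈ Wd p k) (hc : fc c ∈ S) : fc c' ∉ S := by
  rcases h with ⟨h1, rfl⟩ | ⟨h1, rfl⟩
  · rw [← h1] at he
    rcases wd_side hp hS he with h | h
    · exact h.2
    · exact absurd hc h.1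
  · rw [← h1] at he
    rcases wd_side hp hS he with h | h
    · exact absurd hc h.2
    · exact h.1

/-- A step between two darts inside is allowed. -/
theorem ok_of_in (hp : IsPolygon p) (hS : Encloses p S) {c c' : Medial} (h : Nb c c')
    (hc : fc c ∈ S) (hc' : fc c' ∈ S) : Ok p k S c c' := by
  obtain ⟨e, h | h⟩ := h
  · exact Or.inl ⟨e, fun he => h.out hp hS he hc hc', h⟩
  · exact Or.inr ⟨e, h.mem hc, h⟩

/-- **A gate from a walk.** -/
theorem gate_of_walk (hp : IsPolygon p) (hS : Encloses p S) (hA : A ⊆ edges S) {i N : ℕ}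
    {κ κo : Medial → ℤ} {K : ℤ} {d : ℕ → Medial} (hstep : ∀ l < N, Nb (d l) (d (l + 1)))
    (h0 : ∃ a, a + 1 ≤ i ∧ d 0 = run p k A a) (hκ0 : κ (d 0) ≠ K)
    (hext : ∀ l ≤ N, (d l).1 ∈ verts S → fc (d l) ∉ S → κo (d l) = K)
    (hend : (fc (d N) ∉ S ∧ (d N).1 ∈ verts S) ∨ (∃ a, a + 1 ≤ i ∧ d N = run p k A a) ∧ κ (d N) = K)
    (hce : ∀ l ≤ N, d l ≠ ce p k) :
    ∃ (v m : ℕ) (C : ℕ → Medial), v + 1 ≤ i ∧ (∀ j ≤ m, ∃ l ≤ N, C j = d l) ∧
      (((GLe p k S A v m C ∨ GRi p k S A v m C) ∧ κ (C m) ≠ κ (C 0)) ∨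
        ((GWi p k S A v m C ∨ GFr p k S A v m C) ∧ κo (C m) ≠ κ (C 0))) := by
  classical
  -- the last visited dart with a phase different from `K`
  let Q : ℕ → Prop := fun l => (∃ a, a + 1 ≤ i ∧ d l = run p k A a) ∧ κ (d l) ≠ K
  have hQ0 : Q 0 := ⟨h0, hκ0⟩
  set i0 := Nat.findGreatest Q N with hi0
  have hQi : Q i0 := Nat.findGreatest_spec (Nat.zero_le N) hQ0
  have hi0N : i0 ≤ N := Nat.findGreatest_le N
  have hQn : ∀ l, i0 < l → l ≤ N → ¬ Q l := fun l h1 h2 => Nat.findGreatest_is_greatest h1 h2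
  obtain ⟨⟨a, ha, hda⟩, hκa⟩ := hQi
  have hv : (d i0).1 ∈ verts S := by rw [hda]; exact run_mem hp hS hA a
  by_cases hfc : fc (d i0) ∈ S
  swap
  · -- the dart is exterior: a gate of length 0
    refine ⟨a, 0, fun _ => d i0, ha, fun j _ => ⟨i0, hi0N, rfl⟩, Or.inr ⟨Or.inr ?_, ?_⟩⟩
    · exact ⟨⟨hda, fun j h1 h2 => absurd h2 (by omega), fun j h1 => absurd h1 (by omega),
        fun j _ => hce i0 hi0N⟩, fun h => absurd h (lt_irrefl 0), hfc⟩
    · rw [hext i0 hi0N hv hfc]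
      exact fun h => hκa h.symm
  have hi0lt : i0 < N := by
    rcases hi0N.lt_or_eq with h | h
    · exact h
    · exfalso
      rw [← h] at hend
      rcases hend with h1 | h1
      · exact h1.1 hfc
      · exact hκa h1.2
  -- the first event after it
  have hE : ∃ l, i0 < l ∧ l ≤ N ∧ ((∃ a, a + 1 ≤ i ∧ d l = run p k A a) ∨ fc (d l) ∉ S) := by
    refine ⟨N, hi0lt, le_rfl, ?_⟩
    rcases hend with h1 | h1
    · exact Or.inr h1.1
    · exact Or.inl h1.1
  obtain ⟨h1, h2, h3⟩ := Nat.find_spec hE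
  have hmin : ∀ l, i0 < l → l < Nat.find hE →
      ¬ ((∃ a, a + 1 ≤ i ∧ d l = run p k A a) ∨ fc (d l) ∉ S) := fun l hl hl' h =>
    Nat.find_min hE hl' ⟨hl, by omega, h⟩
  set l1 := Nat.find hE with hl1
  obtain ⟨m, hm⟩ : ∃ m, l1 = i0 + m := ⟨l1 - i0, by omega⟩
  have hm0 : 0 < m := by omega
  -- inner darts
  have hin : ∀ j, 0 < j → j < m → (∀ b, b + 1 ≤ i → d (i0 + j) ≠ run p k A b) ∧
      fc (d (i0 + j)) ∈ S := by
    intro j hj hj'
    have := hmin (i0 + j) (by omega) (by omega)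
    rw [not_or] at this
    exact ⟨fun b hb hb' => this.1 ⟨b, hb, hb'⟩, not_not.1 this.2⟩
  have hinS : ∀ j < m, fc (d (i0 + j)) ∈ S := by
    intro j hj
    rcases Nat.eq_zero_or_pos j with h | h
    · rw [h]; exact hfc
    · exact (hin j h hj).2
  have hnb : ∀ j < m, Nb (d (i0 + j)) (d (i0 + (j + 1))) := fun j hj =>
    hstep (i0 + j) (by omega)
  have hokin : ∀ j, j + 1 < m → Ok p k S (d (i0 + j)) (d (i0 + (j + 1))) := fun j hj =>
    ok_of_in hp hS (hnb j (by omega)) (hinS j (by omega)) (hinS (j + 1) hj)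
  have hpre : Pre p k S A a m (fun j => d (i0 + j)) := by
    refine ⟨hda, fun j hj hj' b hb => (hin j hj hj').1 b (by omega), hokin,
      fun j hj => hce _ (by omega)⟩
  obtain ⟨m', rfl⟩ : ∃ m', m = m' + 1 := ⟨m - 1, by omega⟩
  have hlast := hnb m' (by omega)
  have hlastS := hinS m' (by omega)
  have hinc : ∀ j ≤ m' + 1, ∃ l ≤ N, d (i0 + j) = d l := fun j hj => ⟨i0 + j, by omega, rfl⟩
  -- the last dart is exterior behind a wired edge?
  by_cases hw : ∃ e ∈ Wd p k, VStep e (d (i0 + m')) (d (i0 + (m' + 1)))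
  · obtain ⟨e, he, hve⟩ := hw
    have hout := hve.out hp hS he hlastS
    refine ⟨a, m' + 1, fun j => d (i0 + j), ha, hinc, Or.inr ⟨Or.inl ?_, ?_⟩⟩
    · exact ⟨hpre, Nat.succ_pos _, ⟨e, he, hve⟩, hout⟩
    · rw [hext _ (by omega) (by rw [hve.fstG]; exact fst_mem hlastS) hout]
      exact fun h => hκa h.symm
  have hoklast : Ok p k S (d (i0 + m')) (d (i0 + (m' + 1))) := by
    obtain ⟨e, h | h⟩ := hlast
    · exact Or.inl ⟨e, fun he => hw ⟨e, he, h⟩, h⟩
    · exact Or.inr ⟨e, h.mem hlastS, h⟩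
  by_cases hvis : ∃ b, b + 1 ≤ i ∧ d (i0 + (m' + 1)) = run p k A b
  · -- the last dart is visited
    obtain ⟨b, hb, hdb⟩ := hvis
    have hκb : κ (d (i0 + (m' + 1))) = K := by
      by_contra hcon
      exact hQn (i0 + (m' + 1)) (by omega) (by omega) ⟨⟨b, hb, hdb⟩, hcon⟩
    have hab : a ≠ b := by
      rintro rfl
      rw [← hda] at hdb
      rw [hdb] at hκb
      exact hκa hκb
    rcases lt_or_gt_of_ne hab with hlt | hgt
    · -- the walk is reversed
      have hrev : ∀ j ≤ m' + 1, i0 + (m' + 1 - j) ≤ N := fun j _ => by omega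
      have hC0 : d (i0 + (m' + 1 - 0)) = run p k A b := hdb
      have hCm : d (i0 + (m' + 1 - (m' + 1))) = run p k A a := by
        rw [Nat.sub_self, Nat.add_zero]; exact hda
      have hCm1 : (m' + 1 - (m' + 1 - 1)) = 1 := by omega
      have hpre' : Pre p k S A b (m' + 1) (fun j => d (i0 + (m' + 1 - j))) := by
        refine ⟨hC0, fun j hj hj' c hc => (hin (m' + 1 - j) (by omega) (by omega)).1 c (by omega),
          fun j hj => ?_, fun j hj => hce _ (by omega)⟩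
        rcases Nat.eq_zero_or_pos j with h | h
        · subst h
          exact hoklast.symm
        · have := hokin (m' + 1 - (j + 1)) (by omega)
          have e : m' + 1 - (j + 1) + 1 = m' + 1 - j := by omega
          rw [e] at this
          exact this.symm
      have hstep1 := hnb 0 (by omega)
      have hok1 : Ok p k S (d (i0 + 0)) (d (i0 + 1)) := by
        rcases Nat.eq_zero_or_pos m' with h | h
        · subst h
          exact hoklast
        · exact hokin 0 (by omega)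
      refine ⟨b, m' + 1, fun j => d (i0 + (m' + 1 - j)), hb, fun j hj => ⟨_, hrev j hj, rfl⟩,
        Or.inl ⟨?_, ?_⟩⟩
      · rcases hok1 with ⟨e, he, hve⟩ | ⟨e, he, hfe⟩
        · refine Or.inl ⟨hpre', Nat.succ_pos _, ⟨a, hlt, hCm⟩, e, he, ?_⟩
          show VStep e (d (i0 + (m' + 1 - (m' + 1 - 1)))) (d (i0 + (m' + 1 - (m' + 1))))
          rw [hCm1, Nat.sub_self]
          exact hve.symG
        · refine Or.inr ⟨hpre', Nat.succ_pos _, ⟨a, hlt, hCm⟩, e, he, ?_⟩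
          show FStep e (d (i0 + (m' + 1 - (m' + 1 - 1)))) (d (i0 + (m' + 1 - (m' + 1))))
          rw [hCm1, Nat.sub_self]
          exact hfe.symG
      · show κ (d (i0 + (m' + 1 - (m' + 1)))) ≠ κ (d (i0 + (m' + 1 - 0)))
        rw [Nat.sub_self, Nat.sub_zero, hκb]
        exact hκa
    · refine ⟨a, m' + 1, fun j => d (i0 + j), ha, hinc, Or.inl ⟨?_, ?_⟩⟩
      · rcases hoklast with ⟨e, he, hve⟩ | ⟨e, he, hfe⟩
        · exact Or.inl ⟨hpre, Nat.succ_pos _, ⟨b, hgt, hdb⟩, e, he, hve⟩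
        · exact Or.inr ⟨hpre, Nat.succ_pos _, ⟨b, hgt, hdb⟩, e, he, hfe⟩
      · show κ (d (i0 + (m' + 1))) ≠ κ (d (i0 + 0))
        rw [hκb]
        exact fun h => hκa h.symm
  · -- the last dart is exterior and not visited
    have hout : fc (d (i0 + (m' + 1))) ∉ S := by
      rw [hm] at h3
      exact h3.resolve_left hvis
    have hvert : (d (i0 + (m' + 1))).1 ∈ verts S := by
      rcases hoklast with ⟨e, he, hve⟩ | ⟨e, he, hfe⟩
      · rw [hve.fstG]; exact fst_mem hlastS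
      · exact absurd (by rw [hfe.fc_eq]; exact hlastS) hout
    refine ⟨a, m' + 1, fun j => d (i0 + j), ha, hinc, Or.inr ⟨Or.inr ?_, ?_⟩⟩
    · exact ⟨hpre, fun _ => ⟨hoklast, fun b hb h => hvis ⟨b, by omega, h⟩⟩, hout⟩
    · show κo (d (i0 + (m' + 1))) ≠ κ (d (i0 + 0))
      rw [hext _ (by omega) hvert hout]
      exact fun h => hκa h.symm

end Vale.Agent.P167.Fjord
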