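import Vale.Agent.P167.Fjord.Gate1
import Vale.Agent.P167.S6.FjSep

/-!
# P167, block FJORD, S_gate, part 2: the geometry of the gate
-/

open Set Metric Filter Topology

namespace Vale.Agent.P167.Fjord

open Vale.Agent.P167.E6 Vale.Agent.P167.E2 Vale.Agent.P167.H327
open Vale.Agent.P153.R2.R1 (Ctrl)

/-! ### Walks in the corner lattice -/

theorem exists_walkZ : ∀ (m : ℕ) (a b : ℤ × ℤ), (b.1 - a.1).natAbs + (b.2 - a.2).natAbs = m →
    ∃ (N : ℕ) (w : ℕ → ℤ × ℤ), w 0 = a ∧ w N = b ∧ (∀ l < N, ∃ r, w (l + 1) = w l + dir r) ∧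
      ∀ l ≤ N, (min a.1 b.1 ≤ (w l).1 ∧ (w l).1 ≤ max a.1 b.1) ∧
        (min a.2 b.2 ≤ (w l).2 ∧ (w l).2 ≤ max a.2 b.2) := by
  intro m
  induction m with
  | zero =>
    intro a b h
    have e : a = b := by
      apply Prod.ext <;> omega
    subst e
    refine ⟨0, fun _ => a, rfl, rfl, fun l hl => absurd hl (Nat.not_lt_zero l), fun l _ => ?_⟩
    simp
  | succ m ih =>
    intro a b h
    -- a first step in a good direction
    obtain ⟨r, hr, hbox⟩ : ∃ r, (b.1 - (a + dir r).1).natAbs + (b.2 - (a + dir r).2).natAbs = m ∧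
        ((min a.1 b.1 ≤ min (a + dir r).1 b.1 ∧ max (a + dir r).1 b.1 ≤ max a.1 b.1) ∧
          (min a.2 b.2 ≤ min (a + dir r).2 b.2 ∧ max (a + dir r).2 b.2 ≤ max a.2 b.2)) := by
      rcases lt_trichotomy a.1 b.1 with h1 | h1 | h1
      · refine ⟨0, ?_⟩
        simp only [dir0, Prod.fst_add, Prod.snd_add]
        omega
      · rcases lt_trichotomy a.2 b.2 with h2 | h2 | h2
        · refine ⟨1, ?_⟩
          simp only [dir1, Prod.fst_add, Prod.snd_add]
          omega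
        · omega
        · refine ⟨3, ?_⟩
          simp only [dir3, Prod.fst_add, Prod.snd_add]
          omega
      · refine ⟨2, ?_⟩
        simp only [dir2, Prod.fst_add, Prod.snd_add]
        omega
    obtain ⟨N, w, hw0, hwN, hws, hwb⟩ := ih (a + dir r) b hr
    refine ⟨N + 1, fun l => if l = 0 then a else w (l - 1), rfl, ?_, ?_, ?_⟩
    · simp [hwN]
    · intro l hl
      rcases Nat.eq_zero_or_pos l with h0 | h0
      · subst h0
        exact ⟨r, by simp [hw0]⟩
      · obtain ⟨r', hr'⟩ := hws (l - 1) (by omega)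
        have e : l - 1 + 1 = l := by omega
        rw [e] at hr'
        refine ⟨r', ?_⟩
        simp only [Nat.add_eq_zero_iff, one_ne_zero, and_false, if_false, Nat.add_sub_cancel,
          if_neg h0.ne']
        exact hr'
    · intro l hl
      rcases Nat.eq_zero_or_pos l with h0 | h0
      · subst h0
        simp
      · simp only [if_neg h0.ne']
        obtain ⟨⟨h1, h2⟩, h3, h4⟩ := hwb (l - 1) (by omega)
        exact ⟨⟨hbox.1.1.trans h1, h2.trans hbox.1.2⟩, hbox.2.1.trans h3, h4.trans hbox.2.2⟩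

theorem face_rotG (v : ℤ × ℤ) (r : Fin 4) : face v (r + 1) = face v r + dir (r + 2) := by
  revert r
  refine forall4 ?_ ?_ ?_ ?_ <;> apply Prod.ext <;>
    simp only [face0, face1, face2, face3, f4_01, f4_11, f4_21, f4_31, f4_02, f4_12, f4_22, f4_32,
      dir0, dir1, dir2, dir3, Prod.fst_add, Prod.snd_add] <;> ring

theorem hl_advG (c : Medial) : hl (adv c) = hl c + dir (c.2 + 1) := by
  unfold hl
  rw [fc_advG, add_right_comm]
  rfl

theorem hl_rotG (c : Medial) : hl (rot c) = hl c + dir (c.2 + 2) := by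
  unfold hl
  rw [fc_rotG, face_rotG, ← add_assoc]
  rfl

theorem fin4_casesG : ∀ r s : Fin 4, s = r + 1 ∨ s = r + 2 ∨ s = r + 1 + 2 ∨ s = r + 2 + 2 := by
  decide

theorem fin4_7G : ∀ r : Fin 4, r - 1 + 2 = r + 1 := by decide

theorem fin4_8G : ∀ r : Fin 4, r + 1 + 1 = r + 2 := by decide

theorem fin4_9G : ∀ r : Fin 4, r + 2 + 2 = r := by decide

theorem nb_of_hl {c c' : Medial} (h : ∃ r, hl c' = hl c + dir r) : Nb c c' := by
  obtain ⟨s, hs⟩ := h
  obtain ⟨v, r⟩ := c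
  rcases fin4_casesG r s with rfl | rfl | rfl | rfl
  · have : c' = adv (v, r) := hl_inj (by rw [hs, hl_advG])
    exact ⟨ahead (v, r), Or.inr (Or.inl ⟨rfl, this⟩)⟩
  · have : c' = rot (v, r) := hl_inj (by rw [hs, hl_rotG])
    exact ⟨ahead (v, r), Or.inl (Or.inl ⟨rfl, this⟩)⟩
  · have h1 : rot ((v, r - 1) : Medial) = (v, r) := by
      unfold rot
      simp only [fin4_1]
    have h2 : c' = ((v, r - 1) : Medial) := by
      apply hl_inj
      rw [hs, ← h1, hl_rotG]
      simp only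
      rw [fin4_7G, dir_add_two']
    refine ⟨ahead c', Or.inl (Or.inr ⟨rfl, ?_⟩)⟩
    rw [h2, h1]
  · have h1 : adv ((v + dir r, r + 1) : Medial) = (v, r) := by
      unfold adv
      simp only [fin4_8G, fin4_2, dir_add_two']
    have h2 : c' = ((v + dir r, r + 1) : Medial) := by
      apply hl_inj
      rw [hs, ← h1, hl_advG]
      simp only
      rw [fin4_8G, dir_add_two']
    refine ⟨ahead c', Or.inr (Or.inr ⟨rfl, ?_⟩)⟩
    rw [h2, h1]

theorem hl_surj (z : ℤ × ℤ) : ∃ c, hl c = z := by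
  obtain ⟨x, y⟩ := z
  rcases Int.even_or_odd' x with ⟨a, rfl | rfl⟩ <;> rcases Int.even_or_odd' y with ⟨b, rfl | rfl⟩
  · refine ⟨((a, b), 0), ?_⟩
    simp only [hl, fc, face0, Prod.mk_add_mk, Prod.mk.injEq]
    omega
  · refine ⟨((a, b + 1), 3), ?_⟩
    simp only [hl, fc, face3, Prod.mk_add_mk, Prod.mk.injEq]
    omega
  · refine ⟨((a + 1, b), 1), ?_⟩
    simp only [hl, fc, face1, Prod.mk_add_mk, Prod.mk.injEq]
    omega
  · refine ⟨((a + 1, b + 1), 2), ?_⟩
    simp only [hl, fc, face2, Prod.mk_add_mk, Prod.mk.injEq]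
    omega

/-- The position of a dart. -/
noncomputable def pos (δ : ℝ) (c : Medial) : ℂ := (δ : ℂ) * cpt (1 / 4) c

theorem pos_re (δ : ℝ) (c : Medial) : (pos δ c).re = δ * ((hl c).1 / 2 + 1 / 4) := by
  unfold pos
  rw [cpt_hl, Complex.re_ofReal_mul]
  congr 1
  simp [pt]
  ring

theorem pos_im (δ : ℝ) (c : Medial) : (pos δ c).im = δ * ((hl c).2 / 2 + 1 / 4) := by
  unfold pos
  rw [cpt_hl, Complex.im_ofReal_mul]
  congr 1
  simp [pt]
  ring

theorem between {a b m : ℤ} {δ x r : ℝ} (hδ : 0 ≤ δ) (h1 : min a b ≤ m) (h2 : m ≤ max a b)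
    (ha : |δ * ((a : ℝ) / 2 + 1 / 4) - x| ≤ r) (hb : |δ * ((b : ℝ) / 2 + 1 / 4) - x| ≤ r) :
    |δ * ((m : ℝ) / 2 + 1 / 4) - x| ≤ r := by
  rw [abs_le] at ha hb ⊢
  rcases le_total a b with h | h
  · rw [min_eq_left h] at h1
    rw [max_eq_right h] at h2
    have h3 : (a : ℝ) ≤ m := by exact_mod_cast h1
    have h4 : (m : ℝ) ≤ b := by exact_mod_cast h2
    constructor <;> nlinarith
  · rw [min_eq_right h] at h1
    rw [max_eq_left h] at h2
    have h3 : (b : ℝ) ≤ m := by exact_mod_cast h1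
    have h4 : (m : ℝ) ≤ a := by exact_mod_cast h2
    constructor <;> nlinarith

/-- **Walks in the corner lattice** between two darts in a ball. -/
theorem exists_walk {δ r : ℝ} (hδ : 0 ≤ δ) {z₀ : ℂ} {c c' : Medial}
    (hc : dist z₀ (pos δ c) ≤ r) (hc' : dist z₀ (pos δ c') ≤ r) :
    ∃ (N : ℕ) (d : ℕ → Medial), d 0 = c ∧ d N = c' ∧ (∀ l < N, Nb (d l) (d (l + 1))) ∧
      ∀ l ≤ N, dist z₀ (pos δ (d l)) ≤ 2 * r := by
  obtain ⟨N, w, hw0, hwN, hws, hwb⟩ := exists_walkZ _ (hl c) (hl c') rfl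
  choose D hD using hl_surj
  have hDc : ∀ c, D (hl c) = c := fun c => hl_inj (hD _)
  refine ⟨N, fun l => D (w l), by simp only [hw0, hDc], by simp only [hwN, hDc], ?_, ?_⟩
  · intro l hl
    obtain ⟨s, hs⟩ := hws l hl
    exact nb_of_hl ⟨s, by rw [hD, hD, hs]⟩
  · intro l hl
    obtain ⟨⟨h1, h2⟩, ⟨h3, h4⟩⟩ := hwb l hl
    rw [dist_comm, dist_eq_norm] at hc hc'
    have a1 := (Complex.abs_re_le_norm (pos δ c - z₀)).trans hc
    have a2 := (Complex.abs_im_le_norm (pos δ c - z₀)).trans hc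
    have b1 := (Complex.abs_re_le_norm (pos δ c' - z₀)).trans hc'
    have b2 := (Complex.abs_im_le_norm (pos δ c' - z₀)).trans hc'
    rw [Complex.sub_re, pos_re] at a1 b1
    rw [Complex.sub_im, pos_im] at a2 b2
    rw [dist_comm, dist_eq_norm]
    refine (norm_le_of_coord (a := r) (b := r) ?_ ?_).trans (by linarith)
    · rw [Complex.sub_re, pos_re, hD]
      exact between hδ h1 h2 a1 b1
    · rw [Complex.sub_im, pos_im, hD]
      exact between hδ h3 h4 a2 b2

end Vale.Agent.P167.Fjord
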