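import Vale.Agent.P167.Fjord.Inn
import Vale.Agent.P167.H327.Rado6

/-!
# P167, block FJORD, lattice half: coordinates of the segments of the plane used by the paths

`Lseg x y` is the segment of the corner lattice between two darts. Grid coordinates of `z`:
`2 * z.re - 1/2`, `2 * z.im - 1/2` (the darts are at the integer points `hl c`).
-/

set_option linter.unusedSimpArgs false
set_option linter.unusedVariables false

open Set Metric

namespace Vale.Agent.P167.Fjord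

open Vale.Agent.P167.E6 Vale.Agent.P167.E2

/-! ### Positions -/

theorem hl_0 (v : ℤ × ℤ) : hl (v, 0) = (2 * v.1, 2 * v.2) := by
  simp only [hl, fc, face0]
  apply Prod.ext <;> simp only [Prod.fst_add, Prod.snd_add] <;> ring

theorem hl_1 (v : ℤ × ℤ) : hl (v, 1) = (2 * v.1 - 1, 2 * v.2) := by
  simp only [hl, fc, face1]
  apply Prod.ext <;> simp only [Prod.fst_add, Prod.snd_add] <;> ring

theorem hl_2 (v : ℤ × ℤ) : hl (v, 2) = (2 * v.1 - 1, 2 * v.2 - 1) := by
  simp only [hl, fc, face2]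
  apply Prod.ext <;> simp only [Prod.fst_add, Prod.snd_add] <;> ring

theorem hl_3 (v : ℤ × ℤ) : hl (v, 3) = (2 * v.1, 2 * v.2 - 1) := by
  simp only [hl, fc, face3]
  apply Prod.ext <;> simp only [Prod.fst_add, Prod.snd_add] <;> ring

theorem hl_rotI (c : Medial) : hl (rot c) = hl c + dir (c.2 + 2) := by
  obtain ⟨v, r⟩ := c
  revert r
  refine forall4 ?_ ?_ ?_ ?_ <;>
    simp only [rot, f4_01, f4_11, f4_21, f4_31, f4_02, f4_12, f4_22, f4_32, hl_0, hl_1, hl_2, hl_3,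
      dir0, dir1, dir2, dir3, Prod.mk_add_mk, Prod.ext_iff] <;>
    refine ⟨?_, ?_⟩ <;> ring

theorem hl_advI (c : Medial) : hl (adv c) = hl c + dir (c.2 + 1) := by
  obtain ⟨v, r⟩ := c
  revert r
  refine forall4 ?_ ?_ ?_ ?_ <;>
    simp only [adv, f4_01, f4_11, f4_21, f4_31, f4_0m, f4_1m, f4_2m, f4_3m, hl_0, hl_1, hl_2, hl_3,
      dir0, dir1, dir2, dir3, Prod.fst_add, Prod.snd_add, Prod.ext_iff] <;>
    refine ⟨?_, ?_⟩ <;> ring

theorem neg_dir (r : Fin 4) : -dir r = dir (r + 2) := (dir_add_two r).symm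

theorem step_hl {e : Sym2 (ℤ × ℤ)} {x y : Medial} (h : VStep e x y ∨ FStep e x y) :
    ∃ r, hl y = hl x + dir r := by
  rcases h with (⟨-, rfl⟩ | ⟨-, rfl⟩) | (⟨-, rfl⟩ | ⟨-, rfl⟩)
  · exact ⟨_, hl_rotI x⟩
  · refine ⟨y.2 + 2 + 2, ?_⟩
    rw [hl_rotI, dir_add_two']
  · exact ⟨_, hl_advI x⟩
  · refine ⟨y.2 + 1 + 2, ?_⟩
    rw [hl_advI, dir_add_two']

/-- A segment of the corner lattice. -/
def Lseg (x y : Medial) : Set ℂ := segment ℝ (cpt (1 / 4) x) (cpt (1 / 4) y)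

theorem Lseg_symm (x y : Medial) : Lseg x y = Lseg y x := segment_symm _ _ _

theorem seg_coord {a b z : ℂ} (h : z ∈ segment ℝ a b) : ∃ s : ℝ, 0 ≤ s ∧ s ≤ 1 ∧
    z.re = a.re + s * (b.re - a.re) ∧ z.im = a.im + s * (b.im - a.im) := by
  rw [segment_eq_image'] at h
  obtain ⟨s, hs, rfl⟩ := h
  exact ⟨s, hs.1, hs.2, by simp, by simp⟩

theorem c14_re (c : Medial) : (cpt (1 / 4) c).re = (hl c).1 / 2 + 1 / 4 := by
  have := congrArg Complex.re (cpt_hl c)
  rw [this]
  simp [pt_re]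
  ring

theorem c14_im (c : Medial) : (cpt (1 / 4) c).im = (hl c).2 / 2 + 1 / 4 := by
  have := congrArg Complex.im (cpt_hl c)
  rw [this]
  simp [pt_im]
  ring

theorem lseg_coord {x y : Medial} {r : Fin 4} (hr : hl y = hl x + dir r) {z : ℂ}
    (h : z ∈ Lseg x y) : ∃ s : ℝ, 0 ≤ s ∧ s ≤ 1 ∧
      2 * z.re - 1 / 2 = (hl x).1 + s * (dir r).1 ∧ 2 * z.im - 1 / 2 = (hl x).2 + s * (dir r).2 := by
  obtain ⟨s, h0, h1, e1, e2⟩ := seg_coord h
  refine ⟨s, h0, h1, ?_, ?_⟩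
  · rw [e1, c14_re, c14_re, hr, Prod.fst_add]
    push_cast
    ring
  · rw [e2, c14_im, c14_im, hr, Prod.snd_add]
    push_cast
    ring

theorem int_of_bd {m l : ℤ} (h1 : (m : ℝ) < l + 1) (h2 : (l : ℝ) < m + 1) : m = l := by
  have h3 : m < l + 1 := by exact_mod_cast h1
  have h4 : l < m + 1 := by exact_mod_cast h2
  omega

theorem on_v {e : Sym2 (ℤ × ℤ)} {x y : Medial} (h : VStep e x y ∨ FStep e x y) {z : ℂ}
    (hz : z ∈ Lseg x y) {l : ℤ} (h1 : (l : ℝ) < 2 * z.im - 1 / 2) (h2 : 2 * z.im - 1 / 2 < l + 1) :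
    ∃ m : ℤ, 2 * z.re - 1 / 2 = m ∧ ((hl x = (m, l) ∧ hl y = (m, l + 1)) ∨
      (hl y = (m, l) ∧ hl x = (m, l + 1))) := by
  obtain ⟨r, hr⟩ := step_hl h
  obtain ⟨s, h0, h1', e1, e2⟩ := lseg_coord hr hz
  generalize hl x = P at *
  generalize hl y = Q at *
  subst hr
  clear h hz
  revert r
  refine forall4 ?_ ?_ ?_ ?_ <;> intro e1 e2 <;>
    simp only [dir0, dir1, dir2, dir3, Int.cast_one, Int.cast_zero, Int.cast_neg, mul_one, mul_zero,
      mul_neg, add_zero] at e1 e2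
  · exact (by
      have : P.2 = l := int_of_bd (by linarith) (by linarith)
      rw [← this] at h1
      linarith : False).elim
  · have h3 : P.2 = l := int_of_bd (by linarith) (by linarith)
    refine ⟨P.1, e1, Or.inl ⟨by rw [← h3], ?_⟩⟩
    apply Prod.ext <;> simp only [dir1, Prod.fst_add, Prod.snd_add] <;> omega
  · exact (by
      have : P.2 = l := int_of_bd (by linarith) (by linarith)
      rw [← this] at h1
      linarith : False).elim
  · have h3 : P.2 = l + 1 := int_of_bd (by push_cast; linarith) (by push_cast; linarith)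
    refine ⟨P.1, e1, Or.inr ⟨?_, by rw [← h3]⟩⟩
    apply Prod.ext <;> simp only [dir3, Prod.fst_add, Prod.snd_add] <;> omega

theorem on_h {e : Sym2 (ℤ × ℤ)} {x y : Medial} (h : VStep e x y ∨ FStep e x y) {z : ℂ}
    (hz : z ∈ Lseg x y) {m : ℤ} (h1 : (m : ℝ) < 2 * z.re - 1 / 2) (h2 : 2 * z.re - 1 / 2 < m + 1) :
    ∃ l : ℤ, 2 * z.im - 1 / 2 = l ∧ ((hl x = (m, l) ∧ hl y = (m + 1, l)) ∨
      (hl y = (m, l) ∧ hl x = (m + 1, l))) := by
  obtain ⟨r, hr⟩ := step_hl h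
  obtain ⟨s, h0, h1', e1, e2⟩ := lseg_coord hr hz
  generalize hl x = P at *
  generalize hl y = Q at *
  subst hr
  clear h hz
  revert r
  refine forall4 ?_ ?_ ?_ ?_ <;> intro e1 e2 <;>
    simp only [dir0, dir1, dir2, dir3, Int.cast_one, Int.cast_zero, Int.cast_neg, mul_one, mul_zero,
      mul_neg, add_zero] at e1 e2
  · have h3 : P.1 = m := int_of_bd (by linarith) (by linarith)
    refine ⟨P.2, e2, Or.inl ⟨by rw [← h3], ?_⟩⟩
    apply Prod.ext <;> simp only [dir0, Prod.fst_add, Prod.snd_add] <;> omega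
  · exact (by
      have : P.1 = m := int_of_bd (by linarith) (by linarith)
      rw [← this] at h1
      linarith : False).elim
  · have h3 : P.1 = m + 1 := int_of_bd (by push_cast; linarith) (by push_cast; linarith)
    refine ⟨P.2, e2, Or.inr ⟨?_, by rw [← h3]⟩⟩
    apply Prod.ext <;> simp only [dir2, Prod.fst_add, Prod.snd_add] <;> omega
  · exact (by
      have : P.1 = m := int_of_bd (by linarith) (by linarith)
      rw [← this] at h1
      linarith : False).elim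

theorem on_pt {e : Sym2 (ℤ × ℤ)} {x y : Medial} (h : VStep e x y ∨ FStep e x y) {z : ℂ}
    (hz : z ∈ Lseg x y) {c : Medial} (h1 : 2 * z.re - 1 / 2 = (hl c).1)
    (h2 : 2 * z.im - 1 / 2 = (hl c).2) : x = c ∨ y = c := by
  obtain ⟨r, hr⟩ := step_hl h
  obtain ⟨s, h0, h1', e1, e2⟩ := lseg_coord hr hz
  rw [h1] at e1
  rw [h2] at e2
  have key : hl c = hl x ∨ hl c = hl y := by
    rw [hr]
    generalize hl x = P at *
    generalize hl c = Q at *
    clear h hz h1 h2 hr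
    revert r
    refine forall4 ?_ ?_ ?_ ?_ <;> intro e1 e2 <;>
      simp only [dir0, dir1, dir2, dir3, Int.cast_one, Int.cast_zero, Int.cast_neg, mul_one,
        mul_zero, mul_neg, add_zero] at e1 e2
    · have h3 : Q.2 = P.2 := by exact_mod_cast e2
      have h4 : Q.1 ≤ P.1 + 1 := by exact_mod_cast (by linarith : (Q.1 : ℝ) ≤ P.1 + 1)
      have h5 : P.1 ≤ Q.1 := by exact_mod_cast (by linarith : (P.1 : ℝ) ≤ Q.1)
      rcases h5.eq_or_lt with h6 | h6
      · exact Or.inl (Prod.ext h6.symm h3)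
      · refine Or.inr (Prod.ext ?_ ?_) <;> simp only [dir0, Prod.fst_add, Prod.snd_add] <;> omega
    · have h3 : Q.1 = P.1 := by exact_mod_cast e1
      have h4 : Q.2 ≤ P.2 + 1 := by exact_mod_cast (by linarith : (Q.2 : ℝ) ≤ P.2 + 1)
      have h5 : P.2 ≤ Q.2 := by exact_mod_cast (by linarith : (P.2 : ℝ) ≤ Q.2)
      rcases h5.eq_or_lt with h6 | h6
      · exact Or.inl (Prod.ext h3 h6.symm)
      · refine Or.inr (Prod.ext ?_ ?_) <;> simp only [dir1, Prod.fst_add, Prod.snd_add] <;> omega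
    · have h3 : Q.2 = P.2 := by exact_mod_cast e2
      have h4 : P.1 ≤ Q.1 + 1 := by exact_mod_cast (by linarith : (P.1 : ℝ) ≤ Q.1 + 1)
      have h5 : Q.1 ≤ P.1 := by exact_mod_cast (by linarith : (Q.1 : ℝ) ≤ P.1)
      rcases h5.eq_or_lt with h6 | h6
      · exact Or.inl (Prod.ext h6 h3)
      · refine Or.inr (Prod.ext ?_ ?_) <;> simp only [dir2, Prod.fst_add, Prod.snd_add] <;> omega
    · have h3 : Q.1 = P.1 := by exact_mod_cast e1
      have h4 : P.2 ≤ Q.2 + 1 := by exact_mod_cast (by linarith : (P.2 : ℝ) ≤ Q.2 + 1)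
      have h5 : Q.2 ≤ P.2 := by exact_mod_cast (by linarith : (Q.2 : ℝ) ≤ P.2)
      rcases h5.eq_or_lt with h6 | h6
      · exact Or.inl (Prod.ext h3 h6)
      · refine Or.inr (Prod.ext ?_ ?_) <;> simp only [dir3, Prod.fst_add, Prod.snd_add] <;> omega
  rcases key with h3 | h3
  · exact Or.inl (hl_inj h3.symm)
  · exact Or.inr (hl_inj h3.symm)

/-- Two segments of the corner lattice meet only if they have a common end. -/
theorem on_on {e e' : Sym2 (ℤ × ℤ)} {x y x' y' : Medial} (h : VStep e x y ∨ FStep e x y)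
    (h' : VStep e' x' y' ∨ FStep e' x' y') {z : ℂ} (hz : z ∈ Lseg x y) (hz' : z ∈ Lseg x' y') :
    x = x' ∨ x = y' ∨ y = x' ∨ y = y' := by
  obtain ⟨r, hr⟩ := step_hl h
  obtain ⟨s, h0, h1, e1, e2⟩ := lseg_coord hr hz
  rcases h0.eq_or_lt with h0 | h0
  · have := on_pt h' hz' (c := x) (by rw [e1, ← h0]; ring) (by rw [e2, ← h0]; ring)
    tauto
  rcases h1.eq_or_lt with h1 | h1
  · have := on_pt h' hz' (c := y) (by rw [e1, h1, hr]; simp)
      (by rw [e2, h1, hr]; simp)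
    tauto
  have key : (∃ m : ℤ, (m : ℝ) < 2 * z.re - 1 / 2 ∧ 2 * z.re - 1 / 2 < m + 1) ∨
      ∃ l : ℤ, (l : ℝ) < 2 * z.im - 1 / 2 ∧ 2 * z.im - 1 / 2 < l + 1 := by
    rw [e1, e2]
    clear h hz hr e1 e2
    revert r
    refine forall4 ?_ ?_ ?_ ?_ <;>
      simp only [dir0, dir1, dir2, dir3, Int.cast_one, Int.cast_zero, Int.cast_neg, mul_one,
        mul_zero, mul_neg, add_zero]
    · exact Or.inl ⟨(hl x).1, by linarith, by linarith⟩
    · exact Or.inr ⟨(hl x).2, by linarith, by linarith⟩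
    · exact Or.inl ⟨(hl x).1 - 1, by push_cast; linarith, by push_cast; linarith⟩
    · exact Or.inr ⟨(hl x).2 - 1, by push_cast; linarith, by push_cast; linarith⟩
  rcases key with ⟨m, h2, h3⟩ | ⟨l, h2, h3⟩
  · obtain ⟨l, e3, h4⟩ := on_h h hz h2 h3
    obtain ⟨l', e3', h4'⟩ := on_h h' hz' h2 h3
    have : l = l' := by
      have : (l : ℝ) = l' := by rw [← e3, ← e3']
      exact_mod_cast this
    subst this
    rcases h4 with ⟨a, b⟩ | ⟨a, b⟩ <;> rcases h4' with ⟨a', b'⟩ | ⟨a', b'⟩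
    · exact Or.inl (hl_inj (a.trans a'.symm))
    · exact Or.inr (Or.inl (hl_inj (a.trans a'.symm)))
    · exact Or.inr (Or.inr (Or.inl (hl_inj (a.trans a'.symm))))
    · exact Or.inr (Or.inr (Or.inr (hl_inj (a.trans a'.symm))))
  · obtain ⟨l', e3, h4⟩ := on_v h hz h2 h3
    obtain ⟨l'', e3', h4'⟩ := on_v h' hz' h2 h3
    have : l' = l'' := by
      have : (l' : ℝ) = l'' := by rw [← e3, ← e3']
      exact_mod_cast this
    subst this
    rcases h4 with ⟨a, b⟩ | ⟨a, b⟩ <;> rcases h4' with ⟨a', b'⟩ | ⟨a', b'⟩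
    · exact Or.inl (hl_inj (a.trans a'.symm))
    · exact Or.inr (Or.inl (hl_inj (a.trans a'.symm)))
    · exact Or.inr (Or.inr (Or.inl (hl_inj (a.trans a'.symm))))
    · exact Or.inr (Or.inr (Or.inr (hl_inj (a.trans a'.symm))))

end Vale.Agent.P167.Fjord
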