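import Vale.Agent.P167.Fjord.Defs
import Vale.Agent.P167.H174.End1

/-!
# P167, block FJORD, lattice half: steps of the corner lattice, the set `Inn`
-/

open Set Metric

namespace Vale.Agent.P167.Fjord

open Vale.Agent.P167.E6 Vale.Agent.P167.E2

variable {n : ℕ} {p : ZMod n → ℤ × ℤ} {S : Finset (ℤ × ℤ)} {k : ℕ}

/-! ### Steps -/

theorem fin4_6I (r : Fin 4) : r + 3 = r + 1 + 2 := by revert r; decide
theorem fin4_7I (r : Fin 4) : r + 3 - 1 = r + 1 + 1 := by revert r; decide

theorem fc_advI (c : Medial) : fc (adv c) = fc c := by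
  simp only [fc, adv]
  rw [← fin4_4, face_right, fin4_2]

theorem adv_ne (c : Medial) : (adv c).1 ≠ c.1 := add_dir_ne _ _

theorem ahead_eq (c : Medial) : ahead c = s(c.1, (adv c).1) := rfl

theorem VStep.symmI {e : Sym2 (ℤ × ℤ)} {c c' : Medial} (h : VStep e c c') : VStep e c' c := by
  rcases h with h | h
  exacts [Or.inr h, Or.inl h]

theorem FStep.symmI {e : Sym2 (ℤ × ℤ)} {c c' : Medial} (h : FStep e c c') : FStep e c' c := by
  rcases h with h | h
  exacts [Or.inr h, Or.inl h]

theorem VStep.fstI {e : Sym2 (ℤ × ℤ)} {c c' : Medial} (h : VStep e c c') : c'.1 = c.1 := by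
  rcases h with ⟨-, rfl⟩ | ⟨-, rfl⟩ <;> rfl

theorem FStep.fc {e : Sym2 (ℤ × ℤ)} {c c' : Medial} (h : FStep e c c') : fc c' = fc c := by
  rcases h with ⟨-, rfl⟩ | ⟨-, rfl⟩
  · exact fc_advI _
  · exact (fc_advI _).symm

theorem FStep.edge {e : Sym2 (ℤ × ℤ)} {c c' : Medial} (h : FStep e c c') : e = s(c.1, c'.1) := by
  rcases h with ⟨rfl, rfl⟩ | ⟨rfl, rfl⟩
  · rfl
  · rw [ahead_eq, Sym2.eq_swap]

theorem FStep.ne {e : Sym2 (ℤ × ℤ)} {c c' : Medial} (h : FStep e c c') : c'.1 ≠ c.1 := by
  rcases h with ⟨-, rfl⟩ | ⟨-, rfl⟩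
  · exact adv_ne _
  · exact (adv_ne _).symm

/-- The step of the interface. -/
theorem next_step (ω : Set (Sym2 (ℤ × ℤ))) (c : Medial) :
    (ahead c ∈ ω ∧ next ω c = adv c ∧ FStep (ahead c) c (next ω c)) ∨
      (ahead c ∉ ω ∧ next ω c = rot c ∧ VStep (ahead c) c (next ω c)) := by
  by_cases h : ahead c ∈ ω
  · exact Or.inl ⟨h, next_open h, Or.inl ⟨rfl, next_open h⟩⟩
  · exact Or.inr ⟨h, next_closed h, Or.inl ⟨rfl, next_closed h⟩⟩

/-! ### Steps across the polygon -/

section

variable (hp : IsPolygon p) (hS : Encloses p S)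
include hp hS

/-- From the inside to the outside, counterclockwise: the edge to `p (i - 1)`. -/
theorem cross_in {i : ZMod n} {r : Fin 4} (h1 : face (p i) r ∈ S) (h2 : face (p i) (r + 1) ∉ S) :
    r + 1 = ri p i ∧ ahead (p i, r) = s(p i, p (i - 1)) := by
  have e1 : face (p i + dir (r + 1)) (r + 3) = face (p i) r := by
    have := face_right (p i) (r + 1)
    rw [fin4_2] at this
    rw [← this, fin4_6I]
  have e2 : face (p i + dir (r + 1)) (r + 3 - 1) = face (p i) (r + 1) := by
    have := face_left (p i) (r + 1)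
    rw [← this, fin4_7I]
  have h := (hS (p i + dir (r + 1)) (r + 3)).2 ⟨e1 ▸ h1, e2 ▸ h2⟩
  obtain ⟨j, hj1, hj2⟩ := h
  rw [fin4_6I, dir_add_two'] at hj2
  have hj : j + 1 = i := hp.2.1 hj2
  have hj' : j = i - 1 := by rw [← hj, add_sub_cancel_right]
  rw [hj'] at hj1
  refine ⟨ri_unique hp hj1, ?_⟩
  rw [ahead, ← hj1]

/-- From the outside to the inside, counterclockwise: the edge to `p (i + 1)`. -/
theorem cross_out {i : ZMod n} {r : Fin 4} (h1 : face (p i) r ∉ S) (h2 : face (p i) (r + 1) ∈ S) :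
    r + 1 = ro p i ∧ ahead (p i, r) = s(p i, p (i + 1)) := by
  have h3 : r + 1 = ro p i := (enc_iff hp hS).1 ⟨h2, by rw [fin4_2]; exact h1⟩
  exact ⟨h3, by rw [ahead, ro_spec hp i, ← h3]⟩

omit hp in
/-- An edge of the domain with an exterior face on its right is an edge of the polygon. -/
theorem edge_ext {c : Medial} (he : ahead c ∈ edges S) (hf : fc c ∉ S) :
    ∃ i, p i = c.1 ∧ p (i + 1) = c.1 + dir (c.2 + 1) := by
  have h1 := (mem_edges (c.2 + 1)).1 he
  rw [fin4_2] at h1
  have h2 : face c.1 (c.2 + 1) ∈ S := by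
    rcases h1 with h | h
    · exact h
    · exact absurd h hf
  exact (hS _ _).2 ⟨h2, by rw [fin4_2]; exact hf⟩

end

omit p k in
theorem verts_of_edge {v : ℤ × ℤ} {r : Fin 4} (h : s(v, v + dir r) ∈ edges S) :
    v ∈ verts S ∧ v + dir r ∈ verts S := by
  rcases (mem_edges r).1 h with h1 | h1
  · exact ⟨mem_verts.2 ⟨_, h1⟩, mem_verts.2 ⟨r + 1, by rw [face_left]; exact h1⟩⟩
  · exact ⟨mem_verts.2 ⟨_, h1⟩, mem_verts.2 ⟨r + 2, by rw [face_right]; exact h1⟩⟩

/-! ### Steps do not leave the inside -/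

theorem s_inn : S_inn := by
  intro n p S k hp hS h0 hk c c' hc hst hc1 hc2 hc3 hc4
  have hn : n ≠ 0 := by omega
  rcases hst with ⟨e, heW, hV⟩ | ⟨e, heS, hF⟩
  · -- around a vertex
    have hfst := hV.fstI
    refine ⟨hfst ▸ hc.1, fun hf' => Or.inr (Or.inr ?_)⟩
    obtain ⟨r, hr⟩ := mem_verts.1 hc.1
    obtain ⟨i, hi⟩ := exists_of_mixed hS hr (s := c'.2) (by rw [← hfst]; exact hf')
    obtain ⟨j, hj, rfl⟩ := H174.nat_of_zmod hn i
    by_cases hjk : j < k
    · exact ⟨j, hjk, by rw [hfst, hi]⟩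
    exfalso
    have hf : fc c ∈ S := by
      by_contra hf
      rcases hc.2 hf with h | h | ⟨i, hik, h⟩
      · exact hc1 h
      · exact hc2 h
      · have := cast_inj hn hj (by omega) (hp.2.1 (hi.trans h))
        omega
    obtain ⟨v, r⟩ := c
    obtain ⟨v', r'⟩ := c'
    simp only at hfst hi
    subst hfst
    subst hi
    rcases hV with ⟨h1, h2⟩ | ⟨h1, h2⟩
    · have h3 : r' = r + 1 := congrArg Prod.snd h2
      subst h3
      obtain ⟨h4, h5⟩ := cross_in hp hS hf hf'
      by_cases hjk' : j = k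
      · subst hjk'
        exact hc4 (by rw [ce, ← h4])
      · apply heW
        refine ⟨j - 1, by omega, by omega, ?_⟩
        rw [← h1, h5, Sym2.eq_swap]
        have e1 : ((j - 1 : ℕ) : ZMod n) = (j : ZMod n) - 1 := by
          rw [Nat.cast_sub (by omega), Nat.cast_one]
        have e2 : (((j - 1 : ℕ) : ZMod n)) + 1 = (j : ZMod n) := by
          rw [e1, sub_add_cancel]
        rw [e2, e1]
    · have h3 : r = r' + 1 := congrArg Prod.snd h2
      subst h3
      obtain ⟨h4, h5⟩ := cross_out hp hS hf' hf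
      by_cases hjn : j + 1 < n
      · apply heW
        refine ⟨j, by omega, hjn, ?_⟩
        rw [← h1, h5]
      · have e1 : ((j : ℕ) : ZMod n) = -1 := by
          have : j = n - 1 := by omega
          rw [this, Nat.cast_sub (by omega)]
          simp
        apply hc3
        rw [e1] at h4
        rw [cs, ← h4, fin4_2, e1]
  · -- along an edge
    have hffc := hF.fc
    have hv : c'.1 ∈ verts S := by
      rcases hF with ⟨h1, rfl⟩ | ⟨h1, rfl⟩
      · exact (verts_of_edge (v := c.1) (r := c.2 + 1) (by rw [← h1] at heS; exact heS)).2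
      · exact (verts_of_edge (v := c'.1) (r := c'.2 + 1) (by rw [← h1] at heS; exact heS)).1
    refine ⟨hv, fun hf' => Or.inr (Or.inr ?_)⟩
    have hf : fc c ∉ S := by rw [← hffc]; exact hf'
    rcases hc.2 hf with h | h | ⟨i, hik, h⟩
    · exact absurd h hc1
    · exact absurd h hc2
    rcases hF with ⟨h1, rfl⟩ | ⟨h1, rfl⟩
    · obtain ⟨j, hj1, hj2⟩ := edge_ext hS (h1 ▸ heS) hf
      have hj : j = (i : ZMod n) := hp.2.1 (hj1.trans h)
      subst hj
      by_cases hik' : i + 1 < k
      · refine ⟨i + 1, hik', ?_⟩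
        show c.1 + dir (c.2 + 1) = _
        rw [← hj2]
        push_cast
        rfl
      · exfalso
        apply hc4
        have e1 : ((i : ℕ) : ZMod n) + 1 = (k : ZMod n) := by
          have : k = i + 1 := by omega
          rw [this]
          push_cast
          rfl
        have e2 : ((k : ℕ) : ZMod n) - 1 = (i : ZMod n) := by rw [← e1, add_sub_cancel_right]
        have e3 : c.2 + 1 = ro p (i : ZMod n) := by
          apply ro_unique hp
          rw [hj2, hj1]
        apply Prod.ext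
        · show c.1 + dir (c.2 + 1) = _
          rw [← hj2, e1]
          rfl
        · show c.2 - 1 = ro p (((k : ℕ) : ZMod n) - 1) + 2
          rw [e2, ← e3, fin4_4]
    · obtain ⟨j, hj1, hj2⟩ := edge_ext hS (h1 ▸ heS) hf'
      have hj : j + 1 = (i : ZMod n) := hp.2.1 (hj2.trans h)
      rcases Nat.eq_zero_or_pos i with hi | hi
      · exfalso
        subst hi
        have e1 : j = -1 := by
          rw [Nat.cast_zero] at hj
          exact eq_neg_of_add_eq_zero_left hj
        apply hc3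
        have e3 : c'.2 + 1 = ro p j := by
          apply ro_unique hp
          rw [hj2, hj1]
        apply Prod.ext
        · show c'.1 = p (-1)
          rw [← e1, hj1]
        · show c'.2 = ro p (-1) - 1
          rw [← e1, ← e3, fin4_2]
      · refine ⟨i - 1, by omega, ?_⟩
        rw [Nat.cast_sub (by omega), Nat.cast_one, ← hj, add_sub_cancel_right, hj1]

end Vale.Agent.P167.Fjord
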