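import Vale.Agent.P167.Fjord.Piece

/-!
# P167, block FJORD, lattice half: joining points outside of the obstacles
-/

set_option linter.unusedVariables false

open Set Metric

namespace Vale.Agent.P167.Fjord

open Vale.Agent.P167.E6 Vale.Agent.P167.E2

variable {n : ℕ} {p : ZMod n → ℤ × ℤ} {S : Finset (ℤ × ℤ)} {k : ℕ} {A : Finset (Sym2 (ℤ × ℤ))}

/-- (g1) -/
theorem cpt_frontierI {δ : ℝ} (hδ : 0 < δ) {c : Medial} (hv : c.1 ∈ verts S) (hf : fc c ∉ S) :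
    (δ : ℂ) * cpt (3 / 8) c ∈ frontier (Om δ S) := by
  rw [(H327.isOpen_Om hδ S).frontier_eq]
  refine ⟨?_, fun h => cpt_not_O1 hf le_rfl (by norm_num) ((mem_Om hδ).1 h)⟩
  obtain ⟨r, hr⟩ := mem_verts.1 hv
  have hcl : (3 / 8 : ℝ) ∈ closure (Ico (0 : ℝ) (3 / 8)) := by
    rw [closure_Ico (by norm_num)]
    exact ⟨by norm_num, le_rfl⟩
  have hc : Continuous fun θ : ℝ => (δ : ℂ) * cpt θ c := by
    unfold cpt
    fun_prop
  exact map_mem_closure (f := fun θ : ℝ => (δ : ℂ) * cpt θ c) (t := Om δ S) hc hcl fun θ hθ =>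
    (mem_Om hδ).2 (EF_sub hr (cpt_EF hθ.1 hθ.2 c r))

/-- `Z` is covered by segments of the corner lattice, diagonal pieces and darts. -/
structure Obs (Z : Set ℂ) (E : Medial → Medial → Prop) (B P : Medial → Prop) : Prop where
  step : ∀ x y, E x y → ∃ e, VStep e x y ∨ FStep e x y
  cov : ∀ z ∈ Z, (∃ x y, E x y ∧ z ∈ Lseg x y) ∨ (∃ d, B d ∧ z ∈ Bt d) ∨
    ∃ d, P d ∧ z = cpt (1 / 4) d

variable {Z : Set ℂ} {E : Medial → Medial → Prop} {B P : Medial → Prop}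

/-- the general lemma -/
theorem Obs.join (h : Obs Z E B P) {a b : ℂ} (hO : segment ℝ a b ⊆ O1 (S : Set (ℤ × ℤ)))
    (hE : ∀ x y, E x y → ∀ z ∈ segment ℝ a b, z ∉ Lseg x y)
    (hB : ∀ d, B d → ∀ z ∈ segment ℝ a b, z ∉ Bt d)
    (hP : ∀ d, P d → ∀ z ∈ segment ℝ a b, z ≠ cpt (1 / 4) d) :
    JoinedIn (O1 (S : Set (ℤ × ℤ)) \ Z) a b := by
  apply JoinedIn.of_segment_subset
  intro z hz
  refine ⟨hO hz, fun hZ => ?_⟩
  rcases h.cov z hZ with ⟨x, y, h1, h2⟩ | ⟨d, h1, h2⟩ | ⟨d, h1, h2⟩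
  · exact hE x y h1 z hz h2
  · exact hB d h1 z hz h2
  · exact hP d h1 z hz h2

theorem face_of_edge {c : Medial} (he : ahead c ∈ edges S) :
    ∃ f ∈ S, f = face c.1 c.2 ∨ f = face c.1 (c.2 + 1) := by
  have h1 := (mem_edges (c.2 + 1)).1 he
  rw [fin4_2] at h1
  rcases h1 with h | h
  · exact ⟨_, h, Or.inr rfl⟩
  · exact ⟨_, h, Or.inl rfl⟩

/-- piece A -/
theorem Obs.jA (h : Obs Z E B P) {c : Medial} (hf : fc c ∈ S) (h1 : ¬ E c (adv c))
    (h2 : ¬ E (adv c) c) : JoinedIn (O1 (S : Set (ℤ × ℤ)) \ Z) (em c) (ctr (fc c)) := by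
  refine h.join (seg_O1 hf (em_EF c).1 (ctr_EF _)) ?_ (fun d _ z hz => pA_bt hz) ?_
  · intro x y hxy z hz hz'
    obtain ⟨e, he⟩ := h.step x y hxy
    rcases pA_on he hz hz' with ⟨rfl, rfl⟩ | ⟨rfl, rfl⟩
    exacts [h1 hxy, h2 hxy]
  · rintro d - z hz rfl
    exact pA_bt hz (bt_self d)

/-- piece B -/
theorem Obs.jB (h : Obs Z E B P) {c : Medial} (he : ahead c ∈ edges S) (h1 : ¬ E c (rot c))
    (h2 : ¬ E (rot c) c) : JoinedIn (O1 (S : Set (ℤ × ℤ)) \ Z) (pt c.1) (em c) := by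
  obtain ⟨f, hf, hf'⟩ := face_of_edge he
  refine h.join (seg_O1 hf ?_ ?_) ?_ (fun d _ z hz => pB_bt hz) ?_
  · rcases hf' with rfl | rfl <;> exact pt_EF _ _
  · rcases hf' with rfl | rfl
    exacts [(em_EF c).1, (em_EF c).2]
  · intro x y hxy z hz hz'
    obtain ⟨e, he⟩ := h.step x y hxy
    rcases pB_on he hz hz' with ⟨rfl, rfl⟩ | ⟨rfl, rfl⟩
    exacts [h1 hxy, h2 hxy]
  · rintro d - z hz rfl
    exact pB_bt hz (bt_self d)

/-- piece C -/
theorem Obs.jC (h : Obs Z E B P) {c : Medial} (he : ahead c ∈ edges S)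
    (h1 : ∀ x y, E x y → x ≠ c ∧ y ≠ c) (h2 : ¬ B c) (h3 : ¬ P c) :
    JoinedIn (O1 (S : Set (ℤ × ℤ)) \ Z) (cpt (1 / 4) c) (em c) := by
  obtain ⟨f, hf, hf'⟩ := face_of_edge he
  refine h.join (seg_O1 hf ?_ ?_) ?_ ?_ ?_
  · rcases hf' with rfl | rfl <;> exact cpt_EF (by norm_num) (by norm_num) _ _
  · rcases hf' with rfl | rfl
    exacts [(em_EF c).1, (em_EF c).2]
  · intro x y hxy z hz hz'
    obtain ⟨e, he⟩ := h.step x y hxy
    rcases pC_on he hz hz' with h4 | h4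
    exacts [(h1 x y hxy).1 h4, (h1 x y hxy).2 h4]
  · intro d hd z hz hz'
    rw [pC_bt hz hz'] at hd
    exact h2 hd
  · rintro d hd z hz rfl
    rw [pC_bt hz (bt_self d)] at hd
    exact h3 hd

/-- piece D -/
theorem Obs.jD (h : Obs Z E B P) {c : Medial} (he : ahead c ∈ edges S) (h1 : ¬ B c)
    (h2 : ¬ B (adv c)) :
    JoinedIn (O1 (S : Set (ℤ × ℤ)) \ Z) (cpt (5 / 16) c) (cpt (5 / 16) (adv c)) := by
  obtain ⟨f, hf, hf'⟩ := face_of_edge he
  refine h.join (seg_O1 hf ?_ ?_) ?_ ?_ ?_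
  · rcases hf' with rfl | rfl <;> exact cpt_EF (by norm_num) (by norm_num) _ _
  · rcases hf' with rfl | rfl
    exacts [(cpt_adv_EF (by norm_num) (by norm_num) c).1,
      (cpt_adv_EF (by norm_num) (by norm_num) c).2]
  · intro x y hxy z hz hz'
    obtain ⟨e, he⟩ := h.step x y hxy
    exact pD_on he hz hz'
  · intro d hd z hz hz'
    rcases pD_bt hz hz' with rfl | rfl
    exacts [h1 hd, h2 hd]
  · intro d hd z hz
    exact c14_ne (Or.inl hz)

/-- half of piece D -/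
theorem Obs.jD' (h : Obs Z E B P) {c : Medial} (he : ahead c ∈ edges S) (h2 : ¬ B (adv c)) :
    JoinedIn (O1 (S : Set (ℤ × ℤ)) \ Z) (qo c) (cpt (5 / 16) (adv c)) := by
  obtain ⟨f, hf, hf'⟩ := face_of_edge he
  refine h.join (seg_O1 hf ?_ ?_) ?_ ?_ ?_
  · rcases hf' with rfl | rfl
    exacts [(qo_EF c).1, (qo_EF c).2]
  · rcases hf' with rfl | rfl
    exacts [(cpt_adv_EF (by norm_num) (by norm_num) c).1,
      (cpt_adv_EF (by norm_num) (by norm_num) c).2]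
  · intro x y hxy z hz hz'
    obtain ⟨e, he⟩ := h.step x y hxy
    exact pD_on he (pD'_sub c hz) hz'
  · intro d hd z hz hz'
    rw [pD'_bt hz hz'] at hd
    exact h2 hd
  · intro d hd z hz
    exact c14_ne (Or.inl (pD'_sub c hz))

/-- piece G, part of A -/
theorem Obs.jG (h : Obs Z E B P) {c : Medial} (he : ahead c ∈ edges S) (h1 : ¬ E c (adv c))
    (h2 : ¬ E (adv c) c) : JoinedIn (O1 (S : Set (ℤ × ℤ)) \ Z) (em c) (qo c) := by
  obtain ⟨f, hf, hf'⟩ := face_of_edge he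
  refine h.join (seg_O1 hf ?_ ?_) ?_ (fun d _ z hz => pA_bt (pG_sub c hz)) ?_
  · rcases hf' with rfl | rfl
    exacts [(em_EF c).1, (em_EF c).2]
  · rcases hf' with rfl | rfl
    exacts [(qo_EF c).1, (qo_EF c).2]
  · intro x y hxy z hz hz'
    obtain ⟨e, he⟩ := h.step x y hxy
    rcases pA_on he (pG_sub c hz) hz' with ⟨rfl, rfl⟩ | ⟨rfl, rfl⟩
    exacts [h1 hxy, h2 hxy]
  · rintro d - z hz rfl
    exact pA_bt (pG_sub c hz) (bt_self d)

/-- piece E -/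
theorem Obs.jE (h : Obs Z E B P) {c : Medial} (hv : c.1 ∈ verts S)
    (h1 : ∀ x y, E x y → ¬ FStep (ahead c) x y) (h2 : ¬ B c) (h3 : ¬ B (rot c)) :
    JoinedIn (O1 (S : Set (ℤ × ℤ)) \ Z) (cpt (5 / 16) c) (cpt (5 / 16) (rot c)) := by
  obtain ⟨r, hr⟩ := mem_verts.1 hv
  refine h.join (seg_O1 hr (cpt_EF (by norm_num) (by norm_num) _ _)
    (cpt_EF (by norm_num) (by norm_num) (rot c) _)) ?_ ?_ ?_
  · intro x y hxy z hz hz'
    obtain ⟨e, he⟩ := h.step x y hxy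
    exact h1 x y hxy (pE_on he hz hz')
  · intro d hd z hz hz'
    rcases pE_bt hz hz' with rfl | rfl
    exacts [h2 hd, h3 hd]
  · intro d hd z hz
    exact c14_ne (Or.inr hz)

/-- piece F -/
theorem Obs.jF (h : Obs Z E B P) {c : Medial} (hv : c.1 ∈ verts S)
    (h1 : ∀ x y, E x y → x ≠ c ∧ y ≠ c) (h2 : ¬ B c) (h3 : ¬ P c) :
    JoinedIn (O1 (S : Set (ℤ × ℤ)) \ Z) (pt c.1) (cpt (5 / 16) c) ∧
    JoinedIn (O1 (S : Set (ℤ × ℤ)) \ Z) (cpt (1 / 4) c) (cpt (5 / 16) c) := by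
  obtain ⟨r, hr⟩ := mem_verts.1 hv
  have hE : ∀ x y, E x y → ∀ z ∈ segment ℝ (pt c.1) (cpt (5 / 16) c), z ∉ Lseg x y := by
    intro x y hxy z hz hz'
    obtain ⟨e, he⟩ := h.step x y hxy
    rcases pF_on he hz hz' with h4 | h4
    exacts [(h1 x y hxy).1 h4, (h1 x y hxy).2 h4]
  have hB : ∀ d, B d → ∀ z ∈ segment ℝ (pt c.1) (cpt (5 / 16) c), z ∉ Bt d := by
    intro d hd z hz hz'
    rw [pF_bt hz hz'] at hd
    exact h2 hd
  have hP : ∀ d, P d → ∀ z ∈ segment ℝ (pt c.1) (cpt (5 / 16) c), z ≠ cpt (1 / 4) d := by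
    rintro d hd z hz rfl
    rw [pF_bt hz (bt_self d)] at hd
    exact h3 hd
  have e1 := cpt_EF (θ := 5 / 16) (by norm_num) (by norm_num) c r
  have e2 := cpt_EF (θ := 1 / 4) (by norm_num) (by norm_num) c r
  constructor
  · exact h.join (seg_O1 hr (pt_EF _ _) e1) hE hB hP
  · exact h.join (seg_O1 hr e2 e1) (fun x y a z hz => hE x y a z (pF'_sub c hz))
      (fun d a z hz => hB d a z (pF'_sub c hz)) (fun d a z hz => hP d a z (pF'_sub c hz))

/-- a step of the corner lattice -/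
theorem Obs.jL (h : Obs Z E B P) {x y : Medial} {e : Sym2 (ℤ × ℤ)} (hv : x.1 ∈ verts S)
    (hs : VStep e x y ∨ (e ∈ edges S ∧ FStep e x y))
    (h1 : ∀ a b, E a b → a ≠ x ∧ b ≠ x ∧ a ≠ y ∧ b ≠ y) (h2 : ¬ B x ∧ ¬ B y)
    (h3 : ¬ P x ∧ ¬ P y) :
    JoinedIn (O1 (S : Set (ℤ × ℤ)) \ Z) (cpt (1 / 4) x) (cpt (1 / 4) y) := by
  have hs' : VStep e x y ∨ FStep e x y := hs.imp id fun h => h.2
  have hO : segment ℝ (cpt (1 / 4) x) (cpt (1 / 4) y) ⊆ O1 (S : Set (ℤ × ℤ)) := by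
    rcases hs with hs | ⟨he, hs⟩
    · obtain ⟨r, hr⟩ := mem_verts.1 hv
      have hfst := hs.fstI
      refine seg_O1 hr (cpt_EF (by norm_num) (by norm_num) x r) ?_
      have := cpt_EF (θ := 1 / 4) (by norm_num) (by norm_num) y r
      rwa [hfst] at this
    · rcases hs with ⟨h4, rfl⟩ | ⟨h4, rfl⟩
      · obtain ⟨f, hf, hf'⟩ := face_of_edge (c := x) (h4 ▸ he)
        refine seg_O1 hf ?_ ?_
        · rcases hf' with rfl | rfl <;> exact cpt_EF (by norm_num) (by norm_num) _ _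
        · rcases hf' with rfl | rfl
          exacts [(cpt_adv_EF (by norm_num) (by norm_num) x).1,
            (cpt_adv_EF (by norm_num) (by norm_num) x).2]
      · obtain ⟨f, hf, hf'⟩ := face_of_edge (c := y) (h4 ▸ he)
        refine seg_O1 hf ?_ ?_
        · rcases hf' with rfl | rfl
          exacts [(cpt_adv_EF (by norm_num) (by norm_num) y).1,
            (cpt_adv_EF (by norm_num) (by norm_num) y).2]
        · rcases hf' with rfl | rfl <;> exact cpt_EF (by norm_num) (by norm_num) _ _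
  refine h.join hO ?_ ?_ ?_
  · intro a b hab z hz hz'
    obtain ⟨e', he'⟩ := h.step a b hab
    have := h1 a b hab
    rcases on_on hs' he' hz hz' with h4 | h4 | h4 | h4
    · exact this.1 h4.symm
    · exact this.2.1 h4.symm
    · exact this.2.2.1 h4.symm
    · exact this.2.2.2 h4.symm
  · intro d hd z hz hz'
    rcases bt_on hs' hz hz' with rfl | rfl
    exacts [h2.1 hd, h2.2 hd]
  · rintro d hd z hz rfl
    rcases bt_on hs' hz (bt_self d) with rfl | rfl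
    exacts [h3.1 hd, h3.2 hd]

end Vale.Agent.P167.Fjord
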