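import Vale.Agent.P167.Fjord.Defs2
import Vale.Agent.P167.H161.Main

/-!
# P167, block FJORD (NF): the number of pieces of the interface is tight
-/

namespace Vale.Agent.P167.Fjord

open Set Filter Topology
open Vale.Agent.P167.E6 Vale.Agent.P167.E2 Vale.Agent.P167.H161
open Vale.Agent.P153.R2.Final (dom circ toC)

/-- The enclosed faces are in the bounding box of the polygon. -/
theorem face_bound {n : ℕ} {p : ZMod n → ℤ × ℤ} {S : Finset (ℤ × ℤ)} (hS : Encloses p S)
    {f : ℤ × ℤ} (hf : f ∈ S) :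
    ∃ i j : ZMod n, (p i).2 = f.2 ∧ f.1 + 1 ≤ (p i).1 ∧ (p j).1 ≤ f.1 := by
  classical
  -- the last face to the right
  have h1 : ∃ t : ℕ, (f.1 + (t : ℤ), f.2) ∈ S ∧ (f.1 + (t : ℤ) + 1, f.2) ∉ S := by
    by_contra hc
    push Not at hc
    have h2 : ∀ t : ℕ, (f.1 + (t : ℤ), f.2) ∈ S := by
      intro t
      induction t with
      | zero => simpa using hf
      | succ t ih =>
        have := hc t ih
        push_cast
        rwa [← add_assoc]
    refine Set.infinite_of_injective_forall_mem (f := fun t : ℕ => (f.1 + (t : ℤ), f.2)) ?_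
      (fun t => h2 t) S.finite_toSet
    intro a b hab
    simp only [Prod.mk.injEq, add_right_inj, Nat.cast_inj, and_true] at hab
    exact hab
  have h1' : ∃ t : ℕ, (f.1 - (t : ℤ), f.2) ∈ S ∧ (f.1 - (t : ℤ) - 1, f.2) ∉ S := by
    by_contra hc
    push Not at hc
    have h2 : ∀ t : ℕ, (f.1 - (t : ℤ), f.2) ∈ S := by
      intro t
      induction t with
      | zero => simpa using hf
      | succ t ih =>
        have := hc t ih
        push_cast
        rwa [← sub_sub]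
    refine Set.infinite_of_injective_forall_mem (f := fun t : ℕ => (f.1 - (t : ℤ), f.2)) ?_
      (fun t => h2 t) S.finite_toSet
    intro a b hab
    simp only [Prod.mk.injEq, sub_right_inj, Nat.cast_inj, and_true] at hab
    exact hab
  obtain ⟨t, ht1, ht2⟩ := h1
  obtain ⟨u, hu1, hu2⟩ := h1'
  obtain ⟨i, hi, -⟩ := (hS (f.1 + (t : ℤ) + 1, f.2) 1).2 (by
    have e1 : (1 : Fin 4) - 1 = 0 := rfl
    rw [e1, face1, face0]
    refine ⟨?_, ht2⟩
    have : f.1 + (t : ℤ) + 1 - 1 = f.1 + t := by ring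
    simp only [this]
    exact ht1)
  obtain ⟨j, hj, -⟩ := (hS (f.1 - (u : ℤ), f.2 + 1) 3).2 (by
    have e1 : (3 : Fin 4) - 1 = 2 := rfl
    rw [e1, face3, face2]
    have : f.2 + 1 - 1 = f.2 := by ring
    simp only [this]
    exact ⟨hu1, hu2⟩)
  refine ⟨i, j, ?_, ?_, ?_⟩
  · rw [hi]
  · rw [hi]
    simp only
    omega
  · rw [hj]
    simp only
    omega

/-- The interfaces stay in a bounded region. -/
theorem exists_bound {Φ : (ℝ × ℝ) ≃ₜ (ℝ × ℝ)} {δ : ℕ → ℝ} {N k : ℕ → ℕ}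
    {p : ∀ n, ZMod (N n) → ℤ × ℤ} {S : ℕ → Finset (ℤ × ℤ)} (h : Approx Φ δ N k p S) :
    ∃ B : ℝ, 0 < B ∧ ∀ᶠ n in atTop, ∀ A ⊆ edges (S n), ∀ j,
      ‖mid (δ n) (run (p n) (k n) A j)‖ ≤ B := by
  obtain ⟨B, hB⟩ : ∃ B : ℝ, ∀ t ∈ Icc (0 : ℝ) (2 * Real.pi), ‖toC (Φ (circ t))‖ ≤ B :=
    isCompact_Icc.exists_bound_of_continuousOn (continuous_bd Φ).continuousOn
  obtain ⟨h1, h2, h3⟩ := h
  have hB0 : 0 ≤ B := (norm_nonneg _).trans (hB 0 ⟨le_rfl, by positivity⟩)
  refine ⟨2 * (B + 3), by positivity, ?_⟩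
  filter_upwards [h3 1 one_pos, h2.eventually (gt_mem_nhds (show (0 : ℝ) < 1 / 2 by norm_num))]
    with n hn hδ1
  obtain ⟨s, hs, hs0, -, hsN, hd⟩ := hn
  obtain ⟨hδ, hk0, hkN, hp, hS⟩ := h1 n
  have hN : N n ≠ 0 := by omega
  have : NeZero (N n) := ⟨hN⟩
  -- the polygon
  have hpB : ∀ i : ZMod (N n), ‖(δ n : ℂ) * pt (p n i)‖ ≤ B + 1 := by
    intro i
    have hi : i.val < N n := ZMod.val_lt i
    have hm : s i.val ∈ Icc (s i.val) (s (i.val + 1)) := ⟨le_rfl, hs (Nat.le_succ _)⟩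
    have h4 := hd i.val hi _ hm
    have h5 := hB (s i.val) ⟨by rw [← hs0]; exact hs (Nat.zero_le _),
      by rw [← hsN]; exact hs hi.le⟩
    rw [ZMod.natCast_zmod_val, dist_eq_norm] at h4
    have h6 := norm_sub_norm_le ((δ n : ℂ) * pt (p n i)) (toC (Φ (circ (s i.val))))
    linarith
  have hcoord : ∀ i : ZMod (N n), |δ n * (p n i).1| ≤ B + 1 ∧ |δ n * (p n i).2| ≤ B + 1 := by
    intro i
    have e1 := Complex.abs_re_le_norm ((δ n : ℂ) * pt (p n i))
    have e2 := Complex.abs_im_le_norm ((δ n : ℂ) * pt (p n i))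
    have e3 : ((δ n : ℂ) * pt (p n i)).re = δ n * (p n i).1 := by simp [pt]
    have e4 : ((δ n : ℂ) * pt (p n i)).im = δ n * (p n i).2 := by simp [pt]
    rw [e3] at e1
    rw [e4] at e2
    exact ⟨e1.trans (hpB i), e2.trans (hpB i)⟩
  -- the faces
  have hface : ∀ f ∈ S n, |δ n * f.1| ≤ B + 1 ∧ |δ n * f.2| ≤ B + 1 := by
    intro f hf
    obtain ⟨i, j, h4, h5, h6⟩ := face_bound hS hf
    obtain ⟨a1, a2⟩ := hcoord i
    obtain ⟨a3, a4⟩ := hcoord j
    rw [h4] at a2
    refine ⟨?_, a2⟩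
    have b1 : (f.1 : ℝ) ≤ (p n i).1 := by
      have : f.1 ≤ (p n i).1 := by omega
      exact_mod_cast this
    have b2 : ((p n j).1 : ℝ) ≤ f.1 := by exact_mod_cast h6
    rw [abs_le] at a1 a3 ⊢
    constructor
    · nlinarith
    · nlinarith
  -- the vertices
  intro A hA j
  obtain ⟨r, hr⟩ := mem_verts.1 (run_mem hp hS hA j (k := k n))
  obtain ⟨a1, a2⟩ := hface _ hr
  have hv : |((run (p n) (k n) A j).1.1 : ℝ) - (face (run (p n) (k n) A j).1 r).1| ≤ 1 ∧
      |((run (p n) (k n) A j).1.2 : ℝ) - (face (run (p n) (k n) A j).1 r).2| ≤ 1 := by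
    rcases H192.fin4_cases r with rfl | rfl | rfl | rfl
    · rw [face0]; simp
    · rw [face1]; push_cast; simp
    · rw [face2]; push_cast; simp
    · rw [face3]; push_cast; simp
  have hd1 : ∀ r : Fin 4, |((dir r).1 : ℝ)| ≤ 1 ∧ |((dir r).2 : ℝ)| ≤ 1 := by
    intro r
    rcases H192.dir_cases r with h | h | h | h <;> rw [h] <;> simp
  obtain ⟨d1, d2⟩ := hd1 ((run (p n) (k n) A j).2 + 1)
  obtain ⟨v1, v2⟩ := hv
  refine (Complex.norm_le_abs_re_add_abs_im _).trans ?_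
  have e1 : (mid (δ n) (run (p n) (k n) A j)).re = δ n * ((run (p n) (k n) A j).1.1 +
      ((dir ((run (p n) (k n) A j).2 + 1)).1 : ℝ) / 2) := by
    unfold mid
    simp [pt]
    ring
  have e2 : (mid (δ n) (run (p n) (k n) A j)).im = δ n * ((run (p n) (k n) A j).1.2 +
      ((dir ((run (p n) (k n) A j).2 + 1)).2 : ℝ) / 2) := by
    unfold mid
    simp [pt]
    ring
  rw [e1, e2]
  rw [abs_le] at a1 a2 v1 v2 d1 d2
  have g1 : |δ n * ((run (p n) (k n) A j).1.1 +
      ((dir ((run (p n) (k n) A j).2 + 1)).1 : ℝ) / 2)| ≤ B + 2 := by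
    rw [abs_le]
    constructor <;> nlinarith
  have g2 : |δ n * ((run (p n) (k n) A j).1.2 +
      ((dir ((run (p n) (k n) A j).2 + 1)).2 : ℝ) / 2)| ≤ B + 2 := by
    rw [abs_le]
    constructor <;> nlinarith
  linarith

open Classical in
/-- **S_pieces.** -/
theorem s_pieces : S_pieces := by
  intro Φ δ N k p S h r hr q hq
  obtain ⟨B, hB0, hB⟩ := exists_bound h
  obtain ⟨Zs, -, hZf, hZc⟩ := (isCompact_closedBall (0 : ℂ) B).finite_cover_balls
    (show 0 < r / 8 by positivity)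
  set Z : Finset ℂ := hZf.toFinset with hZ
  have hZ1 : ∀ u : ℂ, ‖u‖ ≤ B → ∃ z ∈ Z, dist u z ≤ r / 8 := by
    intro u hu
    have := hZc (mem_closedBall_zero_iff.2 hu)
    simp only [mem_iUnion, Metric.mem_ball] at this
    obtain ⟨z, hz, hz'⟩ := this
    exact ⟨z, hZf.mem_toFinset.2 hz, hz'.le⟩
  have hZpos : 0 < Z.card := by
    obtain ⟨z, hz, -⟩ := hZ1 0 (by rw [norm_zero]; exact hB0.le)
    exact Finset.card_pos.2 ⟨z, hz⟩
  have hc : (0 : ℝ) < Z.card := by exact_mod_cast hZpos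
  choose m hm using fun z : ℂ => scross_mean h z (r := r / 8) (r' := 7 * r / 8) (by positivity)
    (by linarith) (e := q / Z.card) (by positivity)
  refine ⟨Z.card * (∑ z ∈ Z, m z), ?_⟩
  have hall : ∀ᶠ i in atTop, ∀ z ∈ Z, mean (S i) (fun A =>
      if SCross (fun j => mid (δ i) (run (p i) (k i) A j)) (len (p i) (k i) A) z (r / 8)
        (7 * r / 8) (m z) then 1 else 0) ≤ q / Z.card :=
    (Filter.eventually_all_finset Z).2 fun z _ => hm z
  filter_upwards [hall, hB] with i hi1 hi2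
  obtain ⟨hδ, hk0, hkN, hp, hS⟩ := h.1 i
  have key : ∀ A ⊆ edges (S i), (if Z.card * (∑ z ∈ Z, m z) <
        pc (fun j => mid (δ i) (run (p i) (k i) A j)) r (len (p i) (k i) A - 1) then (1 : ℝ)
        else 0) ≤ ∑ z ∈ Z, if SCross (fun j => mid (δ i) (run (p i) (k i) A j))
          (len (p i) (k i) A) z (r / 8) (7 * r / 8) (m z) then (1 : ℝ) else 0 := by
    intro A hA
    split_ifs with hc
    · obtain ⟨z, hz, t, ht, hj⟩ := excursions (Z := Z) (fun j _ => hZ1 _ (hi2 A hA j)) hc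
      have hpos := len_pos hp hS hkN hA
      have h7 : SCross (fun j => mid (δ i) (run (p i) (k i) A j)) (len (p i) (k i) A) z (r / 8)
          (7 * r / 8) (m z) := by
        refine ⟨t, ht, fun j hj' => ?_⟩
        have h8 : m z ≤ ∑ z ∈ Z, m z := Finset.single_le_sum (f := m) (fun _ _ => Nat.zero_le _) hz
        obtain ⟨g1, g2, g3⟩ := hj j (by omega)
        exact ⟨g1, g2, by omega⟩
      calc (1 : ℝ) = if SCross (fun j => mid (δ i) (run (p i) (k i) A j))
            (len (p i) (k i) A) z (r / 8) (7 * r / 8) (m z) then (1 : ℝ) else 0 := by rw [if_pos h7]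
        _ ≤ _ := Finset.single_le_sum (f := fun z => if SCross
            (fun j => mid (δ i) (run (p i) (k i) A j))
            (len (p i) (k i) A) z (r / 8) (7 * r / 8) (m z) then (1 : ℝ) else 0)
            (fun z _ => by
              show (0 : ℝ) ≤ if SCross (fun j => mid (δ i) (run (p i) (k i) A j))
                (len (p i) (k i) A) z (r / 8) (7 * r / 8) (m z) then (1 : ℝ) else 0
              split_ifs <;> norm_num) hz
    · exact Finset.sum_nonneg fun z _ => by split_ifs <;> norm_num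
  refine (mean_mono key).trans ?_
  rw [mean_sum]
  refine (Finset.sum_le_card_nsmul _ _ _ fun z hz => hi1 z hz).trans ?_
  rw [nsmul_eq_mul, mul_div_cancel₀ _ hc.ne']

end Vale.Agent.P167.Fjord
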