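import Vale.Agent.P167.Fjord.Bridge
import Vale.Agent.P167.Fjord.Gate
import Vale.Agent.P167.Fjord.Farm
import Vale.Agent.P167.Fjord.Tight
import Vale.Agent.P167.H161.Law
import Vale.Agent.P167.H411.Inputs6

/-!
# P167, block FJORD: no fjords, `I_nf6`, from the two lattice inputs `S_left` and `S_right`
-/

open MeasureTheory Filter Topology Set Metric
open scoped ENNReal

namespace Vale.Agent.P167.Fjord

open Vale.Agent.P167.E6 Vale.Agent.P167.E2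
open Vale.Agent.P167.SLE (Cf law)
open Vale.Agent.P167.S6 (FJR ctrl_Om isCompact_frontier_Om)
open Vale.Agent.P167.H327 (frontier_Om jcurve_QF QF aM_mem eventually_two)

theorem law_le {S : Finset (ℤ × ℤ)} {Q : Finset (Sym2 (ℤ × ℤ)) → Prop} [DecidablePred Q] {x : ℝ}
    (h : mean S (fun A => if Q A then 1 else 0) ≤ x) :
    law S {ω | Q ω.1} ≤ ENNReal.ofReal x := by
  rw [H161.law_eq]
  refine ENNReal.ofReal_le_ofReal ((H161.mean_mono fun A hA => ?_).trans h)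
  rw [dif_pos (Finset.mem_powerset.2 hA)]
  by_cases hQ : Q A
  · rw [if_pos hQ, if_pos hQ]
  · rw [if_neg hQ, if_neg hQ]

/-- `S_gate` with the full time interval. -/
theorem gate1 (Φ : (ℝ × ℝ) ≃ₜ (ℝ × ℝ)) (δ : ℕ → ℝ) (N k : ℕ → ℕ)
    (p : ∀ n, ZMod (N n) → ℤ × ℤ) (S : ℕ → Finset (ℤ × ℤ)) (hA : Approx Φ δ N k p S)
    {e r₁ R : ℝ} (hR : 0 < R) (hRe : 16 * R ≤ e) (hRr : 16 * R ≤ r₁) : ∃ η > 0, η ≤ R ∧
      ∀ ε > 0, ∃ ρ > 0, ∀ᶠ i in atTop, ∀ A ⊆ edges (S i),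
        FJR (Om (δ i) (S i)) (bM (p i) (k i) (δ i)) (Xc (p i) (k i) (δ i) A) 1 ρ e r₁ →
        Gated (δ i) (p i) (k i) (S i) A R η ε := by
  obtain ⟨η₀, hη₀, hctrl⟩ := ctrl_Om hA (half_pos hR)
  refine ⟨min (η₀ / 2) (R / 2), lt_min (by positivity) (by positivity),
    (min_le_right _ _).trans (by linarith), ?_⟩
  intro ε hε
  set η := min (η₀ / 2) (R / 2) with hη
  have hηpos : 0 < η := lt_min (by positivity) (by positivity)
  have hη1 : η ≤ η₀ / 2 := min_le_left _ _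
  have hη2 : η ≤ R / 2 := min_le_right _ _
  set ρ := min ε η / 16 with hρ
  have hρpos : 0 < ρ := by positivity
  have hρ1 : 16 * ρ ≤ ε := by
    rw [hρ]
    linarith [min_le_left ε η]
  have hρ2 : 16 * ρ ≤ η := by
    rw [hρ]
    linarith [min_le_right ε η]
  refine ⟨ρ, hρpos, ?_⟩
  have hδ : ∀ᶠ n in atTop, δ n < ρ / 16 := hA.2.1.eventually (gt_mem_nhds (by positivity))
  filter_upwards [hctrl, hδ, eventually_two hA] with i hi hδi hk A hAS hfj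
  obtain ⟨hδ0, hk0, hkN, hp, hS⟩ := hA.1 i
  exact gated_of_fjr hp hS hk hAS hδ0 hR hRe hRr hηpos (by linarith) hρpos hρ1 hρ2
    (by linarith) (hi.mono (by linarith) le_rfl) hfj

/-- The choice of `ε`. -/
theorem exists_eps {C α : ℝ} (hα : 0 < α) {R η q : ℝ} (hη : 0 < η) (hq : 0 < q) (M : ℝ) :
    ∃ ε > 0, 64 * ε ≤ η ∧ M * (C * (40 * ε / R) ^ α) ≤ q := by
  have h1 : Tendsto (fun ε : ℝ => 40 * ε / R) (𝓝[>] 0) (𝓝 0) := by
    have : Tendsto (fun ε : ℝ => 40 * ε / R) (𝓝 0) (𝓝 (40 * 0 / R)) :=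
      Continuous.tendsto (by fun_prop) 0
    rw [mul_zero, zero_div] at this
    exact this.mono_left nhdsWithin_le_nhds
  have h2 : Tendsto (fun ε : ℝ => M * (C * (40 * ε / R) ^ α)) (𝓝[>] 0) (𝓝 0) := by
    have h3 := ((h1.rpow_const (p := α) (Or.inr hα.le)).const_mul C).const_mul M
    rw [Real.zero_rpow hα.ne', mul_zero, mul_zero] at h3
    exact h3
  have h4 : ∀ᶠ ε : ℝ in 𝓝[>] 0, ε < η / 64 :=
    (eventually_lt_nhds (show (0 : ℝ) < η / 64 by positivity)).filter_mono nhdsWithin_le_nhds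
  obtain ⟨ε, ⟨h5, h6⟩, h7⟩ := ((h2.eventually (gt_mem_nhds hq)).and h4 |>.and
    self_mem_nhdsWithin).exists
  exact ⟨ε, h7, by linarith, h5.le⟩

open Classical in
/-- The estimate for one domain. -/
theorem nf_level (hL : S_left) (hR : S_right) {n : ℕ} {p : ZMod n → ℤ × ℤ} {k : ℕ}
    {S : Finset (ℤ × ℤ)} {δ : ℝ} (hδ0 : 0 < δ) (hp : IsPolygon p) (hS : Encloses p S)
    (hk0 : 0 < k) (hk1 : k + 1 < n) {e r₁ ρ R η ε : ℝ} (hη : 0 < η) (hηR : η ≤ R)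
    (hεη : 64 * ε ≤ η) (hδε : δ ≤ ε)
    (hg : ∀ A ⊆ edges S, FJR (Om δ S) (bM p k δ) (Xc p k δ A) 1 ρ e r₁ → Gated δ p k S A R η ε)
    {r' R' : ℤ} (hr' : 6 * ε / δ + 3 ≤ r') (hR' : (R' : ℝ) ≤ 3 / 2 * R / (2 * δ) - 1 / 2)
    {K : ℕ} {x y : ℝ≥0∞}
    (hx : law S {ω | K < pcA p k δ (η / 16) ω.1 (len p k ω.1 - 1)} ≤ x)
    (hb : ∀ Q : Finset (Sym2 (ℤ × ℤ)) → ℕ → Prop,
      (∀ A A' : Finset (Sym2 (ℤ × ℤ)), ∀ j, (∀ l ≤ j, run p k A l = run p k A' l) →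
        Q A j → Q A' j) →
      law S {ω | ∃ τ, Q ω.1 τ ∧ (∀ j < τ, ¬ Q ω.1 j) ∧ FArm p k S ω.1 τ r' R'} ≤ y) :
    law S {ω | FJR (Om δ S) (bM p k δ) (Xc p k δ ω.1) 1 ρ e r₁} ≤
      x + ((K + 1 : ℕ) : ℝ≥0∞) * (((K + 2 : ℕ) : ℝ≥0∞) * y) := by
  obtain ⟨B1, hB1⟩ : ∃ B1 : ℕ → ℕ → Set (Cf S), B1 = fun j l =>
      {ω : Cf S | ∃ τ, QL p k S δ (η / 16) ε j l ω.1 τ ∧
        (∀ b < τ, ¬ QL p k S δ (η / 16) ε j l ω.1 b) ∧ FArm p k S ω.1 τ r' R'} := ⟨_, rfl⟩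
  obtain ⟨B2, hB2⟩ : ∃ B2 : ℕ → Set (Cf S), B2 = fun l =>
      {ω : Cf S | ∃ τ, QW p k S δ (η / 16) ε l ω.1 τ ∧
        (∀ b < τ, ¬ QW p k S δ (η / 16) ε l ω.1 b) ∧ FArm p k S ω.1 τ r' R'} := ⟨_, rfl⟩
  have hb1 : ∀ j l, law S (B1 j l) ≤ y := by
    intro j l
    rw [hB1]
    exact hb (QL p k S δ (η / 16) ε j l) fun A A' b h hQ => hQ.congr h
  have hb2 : ∀ l, law S (B2 l) ≤ y := by
    intro l
    rw [hB2]
    exact hb (QW p k S δ (η / 16) ε l) fun A A' b h hQ => hQ.congr h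
  have hfr : frontier (Om δ S) = range (QF p δ) := frontier_Om hδ0 hp hS
  have hpre : IsPreconnected (frontier (Om δ S)) := by
    rw [hfr]
    exact isPreconnected_range (jcurve_QF hδ0 hp hS).cont
  have hsub : {ω : Cf S | FJR (Om δ S) (bM p k δ) (Xc p k δ ω.1) 1 ρ e r₁} ⊆
      {ω | K < pcA p k δ (η / 16) ω.1 (len p k ω.1 - 1)} ∪
      ⋃ l ∈ Finset.range (K + 1), ((⋃ j ∈ Finset.range (K + 1), B1 j l) ∪ B2 l) := by
    intro ω hω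
    by_cases hpc : K < pcA p k δ (η / 16) ω.1 (len p k ω.1 - 1)
    · exact Or.inl hpc
    · right
      push Not at hpc
      have hAω : ω.1 ⊆ edges S := Finset.mem_powerset.1 ω.2
      have hG := hg ω.1 hAω hω
      obtain ⟨l, hl, h5⟩ := bridge hL hR hδ0 hp hS hk0 hk1 hAω
        (fun c hc hc' => cpt_frontierG hδ0 hc hc') hpre (isCompact_frontier_Om hδ0)
        (aM_mem hδ0 hp hS) hG hηR (show 0 < η / 16 by positivity) (by linarith) (by linarith)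
        hδε hr' hR'
      simp only [mem_iUnion, mem_union, Finset.mem_range]
      refine ⟨l, by omega, ?_⟩
      rcases h5 with ⟨j, hj, h5⟩ | h5
      · exact Or.inl ⟨j, by omega, by rw [hB1]; exact h5⟩
      · exact Or.inr (by rw [hB2]; exact h5)
  have hterm : ∀ l, law S ((⋃ j ∈ Finset.range (K + 1), B1 j l) ∪ B2 l) ≤
      ((K + 2 : ℕ) : ℝ≥0∞) * y := by
    intro l
    refine (measure_union_le _ _).trans ?_
    have h5 : law S (⋃ j ∈ Finset.range (K + 1), B1 j l) ≤ ((K + 1 : ℕ) : ℝ≥0∞) * y := by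
      refine (measure_biUnion_finset_le _ _).trans ?_
      refine (Finset.sum_le_sum fun j _ => hb1 j l).trans ?_
      rw [Finset.sum_const, Finset.card_range, nsmul_eq_mul]
    refine (add_le_add h5 (hb2 l)).trans (le_of_eq ?_)
    push_cast
    ring
  refine (measure_mono hsub).trans ((measure_union_le _ _).trans (add_le_add hx ?_))
  refine (measure_biUnion_finset_le _ _).trans ?_
  refine (Finset.sum_le_sum fun l _ => hterm l).trans ?_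
  rw [Finset.sum_const, Finset.card_range, nsmul_eq_mul]

/-- The integer radii. -/
theorem radii {δ ε R : ℝ} (hδ0 : 0 < δ) (hδε : δ < ε) (hεR : 64 * ε ≤ R) :
    6 * ε / δ + 3 ≤ ((⌈6 * ε / δ⌉ + 3 : ℤ) : ℝ) ∧
    ((⌊R / (2 * δ)⌋ : ℤ) : ℝ) ≤ 3 / 2 * R / (2 * δ) - 1 / 2 ∧
    1 ≤ ⌈6 * ε / δ⌉ + 3 ∧ ⌈6 * ε / δ⌉ + 3 ≤ ⌊R / (2 * δ)⌋ ∧
    0 ≤ ((⌈6 * ε / δ⌉ + 3 : ℤ) : ℝ) / (⌊R / (2 * δ)⌋ : ℤ) ∧
    ((⌈6 * ε / δ⌉ + 3 : ℤ) : ℝ) / (⌊R / (2 * δ)⌋ : ℤ) ≤ 40 * ε / R := by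
  have hε : 0 < ε := hδ0.trans hδε
  have hR : 0 < R := by linarith
  have b1 := Int.le_ceil (6 * ε / δ)
  have b2 := Int.ceil_lt_add_one (6 * ε / δ)
  have b3 := Int.floor_le (R / (2 * δ))
  have b4 := Int.lt_floor_add_one (R / (2 * δ))
  have b5 : (1 : ℝ) ≤ ε / δ := (one_le_div hδ0).2 hδε.le
  have b6 : (4 : ℝ) ≤ R / δ := by rw [le_div_iff₀ hδ0]; linarith
  have e1 : 6 * ε / δ = 6 * (ε / δ) := by ring
  have e2 : R / (2 * δ) = R / δ / 2 := by field_simp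
  have e3 : 3 / 2 * R / (2 * δ) = 3 / 4 * (R / δ) := by field_simp; norm_num
  have c0 : (0 : ℤ) ≤ ⌈6 * ε / δ⌉ := Int.ceil_nonneg (by positivity)
  have c2 : ((⌈6 * ε / δ⌉ + 3 : ℤ) : ℝ) ≤ 10 * (ε / δ) := by
    push_cast
    linarith
  have c4 : R / δ / 4 ≤ ((⌊R / (2 * δ)⌋ : ℤ) : ℝ) := by linarith
  have hRδ : 0 < R / δ := by positivity
  have c0' : (0 : ℝ) ≤ ((⌈6 * ε / δ⌉ + 3 : ℤ) : ℝ) := by
    exact_mod_cast (show (0 : ℤ) ≤ ⌈6 * ε / δ⌉ + 3 by omega)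
  refine ⟨by push_cast; linarith, by rw [e3]; linarith, by omega, ?_, ?_, ?_⟩
  · have c8 : ((⌈6 * ε / δ⌉ + 3 : ℤ) : ℝ) ≤ ((⌊R / (2 * δ)⌋ : ℤ) : ℝ) := by
      refine c2.trans (le_trans ?_ c4)
      have : ε / δ ≤ R / 64 / δ := div_le_div_of_nonneg_right (by linarith) hδ0.le
      have e5 : R / 64 / δ = R / δ / 64 := by ring
      rw [e5] at this
      linarith
    exact_mod_cast c8
  · exact div_nonneg c0' (le_trans (by positivity) c4)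
  · have e4 : 40 * ε / R = 10 * (ε / δ) / (R / δ / 4) := by field_simp; norm_num
    rw [e4]
    exact div_le_div₀ (by positivity) c2 (by positivity) c4

/-- **No fjords.** -/
theorem nf6_of (hL : S_left) (hR : S_right) : H411.I_nf6 := by
  classical
  intro Φ δ N k p S hA e he r₁ hr₁ q hq
  obtain ⟨q', hq', hqq⟩ := ENNReal.lt_iff_exists_nnreal_btwn.1 hq
  have hq0 : (0 : ℝ) < q' := by exact_mod_cast hq'
  obtain ⟨R, hRpos, hRe, hRr⟩ : ∃ R : ℝ, 0 < R ∧ 16 * R ≤ e ∧ 16 * R ≤ r₁ :=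
    ⟨min e r₁ / 16, by positivity, by linarith [min_le_left e r₁],
      by linarith [min_le_right e r₁]⟩
  obtain ⟨η, hη, hηR, hgate⟩ := gate1 Φ δ N k p S hA hRpos hRe hRr
  obtain ⟨K, hK⟩ := s_pieces Φ δ N k p S hA (η / 16) (by positivity) (q' / 2) (by positivity)
  obtain ⟨C, α, hC, hα, hfarm⟩ := s_farm
  obtain ⟨ε, hε, hεη, hεq⟩ := exists_eps (C := C) hα (R := R) hη
    (show (0 : ℝ) < q' / 2 by positivity) (((K + 1 : ℕ) : ℝ) * ((K + 2 : ℕ) : ℝ))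
  obtain ⟨ρ, hρ, hev⟩ := hgate ε hε
  refine ⟨ρ, hρ, ?_⟩
  filter_upwards [hev, hK, hA.2.1.eventually (gt_mem_nhds hε), eventually_two hA]
    with i h1 h2 h3 hk1
  obtain ⟨hδ0, hk0, hkN, hp, hS⟩ := hA.1 i
  obtain ⟨c1, c2, c3, c4, c5, c6⟩ := radii (R := R) hδ0 h3 (by linarith)
  have hx : law (S i) {ω | K < pcA (p i) (k i) (δ i) (η / 16) ω.1 (len (p i) (k i) ω.1 - 1)} ≤
      ENNReal.ofReal (q' / 2) :=
    law_le (Q := fun A => K < pcA (p i) (k i) (δ i) (η / 16) A (len (p i) (k i) A - 1)) h2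
  have hy : ∀ Q : Finset (Sym2 (ℤ × ℤ)) → ℕ → Prop,
      (∀ A A' : Finset (Sym2 (ℤ × ℤ)), ∀ j, (∀ l ≤ j, run (p i) (k i) A l = run (p i) (k i) A' l) →
        Q A j → Q A' j) →
      law (S i) {ω | ∃ τ, Q ω.1 τ ∧ (∀ j < τ, ¬ Q ω.1 j) ∧
        FArm (p i) (k i) (S i) ω.1 τ (⌈6 * ε / δ i⌉ + 3) ⌊R / (2 * δ i)⌋} ≤
      ENNReal.ofReal (C * (40 * ε / R) ^ α) := by
    intro Q hQ
    have h5 := hfarm (N i) (p i) (S i) (k i) hp hS hk0 hkN Q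
        (fun A _ A' _ j hj => hQ A A' j hj) _ _ c3 c4
    refine (law_le (Q := fun A => ∃ τ, Q A τ ∧ (∀ j < τ, ¬ Q A j) ∧
        FArm (p i) (k i) (S i) A τ (⌈6 * ε / δ i⌉ + 3) ⌊R / (2 * δ i)⌋) h5).trans
      (ENNReal.ofReal_le_ofReal ?_)
    exact mul_le_mul_of_nonneg_left (Real.rpow_le_rpow c5 c6 hα.le) hC.le
  have hlev := nf_level hL hR hδ0 hp hS hk0 hk1 hη hηR hεη h3.le h1 c1 c2 hx hy
  refine hlev.trans ?_
  have hy0 : 0 ≤ C * (40 * ε / R) ^ α := by positivity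
  have e6 : ∀ z : ℝ, 0 ≤ z → ((K + 1 : ℕ) : ℝ≥0∞) * (((K + 2 : ℕ) : ℝ≥0∞) *
      ENNReal.ofReal z) = ENNReal.ofReal (((K + 1 : ℕ) : ℝ) * ((K + 2 : ℕ) : ℝ) * z) := by
    intro z hz
    rw [ENNReal.ofReal_mul (by positivity), ENNReal.ofReal_mul (by positivity),
      ENNReal.ofReal_natCast, ENNReal.ofReal_natCast, mul_assoc]
  have e7 : ENNReal.ofReal (q' / 2) + ENNReal.ofReal (q' / 2) ≤ q := by
    rw [← ENNReal.ofReal_add (by positivity) (by positivity), add_halves,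
      ENNReal.ofReal_coe_nnreal]
    exact hqq.le
  refine le_trans (add_le_add le_rfl ?_) e7
  rw [e6 _ hy0]
  exact ENNReal.ofReal_le_ofReal hεq

end Vale.Agent.P167.Fjord
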