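import Vale.Agent.P167.Fjord.Geo

/-!
# P167, block FJORD, lattice half: the pieces of the paths

* A: from the midpoint `em c` of the edge `ahead c` to the centre of the face `fc c`
* B: from the vertex `c.1` to `em c`
* C: from the dart `c` to `em c`
* D: along the edge `ahead c` at distance `5/16`
* E: around the vertex `c.1` at distance `5/16`
* F: from the vertex `c.1` to `cpt 5/16 c`
-/

set_option linter.unusedSimpArgs false
set_option linter.unusedVariables false
set_option linter.unnecessarySeqFocus false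
set_option linter.unusedTactic false

open Set Metric

namespace Vale.Agent.P167.Fjord

open Vale.Agent.P167.E6 Vale.Agent.P167.E2

/-- The midpoint of the edge ahead. -/
noncomputable def em (c : Medial) : ℂ := ⟨(c.1.1 + (adv c).1.1) / 2, (c.1.2 + (adv c).1.2) / 2⟩

/-- The centre of a face. -/
noncomputable def ctr (f : ℤ × ℤ) : ℂ := ⟨f.1 + 1 / 2, f.2 + 1 / 2⟩

/-- The point at distance `5/16` of the midpoint of the edge ahead, in the face on the right. -/
noncomputable def qo (c : Medial) : ℂ :=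
  ⟨(em c).re + 5 / 16 * (dir c.2).1, (em c).im + 5 / 16 * (dir c.2).2⟩

/-- The diagonal piece, mesh `1`. -/
def Bt (d : Medial) : Set ℂ := segment ℝ (cpt (1 / 4) d) (cpt (3 / 8) d)

theorem em_congr {c c' : Medial} (h : ahead c = ahead c') : em c = em c' := by
  rw [ahead_eq, ahead_eq, Sym2.eq_iff] at h
  rcases h with ⟨h1, h2⟩ | ⟨h1, h2⟩ <;> simp only [em, h1, h2]
  apply Complex.ext <;> simp only <;> ring

theorem bt_coord {d : Medial} {z : ℂ} (h : z ∈ Bt d) : ∃ ε : ℝ, 0 ≤ ε ∧ ε ≤ 1 / 4 ∧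
    2 * z.re - 1 / 2 = (hl d).1 + ε * (E2.sq d.2).re ∧
    2 * z.im - 1 / 2 = (hl d).2 + ε * (E2.sq d.2).im := by
  obtain ⟨s, h0, h1, e1, e2⟩ := seg_coord h
  have a1 := c14_re d
  have a2 := c14_im d
  refine ⟨s / 4, by positivity, by linarith, ?_, ?_⟩
  · rw [cpt_re] at a1
    rw [e1, cpt_re, cpt_re]
    linear_combination 2 * a1
  · rw [cpt_im] at a2
    rw [e2, cpt_im, cpt_im]
    linear_combination 2 * a2

theorem bt_near {d : Medial} {z : ℂ} (h : z ∈ Bt d) :
    |2 * z.re - 1 / 2 - (hl d).1| ≤ 1 / 4 ∧ |2 * z.im - 1 / 2 - (hl d).2| ≤ 1 / 4 := by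
  obtain ⟨ε, h0, h1, e1, e2⟩ := bt_coord h
  rw [e1, e2]
  constructor
  · rcases sq_re d.2 with h | h <;> rw [h, abs_le] <;> constructor <;> linarith
  · rcases sq_im d.2 with h | h <;> rw [h, abs_le] <;> constructor <;> linarith

theorem bt_self (d : Medial) : cpt (1 / 4) d ∈ Bt d := left_mem_segment _ _ _

theorem bt_on {e : Sym2 (ℤ × ℤ)} {x y d : Medial} (h : VStep e x y ∨ FStep e x y) {z : ℂ}
    (hz : z ∈ Lseg x y) (hd : z ∈ Bt d) : x = d ∨ y = d := by
  obtain ⟨ε, h0, h1, e1, e2⟩ := bt_coord hd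
  rcases h0.eq_or_lt with h0 | h0
  · exact on_pt h hz (by rw [e1, ← h0]; ring) (by rw [e2, ← h0]; ring)
  exfalso
  have key : ∃ m : ℤ, (m : ℝ) < 2 * z.re - 1 / 2 ∧ 2 * z.re - 1 / 2 < m + 1 := by
    rw [e1]
    rcases sq_re d.2 with h | h <;> rw [h]
    · exact ⟨(hl d).1, by linarith, by linarith⟩
    · exact ⟨(hl d).1 - 1, by push_cast; linarith, by push_cast; linarith⟩
  obtain ⟨m, h2, h3⟩ := key
  obtain ⟨l, e3, -⟩ := on_h h hz h2 h3
  rw [e2] at e3
  rcases sq_im d.2 with h | h <;> rw [h] at e3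
  · have : (hl d).2 = l := int_of_bd (by linarith) (by linarith)
    rw [this] at e3
    linarith
  · have : (hl d).2 = l := int_of_bd (by linarith) (by linarith)
    rw [this] at e3
    linarith

theorem int_of_bd' {m l : ℤ} {x : ℝ} (h1 : |x - m| ≤ 1 / 4) (h2 : |x - l| < 3 / 4) : m = l := by
  rw [abs_le] at h1
  rw [abs_lt] at h2
  exact int_of_bd (by linarith) (by linarith)

/-! ### Coordinates of the special points -/

theorem adv_0 (v : ℤ × ℤ) : adv (v, 0) = ((v.1, v.2 + 1), 3) := by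
  simp only [adv, f4_01, f4_0m, dir1]
  ext <;> simp

theorem adv_1 (v : ℤ × ℤ) : adv (v, 1) = ((v.1 - 1, v.2), 0) := by
  simp only [adv, f4_11, f4_1m, dir2]
  ext <;> simp <;> ring

theorem adv_2 (v : ℤ × ℤ) : adv (v, 2) = ((v.1, v.2 - 1), 1) := by
  simp only [adv, f4_21, f4_2m, dir3]
  ext <;> simp <;> ring

theorem adv_3 (v : ℤ × ℤ) : adv (v, 3) = ((v.1 + 1, v.2), 2) := by
  simp only [adv, f4_31, f4_3m, dir0]
  ext <;> simp

theorem rot_0 (v : ℤ × ℤ) : rot (v, 0) = (v, 1) := rfl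
theorem rot_1 (v : ℤ × ℤ) : rot (v, 1) = (v, 2) := rfl
theorem rot_2 (v : ℤ × ℤ) : rot (v, 2) = (v, 3) := rfl
theorem rot_3 (v : ℤ × ℤ) : rot (v, 3) = (v, 0) := rfl

theorem fc_0 (v : ℤ × ℤ) : fc (v, 0) = (v.1, v.2) := face0 v
theorem fc_1 (v : ℤ × ℤ) : fc (v, 1) = (v.1 - 1, v.2) := face1 v
theorem fc_2 (v : ℤ × ℤ) : fc (v, 2) = (v.1 - 1, v.2 - 1) := face2 v
theorem fc_3 (v : ℤ × ℤ) : fc (v, 3) = (v.1, v.2 - 1) := face3 v

/-- The partner of `rot c` along the edge `ahead c`. -/
def par (c : Medial) : Medial := (c.1 + dir (c.2 + 1), c.2 + 2)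

theorem adv_par (c : Medial) : adv (par c) = rot c := by
  obtain ⟨v, r⟩ := c
  have h1 : r + 2 + 1 = r + 1 + 2 := by revert r; decide
  have h2 : r + 2 - 1 = r + 1 := by revert r; decide
  simp only [adv, par, rot, h1, h2, dir_add_two']

theorem ahead_par (c : Medial) : ahead (par c) = ahead c := by
  obtain ⟨v, r⟩ := c
  have h1 : r + 2 + 1 = r + 1 + 2 := by revert r; decide
  simp only [ahead, par, h1, dir_add_two']
  exact Sym2.eq_swap

theorem hl_par (c : Medial) : hl (par c) + dir (c.2 + 3) = hl (rot c) := by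
  rw [← adv_par, hl_advI]
  congr 2
  show c.2 + 3 = c.2 + 2 + 1
  generalize c.2 = r
  revert r
  decide

/-! ### Piece A -/

theorem pA_on {e : Sym2 (ℤ × ℤ)} {x y : Medial} (h : VStep e x y ∨ FStep e x y) {c : Medial}
    {z : ℂ} (hz : z ∈ segment ℝ (em c) (ctr (fc c))) (hz' : z ∈ Lseg x y) :
    (x = c ∧ y = adv c) ∨ (y = c ∧ x = adv c) := by
  obtain ⟨s, h0, h1, e1, e2⟩ := seg_coord hz
  obtain ⟨v, r⟩ := c
  clear hz
  have key : (hl x = hl (v, r) ∧ hl y = hl (adv (v, r))) ∨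
      (hl y = hl (v, r) ∧ hl x = hl (adv (v, r))) := by
    revert r
    refine forall4 ?_ ?_ ?_ ?_ <;> intro e1 e2 <;>
      simp only [em, ctr, adv_0, adv_1, adv_2, adv_3, fc_0, fc_1, fc_2, fc_3, hl_0, hl_1, hl_2,
        hl_3] at e1 e2 ⊢ <;> push_cast at e1 e2
    · obtain ⟨m, hm, hc⟩ := on_v h hz' (l := 2 * v.2) (by push_cast; linarith)
        (by push_cast; linarith)
      have : m = 2 * v.1 := int_of_bd (by push_cast; linarith) (by push_cast; linarith)
      subst this
      have e3 : 2 * v.2 + 1 = 2 * (v.2 + 1) - 1 := by ring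
      rwa [e3] at hc
    · obtain ⟨m, hm, hc⟩ := on_h h hz' (m := 2 * v.1 - 2) (by push_cast; linarith)
        (by push_cast; linarith)
      have : m = 2 * v.2 := int_of_bd (by push_cast; linarith) (by push_cast; linarith)
      subst this
      have e3 : 2 * v.1 - 2 + 1 = 2 * v.1 - 1 := by ring
      have e4 : 2 * v.1 - 2 = 2 * (v.1 - 1) := by ring
      rw [e3, e4] at hc
      tauto
    · obtain ⟨m, hm, hc⟩ := on_v h hz' (l := 2 * v.2 - 2) (by push_cast; linarith)
        (by push_cast; linarith)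
      have : m = 2 * v.1 - 1 := int_of_bd (by push_cast; linarith) (by push_cast; linarith)
      subst this
      have e3 : 2 * v.2 - 2 + 1 = 2 * v.2 - 1 := by ring
      have e4 : 2 * v.2 - 2 = 2 * (v.2 - 1) := by ring
      rw [e3, e4] at hc
      tauto
    · obtain ⟨m, hm, hc⟩ := on_h h hz' (m := 2 * v.1) (by push_cast; linarith)
        (by push_cast; linarith)
      have : m = 2 * v.2 - 1 := int_of_bd (by push_cast; linarith) (by push_cast; linarith)
      subst this
      have e3 : 2 * v.1 + 1 = 2 * (v.1 + 1) - 1 := by ring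
      rwa [e3] at hc
  rcases key with ⟨a, b⟩ | ⟨a, b⟩
  · exact Or.inl ⟨hl_inj a, hl_inj b⟩
  · exact Or.inr ⟨hl_inj a, hl_inj b⟩

theorem pA_bt {c d : Medial} {z : ℂ} (hz : z ∈ segment ℝ (em c) (ctr (fc c))) : z ∉ Bt d := by
  intro hd
  obtain ⟨h2, h3⟩ := bt_near hd
  obtain ⟨s, h0, h1, e1, e2⟩ := seg_coord hz
  obtain ⟨v, r⟩ := c
  clear hz
  rw [abs_le] at h2 h3
  generalize hl d = P at *
  revert r
  refine forall4 ?_ ?_ ?_ ?_ <;> intro e1 e2 <;>
    simp only [em, ctr, adv_0, adv_1, adv_2, adv_3, fc_0, fc_1, fc_2, fc_3] at e1 e2 <;>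
      push_cast at e1 e2
  · have : P.2 = 2 * v.2 := int_of_bd (by push_cast; linarith) (by push_cast; linarith)
    rw [this] at h3
    push_cast at h3
    linarith
  · have : P.1 = 2 * v.1 - 1 := int_of_bd (by push_cast; linarith) (by push_cast; linarith)
    rw [this] at h2
    push_cast at h2
    linarith
  · have : P.2 = 2 * v.2 - 1 := int_of_bd (by push_cast; linarith) (by push_cast; linarith)
    rw [this] at h3
    push_cast at h3
    linarith
  · have : P.1 = 2 * v.1 := int_of_bd (by push_cast; linarith) (by push_cast; linarith)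
    rw [this] at h2
    push_cast at h2
    linarith

/-! ### Piece B -/

theorem pB_on {e : Sym2 (ℤ × ℤ)} {x y : Medial} (h : VStep e x y ∨ FStep e x y) {c : Medial}
    {z : ℂ} (hz : z ∈ segment ℝ (pt c.1) (em c)) (hz' : z ∈ Lseg x y) :
    (x = c ∧ y = rot c) ∨ (y = c ∧ x = rot c) := by
  obtain ⟨s, h0, h1, e1, e2⟩ := seg_coord hz
  obtain ⟨v, r⟩ := c
  clear hz
  have key : (hl x = hl (v, r) ∧ hl y = hl (rot (v, r))) ∨
      (hl y = hl (v, r) ∧ hl x = hl (rot (v, r))) := by
    revert r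
    refine forall4 ?_ ?_ ?_ ?_ <;> intro e1 e2 <;>
      simp only [em, pt, adv_0, adv_1, adv_2, adv_3, rot_0, rot_1, rot_2, rot_3, hl_0, hl_1, hl_2,
        hl_3] at e1 e2 ⊢ <;> push_cast at e1 e2
    · obtain ⟨m, hm, hc⟩ := on_h h hz' (m := 2 * v.1 - 1) (by push_cast; linarith)
        (by push_cast; linarith)
      have : m = 2 * v.2 := int_of_bd (by push_cast; linarith) (by push_cast; linarith)
      subst this
      have e3 : 2 * v.1 - 1 + 1 = 2 * v.1 := by ring
      rw [e3] at hc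
      tauto
    · obtain ⟨m, hm, hc⟩ := on_v h hz' (l := 2 * v.2 - 1) (by push_cast; linarith)
        (by push_cast; linarith)
      have : m = 2 * v.1 - 1 := int_of_bd (by push_cast; linarith) (by push_cast; linarith)
      subst this
      have e3 : 2 * v.2 - 1 + 1 = 2 * v.2 := by ring
      rw [e3] at hc
      tauto
    · obtain ⟨m, hm, hc⟩ := on_h h hz' (m := 2 * v.1 - 1) (by push_cast; linarith)
        (by push_cast; linarith)
      have : m = 2 * v.2 - 1 := int_of_bd (by push_cast; linarith) (by push_cast; linarith)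
      subst this
      have e3 : 2 * v.1 - 1 + 1 = 2 * v.1 := by ring
      rw [e3] at hc
      tauto
    · obtain ⟨m, hm, hc⟩ := on_v h hz' (l := 2 * v.2 - 1) (by push_cast; linarith)
        (by push_cast; linarith)
      have : m = 2 * v.1 := int_of_bd (by push_cast; linarith) (by push_cast; linarith)
      subst this
      have e3 : 2 * v.2 - 1 + 1 = 2 * v.2 := by ring
      rw [e3] at hc
      tauto
  rcases key with ⟨a, b⟩ | ⟨a, b⟩
  · exact Or.inl ⟨hl_inj a, hl_inj b⟩
  · exact Or.inr ⟨hl_inj a, hl_inj b⟩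

theorem pB_bt {c d : Medial} {z : ℂ} (hz : z ∈ segment ℝ (pt c.1) (em c)) : z ∉ Bt d := by
  intro hd
  obtain ⟨h2, h3⟩ := bt_near hd
  obtain ⟨s, h0, h1, e1, e2⟩ := seg_coord hz
  obtain ⟨v, r⟩ := c
  clear hz
  rw [abs_le] at h2 h3
  generalize hl d = P at *
  revert r
  refine forall4 ?_ ?_ ?_ ?_ <;> intro e1 e2 <;>
    simp only [em, pt, adv_0, adv_1, adv_2, adv_3] at e1 e2 <;>
      push_cast at e1 e2
  · have : P.1 = 2 * v.1 := int_of_bd (by push_cast; linarith) (by push_cast; linarith)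
    rw [this] at h2
    push_cast at h2
    linarith
  · have : P.2 = 2 * v.2 := int_of_bd (by push_cast; linarith) (by push_cast; linarith)
    rw [this] at h3
    push_cast at h3
    linarith
  · have : P.1 = 2 * v.1 := int_of_bd (by push_cast; linarith) (by push_cast; linarith)
    rw [this] at h2
    push_cast at h2
    linarith
  · have : P.2 = 2 * v.2 := int_of_bd (by push_cast; linarith) (by push_cast; linarith)
    rw [this] at h3
    push_cast at h3
    linarith

/-! ### Piece C -/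

theorem cpt_0 (θ : ℝ) (v : ℤ × ℤ) : cpt θ (v, 0) = ⟨v.1 + θ, v.2 + θ⟩ := by
  apply Complex.ext
  · rw [cpt_re, sq0]; ring
  · rw [cpt_im, sq0]; ring

theorem cpt_1 (θ : ℝ) (v : ℤ × ℤ) : cpt θ (v, 1) = ⟨v.1 - θ, v.2 + θ⟩ := by
  apply Complex.ext
  · rw [cpt_re, sq1]; ring
  · rw [cpt_im, sq1]; ring

theorem cpt_2 (θ : ℝ) (v : ℤ × ℤ) : cpt θ (v, 2) = ⟨v.1 - θ, v.2 - θ⟩ := by
  apply Complex.ext
  · rw [cpt_re, sq2]; ring
  · rw [cpt_im, sq2]; ring

theorem cpt_3 (θ : ℝ) (v : ℤ × ℤ) : cpt θ (v, 3) = ⟨v.1 + θ, v.2 - θ⟩ := by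
  apply Complex.ext
  · rw [cpt_re, sq3]; ring
  · rw [cpt_im, sq3]; ring

theorem pC_on {e : Sym2 (ℤ × ℤ)} {x y : Medial} (h : VStep e x y ∨ FStep e x y) {c : Medial}
    {z : ℂ} (hz : z ∈ segment ℝ (cpt (1 / 4) c) (em c)) (hz' : z ∈ Lseg x y) : x = c ∨ y = c := by
  obtain ⟨s, h0, h1, e1, e2⟩ := seg_coord hz
  rcases h0.eq_or_lt with h0 | h0
  · refine on_pt h hz' ?_ ?_
    · rw [e1, ← h0, c14_re]
      ring
    · rw [e2, ← h0, c14_im]
      ring
  exfalso
  obtain ⟨v, r⟩ := c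
  clear hz
  revert r
  refine forall4 ?_ ?_ ?_ ?_ <;> intro e1 e2 <;>
    simp only [em, cpt_0, cpt_1, cpt_2, cpt_3, adv_0, adv_1, adv_2, adv_3] at e1 e2 <;>
      push_cast at e1 e2
  · obtain ⟨m, hm, hc⟩ := on_v h hz' (l := 2 * v.2) (by push_cast; linarith)
      (by push_cast; linarith)
    have : m = 2 * v.1 := int_of_bd (by push_cast; linarith) (by push_cast; linarith)
    rw [this] at hm
    push_cast at hm
    linarith
  · obtain ⟨m, hm, hc⟩ := on_v h hz' (l := 2 * v.2 - 1) (by push_cast; linarith)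
      (by push_cast; linarith)
    have : m = 2 * v.1 - 1 := int_of_bd (by push_cast; linarith) (by push_cast; linarith)
    rw [this] at hm
    push_cast at hm
    linarith
  · obtain ⟨m, hm, hc⟩ := on_v h hz' (l := 2 * v.2 - 2) (by push_cast; linarith)
      (by push_cast; linarith)
    have : m = 2 * v.1 - 1 := int_of_bd (by push_cast; linarith) (by push_cast; linarith)
    rw [this] at hm
    push_cast at hm
    linarith
  · obtain ⟨m, hm, hc⟩ := on_v h hz' (l := 2 * v.2 - 1) (by push_cast; linarith)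
      (by push_cast; linarith)
    have : m = 2 * v.1 := int_of_bd (by push_cast; linarith) (by push_cast; linarith)
    rw [this] at hm
    push_cast at hm
    linarith

theorem pC_bt {c d : Medial} {z : ℂ} (hz : z ∈ segment ℝ (cpt (1 / 4) c) (em c))
    (hd : z ∈ Bt d) : d = c := by
  obtain ⟨h2, h3⟩ := bt_near hd
  obtain ⟨s, h0, h1, e1, e2⟩ := seg_coord hz
  apply hl_inj
  obtain ⟨v, r⟩ := c
  clear hz
  rw [abs_le] at h2 h3
  generalize hl d = P at *
  revert r
  refine forall4 ?_ ?_ ?_ ?_ <;> intro e1 e2 <;>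
    simp only [em, cpt_0, cpt_1, cpt_2, cpt_3, adv_0, adv_1, adv_2, adv_3, hl_0, hl_1, hl_2,
      hl_3] at e1 e2 ⊢ <;> push_cast at e1 e2
  · have a : P.1 = 2 * v.1 := int_of_bd (by push_cast; linarith) (by push_cast; linarith)
    have b : P.2 = 2 * v.2 := int_of_bd (by push_cast; linarith) (by push_cast; linarith)
    exact Prod.ext a b
  · have a : P.1 = 2 * v.1 - 1 := int_of_bd (by push_cast; linarith) (by push_cast; linarith)
    have b : P.2 = 2 * v.2 := int_of_bd (by push_cast; linarith) (by push_cast; linarith)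
    exact Prod.ext a b
  · have a : P.1 = 2 * v.1 - 1 := int_of_bd (by push_cast; linarith) (by push_cast; linarith)
    have b : P.2 = 2 * v.2 - 1 := int_of_bd (by push_cast; linarith) (by push_cast; linarith)
    exact Prod.ext a b
  · have a : P.1 = 2 * v.1 := int_of_bd (by push_cast; linarith) (by push_cast; linarith)
    have b : P.2 = 2 * v.2 - 1 := int_of_bd (by push_cast; linarith) (by push_cast; linarith)
    exact Prod.ext a b

/-! ### Piece D -/

theorem pD_on {e : Sym2 (ℤ × ℤ)} {x y : Medial} (h : VStep e x y ∨ FStep e x y) {c : Medial}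
    {z : ℂ} (hz : z ∈ segment ℝ (cpt (5 / 16) c) (cpt (5 / 16) (adv c))) : z ∉ Lseg x y := by
  intro hz'
  obtain ⟨s, h0, h1, e1, e2⟩ := seg_coord hz
  obtain ⟨v, r⟩ := c
  clear hz
  revert r
  refine forall4 ?_ ?_ ?_ ?_ <;> intro e1 e2 <;>
    simp only [adv_0, adv_1, adv_2, adv_3, cpt_0, cpt_1, cpt_2, cpt_3] at e1 e2 <;>
      push_cast at e1 e2
  · obtain ⟨m, hm, hc⟩ := on_v h hz' (l := 2 * v.2) (by push_cast; linarith)
      (by push_cast; linarith)
    have : m = 2 * v.1 := int_of_bd (by push_cast; linarith) (by push_cast; linarith)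
    rw [this] at hm
    push_cast at hm
    linarith
  · obtain ⟨m, hm, hc⟩ := on_h h hz' (m := 2 * v.1 - 2) (by push_cast; linarith)
      (by push_cast; linarith)
    have : m = 2 * v.2 := int_of_bd (by push_cast; linarith) (by push_cast; linarith)
    rw [this] at hm
    push_cast at hm
    linarith
  · obtain ⟨m, hm, hc⟩ := on_v h hz' (l := 2 * v.2 - 2) (by push_cast; linarith)
      (by push_cast; linarith)
    have : m = 2 * v.1 - 1 := int_of_bd (by push_cast; linarith) (by push_cast; linarith)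
    rw [this] at hm
    push_cast at hm
    linarith
  · obtain ⟨m, hm, hc⟩ := on_h h hz' (m := 2 * v.1) (by push_cast; linarith)
      (by push_cast; linarith)
    have : m = 2 * v.2 - 1 := int_of_bd (by push_cast; linarith) (by push_cast; linarith)
    rw [this] at hm
    push_cast at hm
    linarith

theorem pD_bt {c d : Medial} {z : ℂ}
    (hz : z ∈ segment ℝ (cpt (5 / 16) c) (cpt (5 / 16) (adv c))) (hd : z ∈ Bt d) :
    d = c ∨ d = adv c := by
  obtain ⟨h2, h3⟩ := bt_near hd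
  obtain ⟨s, h0, h1, e1, e2⟩ := seg_coord hz
  have key : hl d = hl c ∨ hl d = hl (adv c) := by
    obtain ⟨v, r⟩ := c
    clear hz
    rw [abs_le] at h2 h3
    generalize hl d = P at *
    revert r
    refine forall4 ?_ ?_ ?_ ?_ <;> intro e1 e2 <;>
      simp only [adv_0, adv_1, adv_2, adv_3, cpt_0, cpt_1, cpt_2, cpt_3, hl_0, hl_1, hl_2,
        hl_3] at e1 e2 ⊢ <;> push_cast at e1 e2
    · have a : P.1 = 2 * v.1 := int_of_bd (by push_cast; linarith) (by push_cast; linarith)
      have b1 : P.2 < 2 * v.2 + 2 := by exact_mod_cast (by linarith : (P.2 : ℝ) < 2 * v.2 + 2)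
      have b2 : 2 * v.2 - 1 < P.2 := by exact_mod_cast (by linarith : 2 * (v.2 : ℝ) - 1 < P.2)
      rcases (by omega : P.2 = 2 * v.2 ∨ P.2 = 2 * (v.2 + 1) - 1) with b | b
      · exact Or.inl (Prod.ext a b)
      · exact Or.inr (Prod.ext a b)
    · have a : P.2 = 2 * v.2 := int_of_bd (by push_cast; linarith) (by push_cast; linarith)
      have b1 : P.1 < 2 * v.1 := by exact_mod_cast (by linarith : (P.1 : ℝ) < 2 * v.1)
      have b2 : 2 * v.1 - 3 < P.1 := by exact_mod_cast (by linarith : 2 * (v.1 : ℝ) - 3 < P.1)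
      rcases (by omega : P.1 = 2 * v.1 - 1 ∨ P.1 = 2 * (v.1 - 1)) with b | b
      · exact Or.inl (Prod.ext b a)
      · exact Or.inr (Prod.ext b a)
    · have a : P.1 = 2 * v.1 - 1 := int_of_bd (by push_cast; linarith) (by push_cast; linarith)
      have b1 : P.2 < 2 * v.2 := by exact_mod_cast (by linarith : (P.2 : ℝ) < 2 * v.2)
      have b2 : 2 * v.2 - 3 < P.2 := by exact_mod_cast (by linarith : 2 * (v.2 : ℝ) - 3 < P.2)
      rcases (by omega : P.2 = 2 * v.2 - 1 ∨ P.2 = 2 * (v.2 - 1)) with b | b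
      · exact Or.inl (Prod.ext a b)
      · exact Or.inr (Prod.ext a b)
    · have a : P.2 = 2 * v.2 - 1 := int_of_bd (by push_cast; linarith) (by push_cast; linarith)
      have b1 : P.1 < 2 * v.1 + 2 := by exact_mod_cast (by linarith : (P.1 : ℝ) < 2 * v.1 + 2)
      have b2 : 2 * v.1 - 1 < P.1 := by exact_mod_cast (by linarith : 2 * (v.1 : ℝ) - 1 < P.1)
      rcases (by omega : P.1 = 2 * v.1 ∨ P.1 = 2 * (v.1 + 1) - 1) with b | b
      · exact Or.inl (Prod.ext b a)
      · exact Or.inr (Prod.ext b a)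
  rcases key with h | h
  exacts [Or.inl (hl_inj h), Or.inr (hl_inj h)]

/-- The second half of piece D, from the midpoint. -/
theorem pD'_sub (c : Medial) : segment ℝ (qo c) (cpt (5 / 16) (adv c)) ⊆
    segment ℝ (cpt (5 / 16) c) (cpt (5 / 16) (adv c)) := by
  have h : qo c ∈ segment ℝ (cpt (5 / 16) c) (cpt (5 / 16) (adv c)) := by
    rw [segment_eq_image']
    refine ⟨1 / 2, ⟨by norm_num, by norm_num⟩, ?_⟩
    obtain ⟨v, r⟩ := c
    revert r
    refine forall4 ?_ ?_ ?_ ?_ <;>
      simp only [qo, em, adv_0, adv_1, adv_2, adv_3, cpt_0, cpt_1, cpt_2, cpt_3, dir0, dir1, dir2,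
        dir3] <;> apply Complex.ext <;> simp <;> ring
  exact (convex_segment _ _).segment_subset h (right_mem_segment _ _ _)

theorem pD'_bt {c d : Medial} {z : ℂ} (hz : z ∈ segment ℝ (qo c) (cpt (5 / 16) (adv c)))
    (hd : z ∈ Bt d) : d = adv c := by
  obtain ⟨h2, h3⟩ := bt_near hd
  obtain ⟨s, h0, h1, e1, e2⟩ := seg_coord hz
  apply hl_inj
  obtain ⟨v, r⟩ := c
  clear hz
  rw [abs_le] at h2 h3
  generalize hl d = P at *
  revert r
  refine forall4 ?_ ?_ ?_ ?_ <;> intro e1 e2 <;>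
    simp only [qo, em, adv_0, adv_1, adv_2, adv_3, cpt_0, cpt_1, cpt_2, cpt_3, hl_0, hl_1, hl_2,
      hl_3, dir0, dir1, dir2, dir3] at e1 e2 ⊢ <;> push_cast at e1 e2
  · have a : P.1 = 2 * v.1 := int_of_bd (by push_cast; linarith) (by push_cast; linarith)
    have b : P.2 = 2 * (v.2 + 1) - 1 := int_of_bd (by push_cast; linarith) (by push_cast; linarith)
    exact Prod.ext a b
  · have a : P.1 = 2 * (v.1 - 1) := int_of_bd (by push_cast; linarith) (by push_cast; linarith)
    have b : P.2 = 2 * v.2 := int_of_bd (by push_cast; linarith) (by push_cast; linarith)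
    exact Prod.ext a b
  · have a : P.1 = 2 * v.1 - 1 := int_of_bd (by push_cast; linarith) (by push_cast; linarith)
    have b : P.2 = 2 * (v.2 - 1) := int_of_bd (by push_cast; linarith) (by push_cast; linarith)
    exact Prod.ext a b
  · have a : P.1 = 2 * (v.1 + 1) - 1 := int_of_bd (by push_cast; linarith) (by push_cast; linarith)
    have b : P.2 = 2 * v.2 - 1 := int_of_bd (by push_cast; linarith) (by push_cast; linarith)
    exact Prod.ext a b

theorem pG_sub (c : Medial) : segment ℝ (em c) (qo c) ⊆ segment ℝ (em c) (ctr (fc c)) := by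
  have h : qo c ∈ segment ℝ (em c) (ctr (fc c)) := by
    rw [segment_eq_image']
    refine ⟨5 / 8, ⟨by norm_num, by norm_num⟩, ?_⟩
    obtain ⟨v, r⟩ := c
    revert r
    refine forall4 ?_ ?_ ?_ ?_ <;>
      simp only [qo, em, ctr, adv_0, adv_1, adv_2, adv_3, fc_0, fc_1, fc_2, fc_3, dir0, dir1, dir2,
        dir3] <;> apply Complex.ext <;> simp <;> ring
  exact (convex_segment _ _).segment_subset (left_mem_segment _ _ _) h

/-! ### Piece E -/

theorem pE_on {e : Sym2 (ℤ × ℤ)} {x y : Medial} (h : VStep e x y ∨ FStep e x y) {c : Medial}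
    {z : ℂ} (hz : z ∈ segment ℝ (cpt (5 / 16) c) (cpt (5 / 16) (rot c))) (hz' : z ∈ Lseg x y) :
    FStep (ahead c) x y := by
  obtain ⟨s, h0, h1, e1, e2⟩ := seg_coord hz
  have key : (hl x = hl c ∧ hl y = hl (adv c)) ∨ (hl y = hl c ∧ hl x = hl (adv c)) ∨
      (hl x = hl (par c) ∧ hl y = hl (rot c)) ∨ (hl y = hl (par c) ∧ hl x = hl (rot c)) := by
    obtain ⟨v, r⟩ := c
    clear hz
    revert r
    refine forall4 ?_ ?_ ?_ ?_ <;> intro e1 e2 <;>
      simp only [par, f4_01, f4_11, f4_21, f4_31, f4_02, f4_12, f4_22, f4_32, adv_0, adv_1, adv_2,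
        adv_3, rot_0, rot_1, rot_2, rot_3, cpt_0, cpt_1, cpt_2, cpt_3, hl_0, hl_1, hl_2, hl_3,
        dir0, dir1, dir2, dir3, Prod.fst_add, Prod.snd_add] at e1 e2 ⊢ <;> push_cast at e1 e2
    · obtain ⟨m, hm, hc⟩ := on_v h hz' (l := 2 * v.2) (by push_cast; linarith)
        (by push_cast; linarith)
      have b1 : m < 2 * v.1 + 1 := by exact_mod_cast (by linarith : (m : ℝ) < 2 * v.1 + 1)
      have b2 : 2 * v.1 - 2 < m := by exact_mod_cast (by linarith : 2 * (v.1 : ℝ) - 2 < m)
      have e3 : 2 * v.2 + 1 = 2 * (v.2 + 1) - 1 := by ring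
      rcases (by omega : m = 2 * v.1 ∨ m = 2 * v.1 - 1) with b | b
      · subst b
        rw [e3] at hc
        tauto
      · subst b
        rw [e3] at hc
        rw [add_zero]
        tauto
    · obtain ⟨m, hm, hc⟩ := on_h h hz' (m := 2 * v.1 - 2) (by push_cast; linarith)
        (by push_cast; linarith)
      have b1 : m < 2 * v.2 + 1 := by exact_mod_cast (by linarith : (m : ℝ) < 2 * v.2 + 1)
      have b2 : 2 * v.2 - 2 < m := by exact_mod_cast (by linarith : 2 * (v.2 : ℝ) - 2 < m)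
      have e3 : 2 * v.1 - 2 + 1 = 2 * v.1 - 1 := by ring
      have e4 : 2 * v.1 - 2 = 2 * (v.1 - 1) := by ring
      have e5 : 2 * (v.1 + -1) = 2 * (v.1 - 1) := by ring
      rcases (by omega : m = 2 * v.2 ∨ m = 2 * v.2 - 1) with b | b
      · subst b
        rw [e3, e4] at hc
        tauto
      · subst b
        rw [e3, e4] at hc
        rw [add_zero, e5]
        tauto
    · obtain ⟨m, hm, hc⟩ := on_v h hz' (l := 2 * v.2 - 2) (by push_cast; linarith)
        (by push_cast; linarith)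
      have b1 : m < 2 * v.1 + 1 := by exact_mod_cast (by linarith : (m : ℝ) < 2 * v.1 + 1)
      have b2 : 2 * v.1 - 2 < m := by exact_mod_cast (by linarith : 2 * (v.1 : ℝ) - 2 < m)
      have e3 : 2 * v.2 - 2 + 1 = 2 * v.2 - 1 := by ring
      have e4 : 2 * v.2 - 2 = 2 * (v.2 - 1) := by ring
      have e5 : 2 * (v.2 + -1) = 2 * (v.2 - 1) := by ring
      rcases (by omega : m = 2 * v.1 ∨ m = 2 * v.1 - 1) with b | b
      · subst b
        rw [e3, e4] at hc
        rw [add_zero, e5]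
        tauto
      · subst b
        rw [e3, e4] at hc
        tauto
    · obtain ⟨m, hm, hc⟩ := on_h h hz' (m := 2 * v.1) (by push_cast; linarith)
        (by push_cast; linarith)
      have b1 : m < 2 * v.2 + 1 := by exact_mod_cast (by linarith : (m : ℝ) < 2 * v.2 + 1)
      have b2 : 2 * v.2 - 2 < m := by exact_mod_cast (by linarith : 2 * (v.2 : ℝ) - 2 < m)
      have e3 : 2 * v.1 + 1 = 2 * (v.1 + 1) - 1 := by ring
      rcases (by omega : m = 2 * v.2 ∨ m = 2 * v.2 - 1) with b | b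
      · subst b
        rw [e3] at hc
        rw [add_zero]
        tauto
      · subst b
        rw [e3] at hc
        tauto
  rcases key with ⟨a, b⟩ | ⟨a, b⟩ | ⟨a, b⟩ | ⟨a, b⟩
  · exact Or.inl ⟨by rw [hl_inj a], by rw [hl_inj a, hl_inj b]⟩
  · exact Or.inr ⟨by rw [hl_inj a], by rw [hl_inj a, hl_inj b]⟩
  · exact Or.inl ⟨by rw [hl_inj a, ahead_par], by rw [hl_inj a, hl_inj b, adv_par]⟩
  · exact Or.inr ⟨by rw [hl_inj a, ahead_par], by rw [hl_inj a, hl_inj b, adv_par]⟩

theorem pE_bt {c d : Medial} {z : ℂ}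
    (hz : z ∈ segment ℝ (cpt (5 / 16) c) (cpt (5 / 16) (rot c))) (hd : z ∈ Bt d) :
    d = c ∨ d = rot c := by
  obtain ⟨h2, h3⟩ := bt_near hd
  obtain ⟨s, h0, h1, e1, e2⟩ := seg_coord hz
  have key : hl d = hl c ∨ hl d = hl (rot c) := by
    obtain ⟨v, r⟩ := c
    clear hz
    rw [abs_le] at h2 h3
    generalize hl d = P at *
    revert r
    refine forall4 ?_ ?_ ?_ ?_ <;> intro e1 e2 <;>
      simp only [rot_0, rot_1, rot_2, rot_3, cpt_0, cpt_1, cpt_2, cpt_3, hl_0, hl_1, hl_2,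
        hl_3] at e1 e2 ⊢ <;> push_cast at e1 e2
    · have a : P.2 = 2 * v.2 := int_of_bd (by push_cast; linarith) (by push_cast; linarith)
      have b1 : P.1 < 2 * v.1 + 1 := by exact_mod_cast (by linarith : (P.1 : ℝ) < 2 * v.1 + 1)
      have b2 : 2 * v.1 - 2 < P.1 := by exact_mod_cast (by linarith : 2 * (v.1 : ℝ) - 2 < P.1)
      rcases (by omega : P.1 = 2 * v.1 ∨ P.1 = 2 * v.1 - 1) with b | b
      · exact Or.inl (Prod.ext b a)
      · exact Or.inr (Prod.ext b a)
    · have a : P.1 = 2 * v.1 - 1 := int_of_bd (by push_cast; linarith) (by push_cast; linarith)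
      have b1 : P.2 < 2 * v.2 + 1 := by exact_mod_cast (by linarith : (P.2 : ℝ) < 2 * v.2 + 1)
      have b2 : 2 * v.2 - 2 < P.2 := by exact_mod_cast (by linarith : 2 * (v.2 : ℝ) - 2 < P.2)
      rcases (by omega : P.2 = 2 * v.2 ∨ P.2 = 2 * v.2 - 1) with b | b
      · exact Or.inl (Prod.ext a b)
      · exact Or.inr (Prod.ext a b)
    · have a : P.2 = 2 * v.2 - 1 := int_of_bd (by push_cast; linarith) (by push_cast; linarith)
      have b1 : P.1 < 2 * v.1 + 1 := by exact_mod_cast (by linarith : (P.1 : ℝ) < 2 * v.1 + 1)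
      have b2 : 2 * v.1 - 2 < P.1 := by exact_mod_cast (by linarith : 2 * (v.1 : ℝ) - 2 < P.1)
      rcases (by omega : P.1 = 2 * v.1 ∨ P.1 = 2 * v.1 - 1) with b | b
      · exact Or.inr (Prod.ext b a)
      · exact Or.inl (Prod.ext b a)
    · have a : P.1 = 2 * v.1 := int_of_bd (by push_cast; linarith) (by push_cast; linarith)
      have b1 : P.2 < 2 * v.2 + 1 := by exact_mod_cast (by linarith : (P.2 : ℝ) < 2 * v.2 + 1)
      have b2 : 2 * v.2 - 2 < P.2 := by exact_mod_cast (by linarith : 2 * (v.2 : ℝ) - 2 < P.2)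
      rcases (by omega : P.2 = 2 * v.2 ∨ P.2 = 2 * v.2 - 1) with b | b
      · exact Or.inr (Prod.ext a b)
      · exact Or.inl (Prod.ext a b)
  rcases key with h | h
  exacts [Or.inl (hl_inj h), Or.inr (hl_inj h)]

/-! ### Piece F -/

theorem pF_on {e : Sym2 (ℤ × ℤ)} {x y : Medial} (h : VStep e x y ∨ FStep e x y) {c : Medial}
    {z : ℂ} (hz : z ∈ segment ℝ (pt c.1) (cpt (5 / 16) c)) (hz' : z ∈ Lseg x y) :
    x = c ∨ y = c := by
  obtain ⟨s, h0, h1, e1, e2⟩ := seg_coord hz
  by_cases hs : s = 4 / 5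
  · refine on_pt h hz' ?_ ?_
    · have := c14_re c
      rw [cpt_re] at this
      rw [e1, cpt_re, hs, pt_re]
      linear_combination 2 * this
    · have := c14_im c
      rw [cpt_im] at this
      rw [e2, cpt_im, hs, pt_im]
      linear_combination 2 * this
  exfalso
  obtain ⟨v, r⟩ := c
  clear hz
  rcases lt_or_gt_of_ne hs with hs | hs
  · revert r
    refine forall4 ?_ ?_ ?_ ?_ <;> intro e1 e2 <;>
      simp only [pt, cpt_0, cpt_1, cpt_2, cpt_3] at e1 e2 <;> push_cast at e1 e2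
    · obtain ⟨m, hm, hc⟩ := on_v h hz' (l := 2 * v.2 - 1) (by push_cast; linarith)
        (by push_cast; linarith)
      have : m = 2 * v.1 := int_of_bd (by push_cast; linarith) (by push_cast; linarith)
      rw [this] at hm
      push_cast at hm
      linarith
    · obtain ⟨m, hm, hc⟩ := on_v h hz' (l := 2 * v.2 - 1) (by push_cast; linarith)
        (by push_cast; linarith)
      have : m = 2 * v.1 - 1 := int_of_bd (by push_cast; linarith) (by push_cast; linarith)
      rw [this] at hm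
      push_cast at hm
      linarith
    · obtain ⟨m, hm, hc⟩ := on_v h hz' (l := 2 * v.2 - 1) (by push_cast; linarith)
        (by push_cast; linarith)
      have : m = 2 * v.1 - 1 := int_of_bd (by push_cast; linarith) (by push_cast; linarith)
      rw [this] at hm
      push_cast at hm
      linarith
    · obtain ⟨m, hm, hc⟩ := on_v h hz' (l := 2 * v.2 - 1) (by push_cast; linarith)
        (by push_cast; linarith)
      have : m = 2 * v.1 := int_of_bd (by push_cast; linarith) (by push_cast; linarith)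
      rw [this] at hm
      push_cast at hm
      linarith
  · revert r
    refine forall4 ?_ ?_ ?_ ?_ <;> intro e1 e2 <;>
      simp only [pt, cpt_0, cpt_1, cpt_2, cpt_3] at e1 e2 <;> push_cast at e1 e2
    · obtain ⟨m, hm, hc⟩ := on_v h hz' (l := 2 * v.2) (by push_cast; linarith)
        (by push_cast; linarith)
      have : m = 2 * v.1 := int_of_bd (by push_cast; linarith) (by push_cast; linarith)
      rw [this] at hm
      push_cast at hm
      linarith
    · obtain ⟨m, hm, hc⟩ := on_v h hz' (l := 2 * v.2) (by push_cast; linarith)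
        (by push_cast; linarith)
      have : m = 2 * v.1 - 1 := int_of_bd (by push_cast; linarith) (by push_cast; linarith)
      rw [this] at hm
      push_cast at hm
      linarith
    · obtain ⟨m, hm, hc⟩ := on_v h hz' (l := 2 * v.2 - 2) (by push_cast; linarith)
        (by push_cast; linarith)
      have : m = 2 * v.1 - 1 := int_of_bd (by push_cast; linarith) (by push_cast; linarith)
      rw [this] at hm
      push_cast at hm
      linarith
    · obtain ⟨m, hm, hc⟩ := on_v h hz' (l := 2 * v.2 - 2) (by push_cast; linarith)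
        (by push_cast; linarith)
      have : m = 2 * v.1 := int_of_bd (by push_cast; linarith) (by push_cast; linarith)
      rw [this] at hm
      push_cast at hm
      linarith

theorem pF_bt {c d : Medial} {z : ℂ} (hz : z ∈ segment ℝ (pt c.1) (cpt (5 / 16) c))
    (hd : z ∈ Bt d) : d = c := by
  obtain ⟨h2, h3⟩ := bt_near hd
  obtain ⟨s, h0, h1, e1, e2⟩ := seg_coord hz
  apply hl_inj
  obtain ⟨v, r⟩ := c
  clear hz
  rw [abs_le] at h2 h3
  generalize hl d = P at *
  revert r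
  refine forall4 ?_ ?_ ?_ ?_ <;> intro e1 e2 <;>
    simp only [pt, cpt_0, cpt_1, cpt_2, cpt_3, hl_0, hl_1, hl_2, hl_3] at e1 e2 ⊢ <;>
      push_cast at e1 e2
  · have a : P.1 = 2 * v.1 := int_of_bd (by push_cast; linarith) (by push_cast; linarith)
    have b : P.2 = 2 * v.2 := int_of_bd (by push_cast; linarith) (by push_cast; linarith)
    exact Prod.ext a b
  · have a : P.1 = 2 * v.1 - 1 := int_of_bd (by push_cast; linarith) (by push_cast; linarith)
    have b : P.2 = 2 * v.2 := int_of_bd (by push_cast; linarith) (by push_cast; linarith)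
    exact Prod.ext a b
  · have a : P.1 = 2 * v.1 - 1 := int_of_bd (by push_cast; linarith) (by push_cast; linarith)
    have b : P.2 = 2 * v.2 - 1 := int_of_bd (by push_cast; linarith) (by push_cast; linarith)
    exact Prod.ext a b
  · have a : P.1 = 2 * v.1 := int_of_bd (by push_cast; linarith) (by push_cast; linarith)
    have b : P.2 = 2 * v.2 - 1 := int_of_bd (by push_cast; linarith) (by push_cast; linarith)
    exact Prod.ext a b

/-- The piece from the dart outward is in the diagonal. -/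
theorem pF'_sub (c : Medial) : segment ℝ (cpt (1 / 4) c) (cpt (5 / 16) c) ⊆
    segment ℝ (pt c.1) (cpt (5 / 16) c) := by
  have h : cpt (1 / 4) c ∈ segment ℝ (pt c.1) (cpt (5 / 16) c) := by
    rw [segment_eq_image']
    refine ⟨4 / 5, ⟨by norm_num, by norm_num⟩, ?_⟩
    obtain ⟨v, r⟩ := c
    revert r
    refine forall4 ?_ ?_ ?_ ?_ <;>
      simp only [pt, cpt_0, cpt_1, cpt_2, cpt_3] <;> apply Complex.ext <;> simp <;> ring
  exact (convex_segment _ _).segment_subset h (right_mem_segment _ _ _)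

/-! ### Points -/

/-- A point of piece D or E is not a dart. -/
theorem c14_ne {z : ℂ} {c d : Medial} (hz : z ∈ segment ℝ (cpt (5 / 16) c) (cpt (5 / 16) (adv c)) ∨
    z ∈ segment ℝ (cpt (5 / 16) c) (cpt (5 / 16) (rot c))) : z ≠ cpt (1 / 4) d := by
  rintro rfl
  have a1 := c14_re d
  have a2 := c14_im d
  generalize hl d = P at *
  rcases hz with hz | hz
  · obtain ⟨s, h0, h1, e1, e2⟩ := seg_coord hz
    rw [a1] at e1
    rw [a2] at e2
    obtain ⟨v, r⟩ := c
    clear hz a1 a2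
    revert r
    refine forall4 ?_ ?_ ?_ ?_ <;> intro e1 e2 <;>
      simp only [adv_0, adv_1, adv_2, adv_3, cpt_0, cpt_1, cpt_2, cpt_3] at e1 e2 <;>
        push_cast at e1 e2
    · have a : P.1 = 2 * v.1 := int_of_bd (by push_cast; linarith) (by push_cast; linarith)
      rw [a] at e1
      push_cast at e1
      linarith
    · have a : P.2 = 2 * v.2 := int_of_bd (by push_cast; linarith) (by push_cast; linarith)
      rw [a] at e2
      push_cast at e2
      linarith
    · have a : P.1 = 2 * v.1 - 1 := int_of_bd (by push_cast; linarith) (by push_cast; linarith)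
      rw [a] at e1
      push_cast at e1
      linarith
    · have a : P.2 = 2 * v.2 - 1 := int_of_bd (by push_cast; linarith) (by push_cast; linarith)
      rw [a] at e2
      push_cast at e2
      linarith
  · obtain ⟨s, h0, h1, e1, e2⟩ := seg_coord hz
    rw [a1] at e1
    rw [a2] at e2
    obtain ⟨v, r⟩ := c
    clear hz a1 a2
    revert r
    refine forall4 ?_ ?_ ?_ ?_ <;> intro e1 e2 <;>
      simp only [rot_0, rot_1, rot_2, rot_3, cpt_0, cpt_1, cpt_2, cpt_3] at e1 e2
    · have a : P.2 = 2 * v.2 := int_of_bd (by push_cast; linarith) (by push_cast; linarith)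
      rw [a] at e2
      push_cast at e2
      linarith
    · have a : P.1 = 2 * v.1 - 1 := int_of_bd (by push_cast; linarith) (by push_cast; linarith)
      rw [a] at e1
      push_cast at e1
      linarith
    · have a : P.2 = 2 * v.2 - 1 := int_of_bd (by push_cast; linarith) (by push_cast; linarith)
      rw [a] at e2
      push_cast at e2
      linarith
    · have a : P.1 = 2 * v.1 := int_of_bd (by push_cast; linarith) (by push_cast; linarith)
      rw [a] at e1
      push_cast at e1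
      linarith

/-! ### The pieces are in the domain -/

/-- The enlarged open face. -/
def EF (f : ℤ × ℤ) : Set ℂ := {z | ((f.1 : ℝ) - 3 / 8 < z.re ∧ z.re < f.1 + 11 / 8) ∧
  (f.2 : ℝ) - 3 / 8 < z.im ∧ z.im < f.2 + 11 / 8}

theorem convex_EF (f : ℤ × ℤ) : Convex ℝ (EF f) := by
  intro x hx y hy a b ha hb hab
  obtain ⟨⟨x1, x2⟩, x3, x4⟩ := hx
  obtain ⟨⟨y1, y2⟩, y3, y4⟩ := hy
  have hb' : b = 1 - a := by linarith
  subst hb'
  simp only [EF, mem_ofPred_eq, Complex.add_re, Complex.add_im, Complex.real_smul,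
    Complex.re_ofReal_mul, Complex.im_ofReal_mul]
  rcases ha.eq_or_lt with h0 | h0
  · rw [← h0]
    refine ⟨⟨?_, ?_⟩, ?_, ?_⟩ <;> linarith
  refine ⟨⟨?_, ?_⟩, ?_, ?_⟩ <;> nlinarith

theorem EF_sub {S : Finset (ℤ × ℤ)} {f : ℤ × ℤ} (hf : f ∈ S) : EF f ⊆ O1 (S : Set (ℤ × ℤ)) :=
  fun _ hz => ⟨f, hf, hz.1.1, hz.1.2, hz.2.1, hz.2.2⟩

theorem seg_O1 {S : Finset (ℤ × ℤ)} {f : ℤ × ℤ} (hf : f ∈ S) {a b : ℂ} (ha : a ∈ EF f)
    (hb : b ∈ EF f) : segment ℝ a b ⊆ O1 (S : Set (ℤ × ℤ)) :=
  ((convex_EF f).segment_subset ha hb).trans (EF_sub hf)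

theorem pt_EF (v : ℤ × ℤ) (t : Fin 4) : pt v ∈ EF (face v t) := by
  revert t
  refine forall4 ?_ ?_ ?_ ?_ <;>
    simp only [EF, face0, face1, face2, face3, pt, mem_ofPred_eq] <;> push_cast <;>
    refine ⟨⟨?_, ?_⟩, ?_, ?_⟩ <;> linarith

theorem cpt_EF {θ : ℝ} (h0 : 0 ≤ θ) (h1 : θ < 3 / 8) (c : Medial) (t : Fin 4) :
    cpt θ c ∈ EF (face c.1 t) := by
  obtain ⟨v, r⟩ := c
  revert r t
  have key : ∀ r t : Fin 4, cpt θ (v, r) ∈ EF (face v t) := by
    refine forall4 ?_ ?_ ?_ ?_ <;> refine forall4 ?_ ?_ ?_ ?_ <;>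
      simp only [EF, face0, face1, face2, face3, cpt_0, cpt_1, cpt_2, cpt_3, mem_ofPred_eq] <;>
      push_cast <;> refine ⟨⟨?_, ?_⟩, ?_, ?_⟩ <;> linarith
  exact fun t r => key r t

/-- Both faces of the edge ahead. -/
theorem em_EF (c : Medial) : em c ∈ EF (face c.1 c.2) ∧ em c ∈ EF (face c.1 (c.2 + 1)) := by
  obtain ⟨v, r⟩ := c
  revert r
  refine forall4 ?_ ?_ ?_ ?_ <;>
    simp only [EF, f4_01, f4_11, f4_21, f4_31, face0, face1, face2, face3, em, adv_0, adv_1, adv_2,
      adv_3, mem_ofPred_eq] <;> push_cast <;>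
    refine ⟨⟨⟨?_, ?_⟩, ?_, ?_⟩, ⟨?_, ?_⟩, ?_, ?_⟩ <;> linarith

theorem qo_EF (c : Medial) : qo c ∈ EF (face c.1 c.2) ∧ qo c ∈ EF (face c.1 (c.2 + 1)) := by
  obtain ⟨v, r⟩ := c
  revert r
  refine forall4 ?_ ?_ ?_ ?_ <;>
    simp only [EF, f4_01, f4_11, f4_21, f4_31, face0, face1, face2, face3, qo, em, adv_0, adv_1,
      adv_2, adv_3, dir0, dir1, dir2, dir3, mem_ofPred_eq] <;> push_cast <;>
    refine ⟨⟨⟨?_, ?_⟩, ?_, ?_⟩, ⟨?_, ?_⟩, ?_, ?_⟩ <;> linarith

theorem ctr_EF (f : ℤ × ℤ) : ctr f ∈ EF f := by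
  simp only [EF, ctr, mem_ofPred_eq]
  refine ⟨⟨?_, ?_⟩, ?_, ?_⟩ <;> linarith

/-- The other end of the edge ahead. -/
theorem cpt_adv_EF {θ : ℝ} (h0 : 0 ≤ θ) (h1 : θ < 3 / 8) (c : Medial) :
    cpt θ (adv c) ∈ EF (face c.1 c.2) ∧ cpt θ (adv c) ∈ EF (face c.1 (c.2 + 1)) := by
  obtain ⟨v, r⟩ := c
  revert r
  refine forall4 ?_ ?_ ?_ ?_ <;>
    simp only [EF, f4_01, f4_11, f4_21, f4_31, face0, face1, face2, face3, adv_0, adv_1, adv_2,
      adv_3, cpt_0, cpt_1, cpt_2, cpt_3, mem_ofPred_eq] <;> push_cast <;>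
    refine ⟨⟨⟨?_, ?_⟩, ?_, ?_⟩, ⟨?_, ?_⟩, ?_, ?_⟩ <;> linarith

theorem em_pt_adv (c : Medial) : pt (adv c).1 ∈ EF (face c.1 c.2) ∧
    pt (adv c).1 ∈ EF (face c.1 (c.2 + 1)) := by
  obtain ⟨v, r⟩ := c
  revert r
  refine forall4 ?_ ?_ ?_ ?_ <;>
    simp only [EF, f4_01, f4_11, f4_21, f4_31, face0, face1, face2, face3, adv_0, adv_1, adv_2,
      adv_3, pt, mem_ofPred_eq] <;> push_cast <;>
    refine ⟨⟨⟨?_, ?_⟩, ?_, ?_⟩, ⟨?_, ?_⟩, ?_, ?_⟩ <;> linarith

/-- (g1) The outer point is on the frontier, mesh `1`. -/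
theorem cpt_not_O1 {S : Finset (ℤ × ℤ)} {c : Medial} (hf : fc c ∉ S) {θ : ℝ} (h0 : 3 / 8 ≤ θ)
    (h1 : θ ≤ 5 / 8) : cpt θ c ∉ O1 (S : Set (ℤ × ℤ)) := by
  rintro ⟨f, hfS, e1, e2, e3, e4⟩
  apply hf
  have : fc c = f := by
    obtain ⟨v, r⟩ := c
    clear hf
    revert r
    refine forall4 ?_ ?_ ?_ ?_ <;> intro e1 e2 e3 e4 <;>
      simp only [cpt_0, cpt_1, cpt_2, cpt_3, fc_0, fc_1, fc_2, fc_3] at e1 e2 e3 e4 ⊢ <;>
      apply Prod.ext <;> simp only <;>
      exact int_of_bd (by push_cast; linarith) (by push_cast; linarith)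
  rw [this]
  exact hfS

end Vale.Agent.P167.Fjord
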