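import Vale.Agent.P167.Fjord.Pos

/-!
# P167, block FJORD: the sets occurring in the gates
-/

open Set Metric

namespace Vale.Agent.P167.Fjord

open Vale.Agent.P167.E6 Vale.Agent.P167.E2

variable {δ : ℝ} {m : ℕ} {C : ℕ → Medial}

theorem Seg_zero : Seg δ 0 C = {Pp δ (C 0)} := by
  ext z
  unfold Seg Pp
  simp

theorem Seg_succ : Seg δ (m + 1) C = Seg δ m C ∪ segment ℝ (Pp δ (C m)) (Pp δ (C (m + 1))) := by
  ext z
  unfold Seg Pp
  simp only [mem_ofPred_eq, mem_union]
  constructor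
  · rintro (h | ⟨i, hi, h⟩)
    · exact Or.inl (Or.inl h)
    · rcases Nat.lt_succ_iff_lt_or_eq.1 hi with h1 | h1
      · exact Or.inl (Or.inr ⟨i, h1, h⟩)
      · subst h1
        exact Or.inr h
  · rintro ((h | ⟨i, hi, h⟩) | h)
    · exact Or.inl h
    · exact Or.inr ⟨i, by omega, h⟩
    · exact Or.inr ⟨m, by omega, h⟩

theorem start_mem_Seg : Pp δ (C 0) ∈ Seg δ m C := Or.inl rfl

theorem mem_Seg {i : ℕ} (h : i ≤ m) : Pp δ (C i) ∈ Seg δ m C := by
  rcases Nat.eq_zero_or_pos i with h0 | h0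
  · rw [h0]; exact start_mem_Seg
  · refine Or.inr ⟨i - 1, by omega, ?_⟩
    rw [Nat.sub_add_cancel h0]
    exact right_mem_segment _ _ _

theorem isCompact_segment (x y : ℂ) : IsCompact (segment ℝ x y) := by
  rw [segment_eq_image_lineMap]
  exact isCompact_Icc.image (AffineMap.lineMap_continuous)

theorem Seg_prop (m : ℕ) (C : ℕ → Medial) :
    IsCompact (Seg δ m C) ∧ IsPreconnected (Seg δ m C) := by
  induction m with
  | zero =>
    rw [Seg_zero]
    exact ⟨isCompact_singleton, isPreconnected_singleton⟩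
  | succ m ih =>
    rw [Seg_succ]
    refine ⟨ih.1.union (isCompact_segment _ _), ?_⟩
    refine IsPreconnected.union (Pp δ (C m)) (mem_Seg le_rfl) (left_mem_segment _ _ _) ih.2 ?_
    exact (convex_segment _ _).isPreconnected

theorem Seg_subset {z : ℂ} {R : ℝ} (h : ∀ i ≤ m, dist (Pp δ (C i)) z ≤ R) :
    Seg δ m C ⊆ closedBall z R := by
  rintro x (rfl | ⟨i, hi, hx⟩)
  · exact mem_closedBall.2 (h 0 (Nat.zero_le _))
  · exact (convex_closedBall z R).segment_subset (mem_closedBall.2 (h i hi.le))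
      (mem_closedBall.2 (h (i + 1) hi)) hx

theorem Bit_prop (c : Medial) : IsCompact (Bit δ c) ∧ IsPreconnected (Bit δ c) :=
  ⟨isCompact_segment _ _, (convex_segment _ _).isPreconnected⟩

theorem Bit_subset {z : ℂ} {R : ℝ} {c : Medial} (h : dist (Pp δ c) z ≤ R)
    (h' : dist ((δ : ℂ) * cpt (3 / 8) c) z ≤ R) : Bit δ c ⊆ closedBall z R :=
  (convex_closedBall z R).segment_subset (mem_closedBall.2 h) (mem_closedBall.2 h')

variable {n : ℕ} {p : ZMod n → ℤ × ℤ} {S : Finset (ℤ × ℤ)} {k : ℕ} {A : Finset (Sym2 (ℤ × ℤ))}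

theorem past_prop (x y : ℝ) :
    IsCompact (pl p k δ A '' Icc x y) ∧ IsPreconnected (pl p k δ A '' Icc x y) :=
  ⟨isCompact_Icc.image (continuous_pl δ), isPreconnected_Icc.image _ (continuous_pl δ).continuousOn⟩

theorem isOpen_Om (hδ : 0 < δ) (S : Finset (ℤ × ℤ)) : IsOpen (Om δ S) := by
  have : Om δ S = ⋃ w ∈ region δ S, {z : ℂ | |z.re - w.re| < 3 / 8 * δ ∧ |z.im - w.im| < 3 / 8 * δ} := by
    ext z
    simp only [Om, mem_ofPred_eq, mem_iUnion, exists_prop]
  rw [this]
  refine isOpen_biUnion fun w _ => ?_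
  refine IsOpen.inter ?_ ?_
  · exact isOpen_lt (continuous_abs.comp (Complex.continuous_re.sub continuous_const))
      continuous_const
  · exact isOpen_lt (continuous_abs.comp (Complex.continuous_im.sub continuous_const))
      continuous_const

end Vale.Agent.P167.Fjord
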